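import Vale.Agent.P205F.Defs

/-!
# P205, immersions with a normal field: algebra in `R4`

The orientation form `d4`, the triple cross product, and their behaviour under changes of frame.
-/

namespace Vale.Agent.P205F.Top

open scoped RealInnerProductSpace

/-- A Plücker coordinate. -/
def plk (a b : R4) (i j : Fin 4) : ℝ := a i * b j - a j * b i

/-- The determinant of four vectors, by complementary minors. -/
def d4 (a b c d : R4) : ℝ :=
  plk a b 0 1 * plk c d 2 3 - plk a b 0 2 * plk c d 1 3 + plk a b 0 3 * plk c d 1 2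
    + plk a b 1 2 * plk c d 0 3 - plk a b 1 3 * plk c d 0 2 + plk a b 2 3 * plk c d 0 1

/-- The vector representing `d4 a b c`. -/
noncomputable def cross (a b c : R4) : R4 :=
  WithLp.toLp 2 fun i => d4 a b c (EuclideanSpace.single i 1)

theorem inner_cross (a b c w : R4) : ⟪cross a b c, w⟫ = d4 a b c w := by
  simp [cross, PiLp.inner_apply, Fin.sum_univ_four, d4, plk]
  ring

theorem d4_left (x y z w : R4) (a b c d : ℝ) :
    d4 (a • x + b • y) (c • x + d • y) z w = (a * d - b * c) * d4 x y z w := by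
  simp [d4, plk]; ring

theorem d4_right (x y z w : R4) (a b c d : ℝ) :
    d4 x y (a • z + b • w) (c • z + d • w) = (a * d - b * c) * d4 x y z w := by
  simp [d4, plk]; ring

theorem d4_mod (x y z w : R4) (a b c d : ℝ) :
    d4 x y (z + (a • x + b • y)) (w + (c • x + d • y)) = d4 x y z w := by
  simp [d4, plk]; ring

theorem d4_swap_right (x y z w : R4) : d4 x y w z = -d4 x y z w := by
  simp [d4, plk]; ring

theorem d4_combo (x y z w : R4) (a b c d : ℝ) :
    d4 (a • x + b • y + c • z + d • w) y z w = a * d4 x y z w ∧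
    d4 x (a • x + b • y + c • z + d • w) z w = b * d4 x y z w ∧
    d4 x y (a • x + b • y + c • z + d • w) w = c * d4 x y z w ∧
    d4 x y z (a • x + b • y + c • z + d • w) = d * d4 x y z w := by
  refine ⟨?_, ?_, ?_, ?_⟩ <;> (simp [d4, plk]; ring)

theorem indep_of_d4 {x y z w : R4} (h : d4 x y z w ≠ 0) {a b c d : ℝ}
    (e : a • x + b • y + c • z + d • w = 0) : a = 0 ∧ b = 0 ∧ c = 0 ∧ d = 0 := by
  obtain ⟨ha, hb, hc, hd⟩ := d4_combo x y z w a b c d
  rw [e] at ha hb hc hd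
  refine ⟨?_, ?_, ?_, ?_⟩
  · exact (mul_eq_zero.1 (ha.symm.trans (by simp [d4, plk]))).resolve_right h
  · exact (mul_eq_zero.1 (hb.symm.trans (by simp [d4, plk]))).resolve_right h
  · exact (mul_eq_zero.1 (hc.symm.trans (by simp [d4, plk]))).resolve_right h
  · exact (mul_eq_zero.1 (hd.symm.trans (by simp [d4, plk]))).resolve_right h

theorem cross_inner_args (a b c : R4) :
    ⟪cross a b c, a⟫ = 0 ∧ ⟪cross a b c, b⟫ = 0 ∧ ⟪cross a b c, c⟫ = 0 := by
  simp only [inner_cross]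
  refine ⟨?_, ?_, ?_⟩ <;> (simp [d4, plk]; ring)

theorem d4_cross_self (a b c : R4) : d4 a b c (cross a b c) = ‖cross a b c‖ ^ 2 := by
  rw [← real_inner_self_eq_norm_sq, inner_cross]

theorem inner4 (x y : R4) : ⟪x, y⟫ = x 0 * y 0 + x 1 * y 1 + x 2 * y 2 + x 3 * y 3 := by
  simp [PiLp.inner_apply, Fin.sum_univ_four]; ring

theorem cross_apply (a b c : R4) (i : Fin 4) :
    cross a b c i = d4 a b c (EuclideanSpace.single i 1) := rfl

theorem norm_cross_sq (a b c : R4) :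
    ‖cross a b c‖ ^ 2 = ⟪a, a⟫ * ⟪b, b⟫ * ⟪c, c⟫ + 2 * (⟪a, b⟫ * ⟪b, c⟫ * ⟪a, c⟫)
      - ⟪a, a⟫ * ⟪b, c⟫ ^ 2 - ⟪b, b⟫ * ⟪a, c⟫ ^ 2 - ⟪c, c⟫ * ⟪a, b⟫ ^ 2 := by
  rw [← real_inner_self_eq_norm_sq]
  simp only [inner4, cross_apply, d4, plk]
  simp
  ring

/-- The cross product of a frame of a plane and a nonzero orthogonal vector is nonzero. -/
theorem cross_ne_zero {a b u : R4} (h : ∀ p q : ℝ, p • a + q • b = 0 → p = 0 ∧ q = 0)
    (hu : u ≠ 0) (hau : ⟪a, u⟫ = 0) (hbu : ⟪b, u⟫ = 0) : cross a b u ≠ 0 := by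
  intro h0
  have e := norm_cross_sq a b u
  rw [h0, norm_zero, hau, hbu] at e
  have h1 : ⟪a, a⟫ * ⟪b, b⟫ = ⟪a, b⟫ ^ 2 := by
    have hu2 : ⟪u, u⟫ ≠ 0 := inner_self_ne_zero.2 hu
    have : (⟪a, a⟫ * ⟪b, b⟫ - ⟪a, b⟫ ^ 2) * ⟪u, u⟫ = 0 := by linear_combination -e
    linarith [(mul_eq_zero.1 this).resolve_right hu2]
  have h2 : ‖⟪a, b⟫ • a - ⟪a, a⟫ • b‖ ^ 2 = 0 := by
    rw [← real_inner_self_eq_norm_sq]
    simp only [inner_sub_left, inner_sub_right, real_inner_smul_left, real_inner_smul_right,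
      real_inner_comm a b]
    linear_combination ⟪a, a⟫ * h1
  have h3 : ⟪a, b⟫ • a + (-⟪a, a⟫) • b = 0 := by
    have := norm_eq_zero.1 (pow_eq_zero_iff two_ne_zero |>.1 h2)
    rw [neg_smul, ← sub_eq_add_neg]; exact this
  have ha : a = 0 := inner_self_eq_zero.1 (neg_eq_zero.1 (h _ _ h3).2)
  have := (h 1 0 (by simp [ha])).1
  exact one_ne_zero this

end Vale.Agent.P205F.Top
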