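import Mathlib

/-!
# P205, immersions with a normal field: the linear-family null lemma

If `z ↦ L z` is a C¹ family of surjective linear maps `E → F` over an open subset of a space of
dimension smaller than `dim F`, then the parameters `p` with `L z p = 0` for some `z` form a null
set. All the general-position statements of this part are instances.
-/

namespace Vale.Agent.P205F.Top

open MeasureTheory Module Set Filter Topology

/-- The image of a C¹ map out of a space of smaller dimension is null. -/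
theorem null_image_of_finrank_lt {W E : Type*} [NormedAddCommGroup W] [NormedSpace ℝ W]
    [FiniteDimensional ℝ W] [NormedAddCommGroup E] [NormedSpace ℝ E] [FiniteDimensional ℝ E]
    [MeasurableSpace E] [BorelSpace E] (μ : Measure E) [μ.IsAddHaarMeasure] {s : Set W}
    {f : W → E} (hf : DifferentiableOn ℝ f s) (hd : finrank ℝ W < finrank ℝ E) :
    μ (f '' s) = 0 := by
  have hr : finrank ℝ (W × (Fin (finrank ℝ E - finrank ℝ W) → ℝ)) = finrank ℝ E := by
    simp only [Module.finrank_prod, Module.finrank_pi, Fintype.card_fin]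
    omega
  let e : E ≃L[ℝ] W × (Fin (finrank ℝ E - finrank ℝ W) → ℝ) :=
    ContinuousLinearEquiv.ofFinrankEq hr.symm
  let π : E →L[ℝ] W :=
    (ContinuousLinearMap.fst ℝ W (Fin (finrank ℝ E - finrank ℝ W) → ℝ)).comp e.toContinuousLinearMap
  let N : Submodule ℝ E :=
    LinearMap.ker ((LinearMap.snd ℝ W (Fin (finrank ℝ E - finrank ℝ W) → ℝ)).comp
      e.toLinearEquiv.toLinearMap)
  have hN : N ≠ ⊤ := by
    intro h
    have h1 : e.symm (0, fun _ => (1 : ℝ)) ∈ N := by rw [h]; trivial
    simp [N] at h1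
    exact one_ne_zero (congrFun h1 ⟨0, by omega⟩)
  have h0 : μ (π ⁻¹' s ∩ (N : Set E)) = 0 :=
    measure_mono_null inter_subset_right (Measure.addHaar_submodule μ N hN)
  have hd' : DifferentiableOn ℝ (f ∘ π) (π ⁻¹' s ∩ (N : Set E)) :=
    hf.comp π.differentiableOn fun x hx => hx.1
  refine measure_mono_null ?_ (addHaar_image_eq_zero_of_differentiableOn_of_addHaar_eq_zero μ hd' h0)
  rintro y ⟨w, hw, rfl⟩
  refine ⟨e.symm (w, 0), ⟨?_, ?_⟩, ?_⟩
  · simpa [π] using hw
  · simp [N]
  · simp [π]

/-- **Null lemma.** Parameters killed by some member of a small family of surjective linear maps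
form a null set. -/
theorem null_of_linear_family {Z E F : Type*} [NormedAddCommGroup Z] [NormedSpace ℝ Z]
    [FiniteDimensional ℝ Z] [NormedAddCommGroup E] [NormedSpace ℝ E] [FiniteDimensional ℝ E]
    [NormedAddCommGroup F] [NormedSpace ℝ F] [FiniteDimensional ℝ F]
    [MeasurableSpace E] [BorelSpace E] (μ : Measure E) [μ.IsAddHaarMeasure]
    {U : Set Z} (hU : IsOpen U) {L : Z → E →L[ℝ] F} (hL : ContDiffOn ℝ 1 L U)
    (hs : ∀ z ∈ U, Function.Surjective (L z)) (hd : finrank ℝ Z < finrank ℝ F) :
    μ {p | ∃ z ∈ U, L z p = 0} = 0 := by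
  have loc : ∀ z : U, ∃ V : Set Z, IsOpen V ∧ (z : Z) ∈ V ∧
      μ {p | ∃ w ∈ V, L w p = 0} = 0 := by
    rintro ⟨z0, hz0⟩
    obtain ⟨R, hR⟩ := (L z0).exists_rightInverse_of_surjective
      (LinearMap.range_eq_top.2 (hs z0 hz0))
    let A : Z → F →L[ℝ] F := fun z => (L z).comp R
    have hA : ContDiffOn ℝ 1 A U := hL.clm_comp contDiffOn_const
    have hA0 : (A z0).IsInvertible := ⟨ContinuousLinearEquiv.refl ℝ F, by simp [A, hR]⟩
    have hopen : ∀ᶠ z in 𝓝 z0, z ∈ U ∧ (A z).IsInvertible := by
      refine (hU.eventually_mem hz0).and ?_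
      have hc : ContinuousAt A z0 := hA.continuousOn.continuousAt (hU.mem_nhds hz0)
      exact hc.eventually (ContinuousLinearEquiv.isOpen.eventually_mem hA0)
    obtain ⟨V, hV, hVo, hzV⟩ := eventually_nhds_iff.1 hopen
    refine ⟨V, hVo, hzV, ?_⟩
    let K : Submodule ℝ E := LinearMap.ker (L z0).toLinearMap
    let Θ : Z × K → E := fun q => (q.2 : E) - R ((A q.1).inverse (L q.1 (q.2 : E)))
    have hΘ : DifferentiableOn ℝ Θ (V ×ˢ univ) := by
      intro q hq
      have h1 : DifferentiableAt ℝ L q.1 :=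
        ((hL.differentiableOn one_ne_zero) q.1 (hV _ hq.1).1).differentiableAt
          (hU.mem_nhds (hV _ hq.1).1)
      have hA1 : DifferentiableAt ℝ (fun y : Z × K => A y.1) q :=
        ((h1.comp q differentiableAt_fst).clm_comp (differentiableAt_const R))
      have hI : DifferentiableAt ℝ ContinuousLinearMap.inverse (A q.1) :=
        ((hV _ hq.1).2.contDiffAt_map_inverse (n := 1)).differentiableAt one_ne_zero
      have h2 : DifferentiableAt ℝ (fun y : Z × K => (A y.1).inverse) q :=
        hI.comp (f := fun y : Z × K => A y.1) q hA1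
      have h3 : DifferentiableAt ℝ (fun y : Z × K => (y.2 : E)) q :=
        K.subtypeL.differentiableAt.comp q differentiableAt_snd
      exact (h3.sub (R.differentiableAt.comp q
        (h2.clm_apply ((h1.comp q differentiableAt_fst).clm_apply h3)))).differentiableWithinAt
    have hdim : finrank ℝ (Z × K) < finrank ℝ E := by
      have h := LinearMap.finrank_range_add_finrank_ker (L z0).toLinearMap
      rw [LinearMap.range_eq_top.2 (hs z0 hz0), finrank_top] at h
      rw [Module.finrank_prod]
      change finrank ℝ Z + finrank ℝ K < finrank ℝ E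
      simp only [K]
      omega
    refine measure_mono_null ?_ (null_image_of_finrank_lt μ hΘ hdim)
    rintro p ⟨w, hw, hp⟩
    have hRL : ∀ y, L z0 (R y) = y := fun y => congrArg (fun T : F →L[ℝ] F => T y) hR
    refine ⟨(w, ⟨p - R (L z0 p), by simp [K, hRL]⟩), ⟨hw, trivial⟩, ?_⟩
    have hAw : (A w).inverse (A w (L z0 p)) = L z0 p := (hV w hw).2.inverse_apply_self _
    change p - R (L z0 p) - R ((A w).inverse (L w (p - R (L z0 p)))) = p
    rw [map_sub, hp, zero_sub, map_neg, map_neg]
    change p - R (L z0 p) - -R ((A w).inverse (A w (L z0 p))) = p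
    rw [hAw]
    abel
  choose V hVo hzV hV0 using loc
  obtain ⟨T, hT, hTU⟩ := TopologicalSpace.isOpen_iUnion_countable V hVo
  refine measure_mono_null ?_ ((measure_biUnion_null_iff hT).2 fun i _ => hV0 i)
  rintro p ⟨z, hz, hp⟩
  have hmem : z ∈ ⋃ i ∈ T, V i := hTU ▸ mem_iUnion.2 ⟨⟨z, hz⟩, hzV _⟩
  obtain ⟨i, hi, hzi⟩ := mem_iUnion₂.1 hmem
  exact mem_iUnion₂.2 ⟨i, hi, z, hzi, hp⟩

/-- Countably many null conditions leave a parameter. -/
theorem exists_not_mem_of_null {E : Type*} [NormedAddCommGroup E] [NormedSpace ℝ E]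
    [FiniteDimensional ℝ E] [MeasurableSpace E] [BorelSpace E] (μ : Measure E)
    [μ.IsAddHaarMeasure] {ι : Type*} [Countable ι] {s : ι → Set E} (hs : ∀ i, μ (s i) = 0) :
    ∃ p, ∀ i, p ∉ s i := by
  by_contra! h
  have h0 : μ univ = 0 :=
    measure_mono_null (fun p _ => mem_iUnion.2 (h p)) (measure_iUnion_null hs)
  exact IsOpen.measure_ne_zero μ isOpen_univ univ_nonempty h0

end Vale.Agent.P205F.Top
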