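import Vale.Agent.P205F.Top.KinkModel
import Vale.Agent.P205F.Chart.Transfer

/-!
# P205, immersions with a normal field: inserting a kink

In a small disc an immersion is flattened and a scaled kink is inserted; the normal field gets two
new zeros, both of the prescribed sign.
-/

namespace Vale.Agent.P205F.Top

open Set Filter Function Topology Metric
open scoped RealInnerProductSpace ContDiff

theorem pert_decay (y : E2) : ‖y‖ * ‖pert y‖ ≤ 32 ∧ ‖y‖ * ‖fderiv ℝ pert y‖ ≤ 64 := by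
  have hsum : ∀ a b c : ℝ, ‖y‖ * |a| ≤ 8 → ‖y‖ * |b| ≤ 8 → ‖y‖ * |c| ≤ 8 →
      ‖y‖ * ‖(-2 * a) • e4 0 + b • e4 2 + c • e4 3‖ ≤ 32 := by
    intro a b c ha hb hc
    have hn : ∀ (x : ℝ) (i : Fin 4), ‖x • e4 i‖ = |x| := fun x i => by
      simp [e4, norm_smul]
    have h := (norm_add_le ((-2 * a) • e4 0 + b • e4 2) (c • e4 3)).trans
      (add_le_add (norm_add_le _ _) le_rfl)
    rw [hn, hn, hn, show |(-2 : ℝ) * a| = 2 * |a| by rw [abs_mul]; norm_num] at h
    have h' := mul_le_mul_of_nonneg_left h (norm_nonneg y)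
    rw [mul_add, mul_add, mul_left_comm] at h'
    linarith
  have h0 := hsum _ _ _ (decay_mul decays_kX decays_kA y) (decay_mul decays_kA decays_kA y)
    (decay_mul decays_kX decays_kX y)
  have h1 := hsum _ _ _ (decay_mul decays_kX' decays_kA y) (decay_mul decays_kA' decays_kA y)
    (decay_mul decays_kX' decays_kX y)
  have h2 := hsum _ _ _ (decay_mul decays_kX decays_kA' y) (decay_mul decays_kA decays_kA' y)
    (decay_mul decays_kX decays_kX' y)
  refine ⟨h0, ?_⟩
  rcases eq_or_ne y 0 with rfl | hy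
  · simp
  rw [(hasFDerivAt_pert y).fderiv, mul_comm, ← le_div_iff₀ (norm_pos_iff.2 hy)]
  refine ContinuousLinearMap.opNorm_le_bound _ (by positivity) fun v => ?_
  rw [div_mul_eq_mul_div, le_div_iff₀ (norm_pos_iff.2 hy), mul_comm]
  simp only [add_apply, ContinuousLinearMap.smulRight_apply, PiLp.proj_apply]
  have h := norm_add_le (v 0 • pert0 y) (v 1 • pert1 y)
  rw [norm_smul, norm_smul] at h
  have a0 := mul_le_mul (PiLp.norm_apply_le v 0) h1 (by positivity) (norm_nonneg v)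
  have a1 := mul_le_mul (PiLp.norm_apply_le v 1) h2 (by positivity) (norm_nonneg v)
  unfold pert0 at a0
  unfold pert1 at a1
  have h' := mul_le_mul_of_nonneg_left h (norm_nonneg y)
  unfold pert0 pert1 at h' ⊢
  nlinarith

theorem joint_continuous : Continuous fun z : (E2 →L[ℝ] R4) × R4 => joint z.1 z.2 := by
  have h1 : Continuous fun z : (E2 →L[ℝ] R4) × R4 =>
      z.1.comp (ContinuousLinearMap.fst ℝ E2 ℝ) := continuous_fst.clm_comp continuous_const
  have h2 : Continuous fun z : (E2 →L[ℝ] R4) × R4 =>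
      (ContinuousLinearMap.snd ℝ E2 ℝ).smulRight z.2 :=
    (ContinuousLinearMap.smulRightL ℝ (E2 × ℝ) R4 (ContinuousLinearMap.snd ℝ E2 ℝ)).continuous.comp
      continuous_snd
  exact h1.add h2

/-- A margin around an injective joint map. -/
theorem exists_margin {T : E2 →L[ℝ] R4} {w : R4} (h : Injective (joint T w)) :
    ∃ ε > 0, ∀ T' w', ‖T' - T‖ < ε → ‖w' - w‖ < ε →
      Injective (joint T' w') ∧ Injective T' := by
  have ho := ContinuousLinearMap.isOpen_injective.preimage joint_continuous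
  obtain ⟨ε, hε, hball⟩ := Metric.isOpen_iff.1 ho (T, w) h
  refine ⟨ε, hε, fun T' w' h1 h2 => ?_⟩
  have hj : Injective (joint T' w') := hball (show (T', w') ∈ ball (T, w) ε by
    rw [mem_ball, Prod.dist_eq, max_lt_iff, dist_eq_norm, dist_eq_norm]; exact ⟨h1, h2⟩)
  refine ⟨hj, fun a b hab => ?_⟩
  have := hj (a₁ := (a, 0)) (a₂ := (b, 0)) (by simp [joint_apply, hab])
  exact congrArg Prod.fst this

theorem prj_ne_zero_of_injective {F : E2 → R4} {x : E2} {w : R4}
    (h : Injective (joint (fderiv ℝ F x) w)) : prj (pd 0 F x) (pd 1 F x) w ≠ 0 := by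
  intro h0
  obtain ⟨p, q, e⟩ := exists_prj_eq (pd 0 F x) (pd 1 F x) w
  rw [h0, zero_add] at e
  have hz : joint (fderiv ℝ F x) w (p • ev 0 + q • ev 1, -1) = joint (fderiv ℝ F x) w 0 := by
    rw [map_zero, joint_apply, map_add, map_smul, map_smul]
    show p • pd 0 F x + q • pd 1 F x + (-1 : ℝ) • w = 0
    rw [← e]; simp
  simpa using congrArg Prod.snd (h hz)

theorem hasFDerivAt_clm_cont {P : E2 → R4 →L[ℝ] R4} {h : E2 → R4} {D : E2 →L[ℝ] R4} {a : E2}
    (hh : HasFDerivAt h D a) (h0 : h a = 0) (hP : ContinuousAt P a) :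
    HasFDerivAt (fun x => P x (h x)) ((P a).comp D) a := by
  have hk : ∀ k : Fin 4, HasFDerivAt (fun x => h x k • P x (EuclideanSpace.single k 1))
      (((EuclideanSpace.proj (𝕜 := ℝ) k).comp D).smulRight
        (P a (EuclideanSpace.single k 1))) a := fun k =>
    hasFDerivAt_smul_cont ((EuclideanSpace.proj (𝕜 := ℝ) k).hasFDerivAt.comp a hh) (by simp [h0])
      (hP.clm_apply continuousAt_const)
  have hs := HasFDerivAt.fun_sum (u := (Finset.univ : Finset (Fin 4))) fun k _ => hk k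
  have hexp : ∀ w : R4, w = ∑ k, w k • EuclideanSpace.single k (1 : ℝ) := fun w => by
    ext i; simp [Finset.sum_apply, Pi.single_apply]
  refine (hs.congr_of_eventuallyEq (Eventually.of_forall fun x => ?_)).congr_fderiv
    (ContinuousLinearMap.ext fun v => ?_)
  · conv_lhs => rw [hexp (h x)]
    simp
  · simp only [ContinuousLinearMap.comp_apply]
    conv_rhs => rw [hexp (D v)]
    simp

/-- The cutoff. -/
noncomputable def bump0 : ContDiffBump (0 : E2) := ⟨1 / 2, 1, one_half_pos, one_half_lt_one⟩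

/-- The cutoff at scale `r`. -/
noncomputable def cut (r : ℝ) (x : E2) : ℝ := bump0 (r⁻¹ • x)

theorem cut_props {r : ℝ} (hr : 0 < r) :
    ContDiff ℝ ∞ (cut r) ∧ (∀ x, 0 ≤ cut r x ∧ cut r x ≤ 1) ∧
      (∀ x, ‖x‖ ≤ r / 2 → cut r x = 1) ∧ (∀ x, r ≤ ‖x‖ → cut r x = 0) := by
  refine ⟨bump0.contDiff.comp (contDiff_id.const_smul r⁻¹),
    fun x => ⟨bump0.nonneg, bump0.le_one⟩, fun x hx => ?_, fun x hx => ?_⟩
  · refine bump0.one_of_mem_closedBall (mem_closedBall_zero_iff.2 ?_)
    rw [norm_smul, norm_inv, Real.norm_eq_abs, abs_of_pos hr, inv_mul_le_iff₀ hr]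
    simp only [bump0]; linarith
  · refine bump0.zero_of_le_dist ?_
    rw [dist_zero_right, norm_smul, norm_inv, Real.norm_eq_abs, abs_of_pos hr,
      le_inv_mul_iff₀ hr]
    simp only [bump0]; linarith

theorem exists_cut_bound : ∃ C : ℝ, 0 ≤ C ∧ ∀ (r : ℝ), 0 < r → ∀ x,
    ‖fderiv ℝ (cut r) x‖ ≤ C / r := by
  have hs : HasCompactSupport (bump0 : E2 → ℝ) := bump0.hasCompactSupport
  obtain ⟨C, hC⟩ := (bump0.contDiff (n := (⊤ : ℕ∞))).continuous_fderiv (by simp)
    |>.bounded_above_of_compact_support (hs.fderiv (𝕜 := ℝ))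
  refine ⟨max C 0, le_max_right _ _, fun r hr x => ?_⟩
  have hd : HasFDerivAt (cut r) ((fderiv ℝ bump0 (r⁻¹ • x)).comp
      (r⁻¹ • ContinuousLinearMap.id ℝ E2)) x :=
    ((bump0.contDiff (n := (⊤ : ℕ∞))).differentiable (by simp) _).hasFDerivAt.comp x
      ((hasFDerivAt_id x).const_smul r⁻¹)
  rw [hd.fderiv, ContinuousLinearMap.comp_smul, ContinuousLinearMap.comp_id, norm_smul, norm_inv,
    Real.norm_eq_abs, abs_of_pos hr, div_eq_inv_mul]
  exact mul_le_mul_of_nonneg_left ((hC _).trans (le_max_left _ _)) (inv_nonneg.2 hr.le)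

theorem norm_fderiv_cut_smul {r : ℝ} (hr : 0 < r) {C : ℝ}
    (hC : ∀ x, ‖fderiv ℝ (cut r) x‖ ≤ C / r) {h : E2 → R4} {x : E2}
    (hh : DifferentiableAt ℝ h x) :
    ‖fderiv ℝ (fun z => cut r z • h z) x‖ ≤ ‖fderiv ℝ h x‖ + C / r * ‖h x‖ := by
  obtain ⟨hs, hb, -, -⟩ := cut_props hr
  rw [fderiv_fun_smul (hs.differentiable (by simp) x) hh]
  refine (norm_add_le _ _).trans (add_le_add ?_ ?_)
  · rw [norm_smul, Real.norm_eq_abs, abs_of_nonneg (hb x).1]
    exact mul_le_of_le_one_left (norm_nonneg _) (hb x).2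
  · rw [ContinuousLinearMap.norm_smulRight_apply]
    exact mul_le_mul_of_nonneg_right (hC x) (norm_nonneg _)

/-- The cut-off kink. -/
noncomputable def kinkR (R : ℝ) (y : E2) : R4 := lin y + cut R y • pert y

theorem kinkR_props : ∃ R : ℝ, 4 ≤ R ∧ ContDiff ℝ ∞ (kinkR R) ∧
    (∀ y, ‖y‖ < R / 2 → kinkR R =ᶠ[𝓝 y] kink) ∧
    ∀ y, Injective (fderiv ℝ (kinkR R) y) ∧
      (¬Special y → Injective (joint (fderiv ℝ (kinkR R) y) (e4 2))) := by
  have hlin : Injective (joint lin (e4 2)) := by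
    refine (injective_iff_map_eq_zero _).2 fun z hz => ?_
    rw [joint_apply] at hz
    refine Prod.ext ?_ ?_
    · ext i; fin_cases i
      · simpa [lin, e4] using congrArg (fun w : R4 => w 0) hz
      · simpa [lin, e4] using congrArg (fun w : R4 => w 1) hz
    · simpa [lin, e4] using congrArg (fun w : R4 => w 2) hz
  obtain ⟨ε, hε, hmargin⟩ := exists_margin hlin
  obtain ⟨C, hC0, hC⟩ := exists_cut_bound
  let R : ℝ := max 4 ((C + 1) * 128 / ε + 1)
  have hR : 4 ≤ R := le_max_left _ _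
  have hRε : (C + 1) * 128 / ε < R := (lt_add_one _).trans_le (le_max_right _ _)
  have hR0 : 0 < R := by linarith
  obtain ⟨hs, hb, h1, -⟩ := cut_props hR0
  have hkR : ContDiff ℝ ∞ (kinkR R) := lin.contDiff.add (hs.smul contDiff_pert)
  have heq : ∀ y, ‖y‖ < R / 2 → kinkR R =ᶠ[𝓝 y] kink := fun y hy => by
    filter_upwards [continuous_norm.continuousAt.eventually_lt_const hy] with z hz
    simp [kinkR, kink, h1 z hz.le]
  refine ⟨R, hR, hkR, heq, fun y => ?_⟩
  rcases lt_or_ge ‖y‖ (R / 2) with hy | hy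
  · rw [(heq y hy).fderiv_eq]
    exact kink_injective y
  have hclose : ‖fderiv ℝ (kinkR R) y - lin‖ < ε := by
    have hd : fderiv ℝ (kinkR R) y = lin + fderiv ℝ (fun z => cut R z • pert z) y := by
      show fderiv ℝ (fun z => lin z + cut R z • pert z) y = _
      have hsp : ContDiff ℝ ∞ fun z => cut R z • pert z := hs.smul contDiff_pert
      rw [fderiv_fun_add lin.differentiableAt (hsp.differentiable (by simp) y), lin.fderiv]
    rw [hd, add_sub_cancel_left]
    refine (norm_fderiv_cut_smul hR0 (hC R hR0) (contDiff_pert.differentiable (by simp) y)).trans_lt ?_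
    obtain ⟨d0, d1⟩ := pert_decay y
    rw [div_lt_iff₀ hε] at hRε
    have hp : ‖pert y‖ ≤ 64 / R := by
      rw [le_div_iff₀ hR0]; nlinarith [norm_nonneg (pert y)]
    have hdp : ‖fderiv ℝ pert y‖ ≤ 128 / R := by
      rw [le_div_iff₀ hR0]; nlinarith [norm_nonneg (fderiv ℝ pert y)]
    have hCR : C / R * ‖pert y‖ ≤ C * (64 / R) := by
      refine mul_le_mul (div_le_self hC0 (by linarith)) hp (norm_nonneg _) hC0
    calc ‖fderiv ℝ pert y‖ + C / R * ‖pert y‖ ≤ 128 / R + C * (64 / R) := add_le_add hdp hCR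
      _ = (128 + C * 64) / R := by ring
      _ < ε := by rw [div_lt_iff₀ hR0]; nlinarith
  obtain ⟨a, b⟩ := hmargin _ _ hclose (by rw [sub_self, norm_zero]; exact hε)
  exact ⟨b, fun _ => a⟩

theorem kink_zero_sign {F' m : E2 → R4} {A : R4 →L[ℝ] R4} {v0 : R4} {x : E2}
    {lam α c σ δ : ℝ} (hImm : IsImm F')
    (hP : ContinuousAt (fun y => prj (pd 0 F' y) (pd 1 F' y)) x)
    (hnear : ∀ᶠ z in 𝓝 x, pd 0 F' z = A (e4 0 + pert0 (lam⁻¹ • z)) ∧ m z = v0)
    (hT0 : α • A (e4 0 + pert0 (lam⁻¹ • x)) = v0) (hlam : lam ≠ 0) (hα : α ≠ 0) (hc : 0 < c)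
    (hδ : 0 < σ * δ)
    (hdet : d4 (pd 0 F' x) (pd 1 F' x) (A (fderiv ℝ pert0 (lam⁻¹ • x) (ev 0)))
      (A (fderiv ℝ pert0 (lam⁻¹ • x) (ev 1))) = c * δ) :
    ∃ D : E2 →L[ℝ] R4, HasFDerivAt (fun z => prj (pd 0 F' z) (pd 1 F' z) (m z)) D x ∧
      0 < σ * d4 (pd 0 F' x) (pd 1 F' x) (D (ev 0)) (D (ev 1)) := by
  set P := fun y => prj (pd 0 F' y) (pd 1 F' y)
  set y := lam⁻¹ • x with hy
  let D0 : E2 →L[ℝ] R4 := A.comp ((fderiv ℝ pert0 y).comp (lam⁻¹ • ContinuousLinearMap.id ℝ E2))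
  have h1 : HasFDerivAt (fun z => e4 0 + pert0 (lam⁻¹ • z))
      ((fderiv ℝ pert0 y).comp (lam⁻¹ • ContinuousLinearMap.id ℝ E2)) x :=
    (HasFDerivAt.comp (g := pert0) (f := fun z : E2 => lam⁻¹ • z) x
      (hasFDerivAt_pert0 y).differentiableAt.hasFDerivAt
      ((hasFDerivAt_id x).const_smul lam⁻¹)).const_add (e4 0)
  have h2 : HasFDerivAt (fun z => A (e4 0 + pert0 (lam⁻¹ • z))) D0 x := A.hasFDerivAt.comp x h1
  have hh : HasFDerivAt (fun z => v0 - α • A (e4 0 + pert0 (lam⁻¹ • z))) (-(α • D0)) x :=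
    (h2.const_smul α).const_sub v0
  have hD := hasFDerivAt_clm_cont (P := P) hh (by rw [← hy, hT0, sub_self]) hP
  have hev : (fun z => P z (m z)) =ᶠ[𝓝 x]
      fun z => P z (v0 - α • A (e4 0 + pert0 (lam⁻¹ • z))) := by
    filter_upwards [hnear] with z hz
    have hsp := prj_span (indep_pd hImm z) α 0
    rw [zero_smul, add_zero] at hsp
    simp only [P, hz.2, map_sub]
    rw [← hz.1, hsp, sub_zero]
  refine ⟨_, hD.congr_of_eventuallyEq hev, ?_⟩
  have hmod : ∀ u u', d4 (pd 0 F' x) (pd 1 F' x) (P x u) (P x u') =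
      d4 (pd 0 F' x) (pd 1 F' x) u u' := by
    intro u u'
    obtain ⟨p, q, e⟩ := exists_prj_eq (pd 0 F' x) (pd 1 F' x) u
    obtain ⟨p', q', e'⟩ := exists_prj_eq (pd 0 F' x) (pd 1 F' x) u'
    conv_rhs => rw [e, e', d4_mod]
  have eD : ∀ v : E2, (-(α • D0)) v = (-(α * lam⁻¹)) • A (fderiv ℝ pert0 y v) := fun v => by
    simp [D0, smul_smul]
  rw [ContinuousLinearMap.comp_apply, ContinuousLinearMap.comp_apply, hmod, eD, eD]
  have e2 := d4_right (pd 0 F' x) (pd 1 F' x) (A (fderiv ℝ pert0 y (ev 0)))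
    (A (fderiv ℝ pert0 y (ev 1))) (-(α * lam⁻¹)) 0 0 (-(α * lam⁻¹))
  simp only [zero_smul, add_zero, zero_add] at e2
  rw [e2, hdet]
  have : 0 < (α * lam⁻¹) ^ 2 * c := by positivity
  nlinarith [mul_pos this hδ]

theorem exists_kink {F n : E2 → R4} (hF : ContDiff ℝ ∞ F) (hI : IsImm F) (hn : Continuous n)
    (hN : ∀ x, IsNrm F x (n x)) (hn0 : ∀ x, n x ≠ 0) (s : Bool) :
    ∃ (F' n' : E2 → R4) (a b : E2), ContDiff ℝ ∞ F' ∧ IsImm F' ∧ Continuous n' ∧
      (∀ x, IsNrm F' x (n' x)) ∧ (∀ x, x ∉ closedBall (0 : E2) 1 → F' x = F x ∧ n' x = n x) ∧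
      a ≠ b ∧ (∀ x, n' x = 0 ↔ x = a ∨ x = b) ∧
      ∀ x, n' x = 0 → ∃ D : E2 →L[ℝ] R4, HasFDerivAt n' D x ∧
        0 < sgn s * d4 (pd 0 F' x) (pd 1 F' x) (D (ev 0)) (D (ev 1)) := by
  set T0 := pd 0 F 0
  set T1 := pd 1 F 0
  set v0 := n 0
  have hind := indep_pd hI 0
  obtain ⟨hc0, hcpos, -, -, -⟩ := normal_frame_props hind (hn0 0) (hN 0).1 (hN 0).2
  let w : Fin 4 → R4 := ![T0, T1, v0, sgn s • cross T0 T1 v0]
  have hw : 0 < sgn s * d4 (w 0) (w 1) (w 2) (w 3) := by
    have e : d4 T0 T1 ((1 : ℝ) • v0 + (0 : ℝ) • cross T0 T1 v0)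
        ((0 : ℝ) • v0 + sgn s • cross T0 T1 v0) = sgn s * d4 T0 T1 v0 (cross T0 T1 v0) := by
      rw [d4_right]; ring
    simp only [one_smul, zero_smul, add_zero, zero_add] at e
    have : sgn s * sgn s = 1 := by cases s <;> simp [sgn]
    show 0 < sgn s * d4 T0 T1 v0 (sgn s • cross T0 T1 v0)
    rw [e, ← mul_assoc, this, one_mul]
    exact hcpos
  let A : R4 →L[ℝ] R4 := ∑ i, (EuclideanSpace.proj (𝕜 := ℝ) i).smulRight (w i)
  have hA : ∀ u, A u = ∑ i, u i • w i := fun u => by simp [A]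
  have hAinj : Injective A := (injective_iff_map_eq_zero _).2 fun u hu => by
    rw [hA, Fin.sum_univ_four] at hu
    obtain ⟨a, b, c, d⟩ := indep_of_d4
      (fun h => by simp [h] at hw : d4 (w 0) (w 1) (w 2) (w 3) ≠ 0) hu
    ext i; fin_cases i <;> assumption
  have hAlin : ∀ u, A (lin u) = fderiv ℝ F 0 u := fun u => by
    rw [hA, apply_eq_pd F 0 u]
    simp [lin, e4, Fin.sum_univ_four, w, T0, T1]
  have hA2 : A (e4 2) = v0 := by rw [hA]; simp [e4, Fin.sum_univ_four, w]
  have hjA : ∀ {T : E2 →L[ℝ] R4}, Injective (joint T (e4 2)) →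
      Injective (joint (A.comp T) v0) := by
    intro T h
    have e : ∀ z, joint (A.comp T) v0 z = A (joint T (e4 2) z) := fun z => by
      simp [joint_apply, hA2]
    intro z z' hzz
    rw [e, e] at hzz
    exact h (hAinj hzz)
  obtain ⟨R, hR, hkR, hkeq, hkinj⟩ := kinkR_props
  have hlinj : Injective (joint (fderiv ℝ F 0) v0) := by
    have hj : Injective (joint lin (e4 2)) := by
      refine (injective_iff_map_eq_zero _).2 fun z hz => ?_
      rw [joint_apply] at hz
      refine Prod.ext ?_ ?_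
      · ext i; fin_cases i
        · simpa [lin, e4] using congrArg (fun w : R4 => w 0) hz
        · simpa [lin, e4] using congrArg (fun w : R4 => w 1) hz
      · simpa [lin, e4] using congrArg (fun w : R4 => w 2) hz
    have e : A.comp lin = fderiv ℝ F 0 := ContinuousLinearMap.ext hAlin
    rw [← e]
    exact hjA hj
  obtain ⟨ε, hε, hmargin⟩ := exists_margin hlinj
  obtain ⟨C, hC0, hC⟩ := exists_cut_bound
  let ε1 := ε / (2 * (C + 2))
  have hε1 : 0 < ε1 := by positivity
  have hFd : Continuous (fderiv ℝ F) := hF.continuous_fderiv (by simp)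
  let L : E2 → R4 := fun x => F 0 + fderiv ℝ F 0 x
  have hev : ∀ᶠ x in 𝓝 (0 : E2), ‖fderiv ℝ F x - fderiv ℝ F 0‖ ≤ ε1 ∧ ‖n x - v0‖ < ε ∧
      ‖L x - F x‖ ≤ ε1 * ‖x‖ := by
    refine (((hFd.sub continuous_const).norm.continuousAt).eventually_le_const
      (by simpa using hε1)).and (((hn.sub continuous_const).norm.continuousAt.eventually_lt_const
        (by simpa [v0] using hε)).and ?_)
    have h := Asymptotics.isLittleO_iff.1
      (hF.differentiable (by simp) (0 : E2)).hasFDerivAt.isLittleO hε1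
    filter_upwards [h] with x hx
    rw [norm_sub_rev]
    simpa [L, sub_sub] using hx
  obtain ⟨δ, hδ, hball⟩ := Metric.eventually_nhds_iff.1 hev
  let r := min (δ / 2) 1
  have hr : 0 < r := lt_min (half_pos hδ) one_pos
  have hrδ : ∀ x, ‖x‖ ≤ r → _ := fun x hx => hball (show dist x 0 < δ by
    rw [dist_zero_right]; linarith [min_le_left (δ / 2) (1 : ℝ)])
  have hR0 : 0 < R := by linarith
  let lam := r / (4 * R)
  have hlam : 0 < lam := by positivity
  have hlamR : lam * R = r / 4 := by simp only [lam]; field_simp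
  obtain ⟨hcs, hcb, hc1, hc0'⟩ := cut_props hr
  let F' : E2 → R4 := fun x => F x + cut r x • (L x - F x) +
    cut R (lam⁻¹ • x) • (lam • A (pert (lam⁻¹ • x)))
  let m : E2 → R4 := fun x => n x + cut r x • (v0 - n x)
  have hLs : ContDiff ℝ ∞ L := contDiff_const.add (fderiv ℝ F 0).contDiff
  obtain ⟨hRs, -, -, hR0'⟩ := cut_props hR0
  have hF's : ContDiff ℝ ∞ F' := (hF.add (hcs.smul (hLs.sub hF))).add
    ((hRs.comp (contDiff_id.const_smul lam⁻¹)).smul
      ((A.contDiff.comp (contDiff_pert.comp (contDiff_id.const_smul lam⁻¹))).const_smul lam))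
  have hm : Continuous m := hn.add (hcs.continuous.smul (continuous_const.sub hn))
  -- the flat zone
  have hflat : ∀ x, ‖x‖ < r / 2 → fderiv ℝ F' x = A.comp (fderiv ℝ (kinkR R) (lam⁻¹ • x)) ∧
      m x = v0 := by
    intro x hx
    have e : F' =ᶠ[𝓝 x] fun z => F 0 + lam • A (kinkR R (lam⁻¹ • z)) := by
      filter_upwards [continuous_norm.continuousAt.eventually_lt_const hx] with z hz
      simp only [F', hc1 z hz.le, one_smul, kinkR, map_add, map_smul, smul_add, L, smul_smul,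
        mul_inv_cancel₀ hlam.ne', hAlin, mul_comm (cut R (lam⁻¹ • z)) lam]
      abel
    refine ⟨?_, by simp [m, hc1 x hx.le]⟩
    have h1 : HasFDerivAt (fun z => kinkR R (lam⁻¹ • z))
        ((fderiv ℝ (kinkR R) (lam⁻¹ • x)).comp (lam⁻¹ • ContinuousLinearMap.id ℝ E2)) x :=
      (hkR.differentiable (by simp) _).hasFDerivAt.comp x ((hasFDerivAt_id x).const_smul lam⁻¹)
    have h2 := ((A.hasFDerivAt.comp x h1).const_smul lam).const_add (F 0)
    rw [e.fderiv_eq]
    have h3 : HasFDerivAt (fun z => F 0 + lam • A (kinkR R (lam⁻¹ • z)))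
        (A.comp (fderiv ℝ (kinkR R) (lam⁻¹ • x))) x := by
      refine h2.congr_fderiv (ContinuousLinearMap.ext fun v => ?_)
      simp [smul_smul, mul_inv_cancel₀ hlam.ne']
    exact h3.fderiv
  -- outside
  have hout : ∀ x, r / 2 ≤ ‖x‖ → F' =ᶠ[𝓝 x] fun z => F z + cut r z • (L z - F z) := by
    intro x hx
    filter_upwards [continuous_norm.continuousAt.eventually_const_lt
      (show r / 4 < ‖x‖ by linarith)] with z hz
    have : R ≤ ‖lam⁻¹ • z‖ := by
      rw [norm_smul, norm_inv, Real.norm_eq_abs, abs_of_pos hlam, le_inv_mul_iff₀ hlam]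
      linarith
    simp [F', hR0' _ this]
  have hmid : ∀ x, r / 2 ≤ ‖x‖ → ‖x‖ ≤ r →
      Injective (joint (fderiv ℝ F' x) (m x)) ∧ Injective (fderiv ℝ F' x) := by
    intro x hx hx'
    obtain ⟨e1, e2, e3⟩ := hrδ x hx'
    have hLd : fderiv ℝ (fun z => L z - F z) x = fderiv ℝ F 0 - fderiv ℝ F x := by
      rw [fderiv_fun_sub (hLs.differentiable (by simp) x) (hF.differentiable (by simp) x)]
      simp [L]
    refine hmargin _ _ ?_ ?_
    · have hsp : ContDiff ℝ ∞ fun z => cut r z • (L z - F z) := hcs.smul (hLs.sub hF)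
      rw [(hout x hx).fderiv_eq, fderiv_fun_add (hF.differentiable (by simp) x)
        (hsp.differentiable (by simp) x), add_sub_right_comm]
      refine ((norm_add_le _ _).trans (add_le_add e1
        (norm_fderiv_cut_smul hr (hC r hr) ((hLs.sub hF).differentiable (by simp) x)))).trans_lt ?_
      have h1 : C / r * ‖L x - F x‖ ≤ C * ε1 := by
        calc C / r * ‖L x - F x‖ ≤ C / r * (ε1 * r) :=
              mul_le_mul_of_nonneg_left (e3.trans (mul_le_mul_of_nonneg_left hx' hε1.le))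
                (by positivity)
          _ = C * ε1 := by field_simp
      rw [hLd, norm_sub_rev]
      have : ε1 * (2 * (C + 2)) = ε := by simp only [ε1]; field_simp
      nlinarith
    · have : m x - v0 = (1 - cut r x) • (n x - v0) := by simp only [m]; module
      rw [this, norm_smul]
      refine (mul_le_of_le_one_left (norm_nonneg _) ?_).trans_lt e2
      rw [Real.norm_eq_abs, abs_of_nonneg (sub_nonneg.2 (hcb x).2)]
      linarith [(hcb x).1]
  have hfar : ∀ x, r < ‖x‖ → F' =ᶠ[𝓝 x] F ∧ m x = n x := by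
    intro x hx
    refine ⟨(hout x (by linarith)).trans ?_, by simp [m, hc0' x hx.le]⟩
    filter_upwards [continuous_norm.continuousAt.eventually_const_lt hx] with z hz
    simp [hc0' z hz.le]
  have hImm : IsImm F' := by
    intro x
    rcases lt_or_ge ‖x‖ (r / 2) with hx | hx
    · rw [(hflat x hx).1]
      exact hAinj.comp (hkinj _).1
    rcases le_or_gt ‖x‖ r with hx' | hx'
    · exact (hmid x hx hx').2
    · rw [(hfar x hx').1.fderiv_eq]; exact hI x
  let n' : E2 → R4 := fun x => prj (pd 0 F' x) (pd 1 F' x) (m x)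
  have hPc : ∀ x, ContinuousAt (fun y => prj (pd 0 F' y) (pd 1 F' y)) x := fun x =>
    continuousAt_prj (continuous_pd hF's 0).continuousAt (continuous_pd hF's 1).continuousAt
      (indep_pd hImm x)
  have hsmall : ∀ y : E2, Special y → ‖y‖ < 1 := by
    rintro y ⟨h1, h2⟩
    have h5 := Real.sq_sqrt (show (0 : ℝ) ≤ 5 by norm_num)
    rw [EuclideanSpace.norm_eq, Real.sqrt_lt' one_pos]
    simp only [Fin.sum_univ_two, Real.norm_eq_abs, sq_abs, h1, h2]
    nlinarith [Real.sqrt_nonneg (5 : ℝ)]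
  have hinside : ∀ y : E2, Special y → ‖lam • y‖ < r / 2 := fun y hy => by
    rw [norm_smul, Real.norm_eq_abs, abs_of_pos hlam]
    have : lam ≤ r / 4 := by rw [← hlamR]; nlinarith
    nlinarith [hsmall y hy]
  have hzero : ∀ x, n' x = 0 ↔ Special (lam⁻¹ • x) := by
    intro x
    constructor
    · intro h0
      by_contra hy
      rcases lt_or_ge ‖x‖ (r / 2) with hx | hx
      · refine prj_ne_zero_of_injective ?_ h0
        rw [(hflat x hx).1, (hflat x hx).2]
        exact hjA ((hkinj _).2 hy)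
      rcases le_or_gt ‖x‖ r with hx' | hx'
      · exact prj_ne_zero_of_injective (hmid x hx hx').1 h0
      · obtain ⟨e, em⟩ := hfar x hx'
        have ep : ∀ i, pd i F' x = pd i F x := fun i => by simp only [pd, e.fderiv_eq]
        simp only [n', ep, em] at h0
        rw [prj_of_orth (hN x).1 (hN x).2] at h0
        exact hn0 x h0
    · intro hy
      have hx : ‖x‖ < r / 2 := by
        simpa [smul_smul, mul_inv_cancel₀ hlam.ne'] using hinside _ hy
      obtain ⟨hd, hmx⟩ := hflat x hx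
      obtain ⟨α, -, hα, -⟩ := kink_special hy w
      have hy1 : ‖lam⁻¹ • x‖ < R / 2 := by linarith [hsmall _ hy]
      have hT : α • pd 0 F' x + (0 : ℝ) • pd 1 F' x = v0 := by
        rw [zero_smul, add_zero]
        show α • fderiv ℝ F' x (ev 0) = v0
        rw [hd, (hkeq _ hy1).fderiv_eq, ContinuousLinearMap.comp_apply, ← map_smul, hα, hA2]
      show prj (pd 0 F' x) (pd 1 F' x) (m x) = 0
      rw [hmx, ← hT]
      exact prj_span (indep_pd hImm x) _ _
  -- the two exceptional points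
  have h5 := Real.sq_sqrt (show (0 : ℝ) ≤ 5 by norm_num)
  set p0 : ℝ := Real.sqrt (Real.sqrt 5 - 2)
  have hp : 0 < Real.sqrt 5 - 2 := by nlinarith [Real.sqrt_nonneg (5 : ℝ)]
  have hp0 : p0 ^ 2 = Real.sqrt 5 - 2 := Real.sq_sqrt hp.le
  have hp0pos : 0 < p0 := Real.sqrt_pos.2 hp
  have hspec : ∀ x, Special (lam⁻¹ • x) ↔ x = (lam * p0) • ev 0 ∨ x = -((lam * p0) • ev 0) := by
    intro x
    simp only [Special, PiLp.smul_apply, smul_eq_mul, mul_eq_zero, inv_eq_zero, hlam.ne', false_or]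
    constructor
    · rintro ⟨h1, h2⟩
      have h3 : (x 0 - lam * p0) * (x 0 + lam * p0) = 0 := by
        rw [← hp0] at h2
        have : x 0 = lam * (lam⁻¹ * x 0) := by field_simp
        rw [this]
        linear_combination (lam ^ 2) * h2
      rcases mul_eq_zero.1 h3 with h | h
      · left; ext i; fin_cases i <;> simp [ev, h1]; linarith
      · right; ext i; fin_cases i <;> simp [ev, h1]; linarith
    · rintro (rfl | rfl) <;> simp [ev, ← hp0] <;> field_simp
  refine ⟨F', n', (lam * p0) • ev 0, -((lam * p0) • ev 0), hF's, hImm,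
    continuous_iff_continuousAt.2 fun x => (hPc x).clm_apply hm.continuousAt,
    fun x => prj_orth (indep_pd hImm x) _, fun x hx => ?_, fun h => ?_,
    fun x => (hzero x).trans (hspec x), fun x hx0 => ?_⟩
  · have hx' : r < ‖x‖ := by
      rw [mem_closedBall_zero_iff, not_le] at hx
      linarith [min_le_right (δ / 2) (1 : ℝ)]
    obtain ⟨e, em⟩ := hfar x hx'
    refine ⟨e.self_of_nhds, ?_⟩
    have ep : ∀ i, pd i F' x = pd i F x := fun i => by simp only [pd, e.fderiv_eq]
    simp only [n', ep, em]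
    exact prj_of_orth (hN x).1 (hN x).2
  · have := congrArg (fun v : E2 => v 0) h
    simp [ev] at this
    nlinarith [mul_pos hlam hp0pos]
  · have hy := (hzero x).1 hx0
    have hx : ‖x‖ < r / 2 := by
      simpa [smul_smul, mul_inv_cancel₀ hlam.ne'] using hinside _ hy
    have hy1 : ‖lam⁻¹ • x‖ < R / 2 := by linarith [hsmall _ hy]
    set y := lam⁻¹ • x with hydef
    obtain ⟨α, hα0, hα, c, hc, hdet⟩ := kink_special hy w
    -- the first tangent vector near the zero
    have hsc : ContinuousAt (fun z : E2 => ‖lam⁻¹ • z‖) x :=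
      (continuous_norm.comp (continuous_const_smul lam⁻¹)).continuousAt
    have hnear : ∀ᶠ z in 𝓝 x, pd 0 F' z = A (e4 0 + pert0 (lam⁻¹ • z)) ∧
        pd 1 F' z = A (fderiv ℝ kink (lam⁻¹ • z) (ev 1)) ∧ m z = v0 := by
      filter_upwards [continuous_norm.continuousAt.eventually_lt_const hx,
        hsc.eventually_lt_const hy1] with z hz hz'
      obtain ⟨hd, hmz⟩ := hflat z hz
      refine ⟨?_, ?_, hmz⟩ <;>
        simp only [pd, hd, ContinuousLinearMap.comp_apply, (hkeq _ hz').fderiv_eq]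
      congr 1
      rw [(hasFDerivAt_kink _).fderiv]
      simp [lin, ev, e4]
    have hT0 : α • A (e4 0 + pert0 y) = v0 := by
      rw [← map_smul, ← hA2]
      congr 1
      rw [← hα, (hasFDerivAt_kink _).fderiv]
      simp [lin, ev, e4]
    obtain ⟨h1, h2, -⟩ := hnear.self_of_nhds
    have e0 : pd 0 F' x = A (fderiv ℝ kink y (ev 0)) := by
      rw [h1, (hasFDerivAt_kink _).fderiv, ← hydef]
      congr 1
      simp [lin, ev, e4]
    rw [← hydef] at h2
    refine kink_zero_sign hImm (hPc x) (hnear.mono fun z hz => ⟨hz.1, hz.2.2⟩) hT0 hlam.ne' hα0 hc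
      hw ?_
    rw [← hydef, e0, h2]
    simpa only [hA] using hdet

end Vale.Agent.P205F.Top
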