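import Vale.Agent.P205F.Top.Normal
import Vale.Agent.P205F.Chart.Transfer

/-!
# P205, immersions with a normal field: moving and cancelling zeros of a normal field
-/

namespace Vale.Agent.P205F.Top

open Set Filter Function Topology Metric
open scoped Manifold ContDiff RealInnerProductSpace

variable {M : Type*} [TopologicalSpace M] [T2Space M] [CompactSpace M] [ChartedSpace E2 M]
  [IsManifold (𝓡 2) ∞ M]

/-- A zero of a normal field with its sign. -/
def HasSign (f n : M → R4) (p : M) (s : Bool) : Prop :=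
  ∃ (ψ : Chart M) (x : E2) (D : E2 →L[ℝ] R4), ψ x = p ∧ HasFDerivAt (fun z => n (ψ z)) D x ∧
    0 < sgn s * d4 (pd 0 (fun z => f (ψ z)) x) (pd 1 (fun z => f (ψ z)) x) (D (ev 0)) (D (ev 1))

omit [T2Space M] [CompactSpace M] [IsManifold (𝓡 2) ∞ M] in
/-- The sign does not depend on the chart. -/
theorem HasSign.in_chart {f n : M → R4} {p : M} {s : Bool} (h : HasSign f n p s)
    (hf : ContMDiff (𝓡 2) (𝓡 4) ∞ f) (φ : Chart M) {y : E2} (hy : φ y = p) :
    ∃ D : E2 →L[ℝ] R4, HasFDerivAt (fun z => n (φ z)) D y ∧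
      0 < sgn s * d4 (pd 0 (fun z => f (φ z)) y) (pd 1 (fun z => f (φ z)) y)
        (D (ev 0)) (D (ev 1)) := by
  obtain ⟨ψ, x, D, hx, hD, hs⟩ := h
  have hr : φ.toFun y ∈ range ψ.toFun := ⟨x, hx.trans hy.symm⟩
  have hτ : ψ.trans φ y = x := Chart.trans_eq (hy.trans hx.symm)
  set J := fderiv ℝ (ψ.trans φ) y with hJdef
  have hJ : HasFDerivAt (ψ.trans φ) J y :=
    ((ψ.trans_contDiffAt φ hr).differentiableAt infty_ne_zero).hasFDerivAt
  have hD' : HasFDerivAt (fun z => n (φ z)) (D.comp J) y := by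
    refine HasFDerivAt.congr_of_eventuallyEq ?_ (ψ.comp_trans_eventuallyEq φ n hr)
    exact (show HasFDerivAt (fun z => n (ψ z)) D (ψ.trans φ y) from hτ.symm ▸ hD).comp y hJ
  refine ⟨D.comp J, hD', ?_⟩
  have hjv : ∀ i, J (ev i) = J (ev i) 0 • ev 0 + J (ev i) 1 • ev 1 := fun i => vec_eq _
  have hT : ∀ i, pd i (fun z => f (φ z)) y =
      J (ev i) 0 • pd 0 (fun z => f (ψ z)) x + J (ev i) 1 • pd 1 (fun z => f (ψ z)) x := by
    intro i
    show fderiv ℝ (fun z => f (φ.toFun z)) y (ev i) = _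
    rw [fderiv_change ψ φ hf hr, hτ, ContinuousLinearMap.comp_apply, ← hJdef]
    exact apply_eq_pd _ _ _
  have hN : ∀ i, D.comp J (ev i) = J (ev i) 0 • D (ev 0) + J (ev i) 1 • D (ev 1) := fun i => by
    rw [ContinuousLinearMap.comp_apply]
    conv_lhs => rw [hjv i]
    simp
  rw [hT, hT, hN, hN, d4_left, d4_right]
  have hdet : J (ev 0) 0 * J (ev 1) 1 - J (ev 0) 1 * J (ev 1) 0 ≠ 0 := by
    intro h0
    have hinj : Injective J := ψ.trans_fderiv_injective φ hr
    have h1 : J (J (ev 1) 1 • ev 0 - J (ev 0) 1 • ev 1) = 0 := by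
      rw [map_sub, map_smul, map_smul]
      ext i; fin_cases i <;> simp <;> linarith
    have h2 : J (J (ev 1) 0 • ev 0 - J (ev 0) 0 • ev 1) = 0 := by
      rw [map_sub, map_smul, map_smul]
      ext i; fin_cases i <;> simp <;> linarith
    have e1 := hinj (h1.trans (map_zero _).symm)
    have e2 := hinj (h2.trans (map_zero _).symm)
    have a1 : J (ev 0) 1 = 0 := by
      simpa [ev] using congrArg (fun v : E2 => v 1) e1
    have a2 : J (ev 0) 0 = 0 := by
      simpa [ev] using congrArg (fun v : E2 => v 1) e2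
    have : J (ev 0) = 0 := by ext i; fin_cases i <;> simp [a1, a2]
    have h3 := hinj (this.trans (map_zero _).symm)
    simpa [ev] using congrArg (fun v : E2 => v 0) h3
  have : 0 < (J (ev 0) 0 * J (ev 1) 1 - J (ev 0) 1 * J (ev 1) 0) ^ 2 := by positivity
  nlinarith [mul_pos this hs]

omit [T2Space M] [CompactSpace M] [IsManifold (𝓡 2) ∞ M] in
theorem HasSign.congr {f f' n n' : M → R4} {p : M} {s : Bool} (h : HasSign f n p s)
    (hf : f' =ᶠ[𝓝 p] f) (hn : n' =ᶠ[𝓝 p] n) : HasSign f' n' p s := by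
  obtain ⟨ψ, x, D, rfl, hD, hs⟩ := h
  have e1 : (fun z => f' (ψ z)) =ᶠ[𝓝 x] fun z => f (ψ z) :=
    hf.comp_tendsto ψ.continuous.continuousAt
  have e2 : (fun z => n' (ψ z)) =ᶠ[𝓝 x] fun z => n (ψ z) :=
    hn.comp_tendsto ψ.continuous.continuousAt
  refine ⟨ψ, x, D, rfl, hD.congr_of_eventuallyEq e2, ?_⟩
  simp only [pd, e1.fderiv_eq]
  exact hs

open scoped Classical in
/-- An immersion with a continuous normal field having finitely many nondegenerate zeros, an even
number of them in every clopen set. -/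
structure Sit (M : Type*) [TopologicalSpace M] [ChartedSpace E2 M] where
  f : M → R4
  n : M → R4
  smooth : ContMDiff (𝓡 2) (𝓡 4) ∞ f
  imm : ∀ ψ : Chart M, IsImm fun z => f (ψ z)
  cont : Continuous n
  normal : ∀ (ψ : Chart M) x, IsNrm (fun z => f (ψ z)) x (n (ψ x))
  Z : Finset M
  zero : ∀ p, n p = 0 ↔ p ∈ Z
  s : M → Bool
  sign : ∀ p ∈ Z, HasSign f n p (s p)
  even : ∀ C : Set M, IsClopen C → Even (Z.filter fun p => p ∈ C).card

omit [T2Space M] [CompactSpace M] [IsManifold (𝓡 2) ∞ M] in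
theorem normal_transfer {f : M → R4} (hf : ContMDiff (𝓡 2) (𝓡 4) ∞ f) (ψ φ : Chart M) {x : E2}
    (h : φ.toFun x ∈ range ψ.toFun) {w : R4}
    (hw : IsNrm (fun z => f (ψ z)) (ψ.trans φ x) w) : IsNrm (fun z => f (φ z)) x w := by
  have hT : ∀ i, ⟪pd i (fun z => f (φ z)) x, w⟫ = 0 := by
    intro i
    show ⟪fderiv ℝ (fun z => f (φ.toFun z)) x (ev i), w⟫ = 0
    rw [fderiv_change ψ φ hf h, ContinuousLinearMap.comp_apply, apply_eq_pd, inner_add_left,
      real_inner_smul_left, real_inner_smul_left, hw.1, hw.2]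
    ring
  exact ⟨hT 0, hT 1⟩

omit [CompactSpace M] [IsManifold (𝓡 2) ∞ M] in
theorem glue_continuous (ψ : Chart M) {u : E2 → R4} {g : M → R4} {K : Set E2} (hu : Continuous u)
    (hg : Continuous g) (hK : IsCompact K) (heq : ∀ x, x ∉ K → u x = g (ψ.toFun x)) :
    Continuous (ψ.glue u g) := by
  refine continuous_iff_continuousAt.2 fun p => ?_
  by_cases hp : p ∈ ψ.toFun '' K
  · obtain ⟨x, -, rfl⟩ := hp
    refine (hu.continuousAt.comp (ψ.contMDiffAt_inv ⟨x, rfl⟩).continuousAt).congr ?_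
    filter_upwards [ψ.range_mem_nhds x] with q hq
    obtain ⟨z, rfl⟩ := hq
    simp [ψ.left_inv]
  · refine hg.continuousAt.congr ?_
    filter_upwards [((hK.image ψ.continuous).isClosed.isOpen_compl.mem_nhds hp)] with q hq
    exact (ψ.glue_eq_off heq hq).symm

omit [T2Space M] [CompactSpace M] [IsManifold (𝓡 2) ∞ M] in
theorem mem_clopen_iff_of_chart (ψ : Chart M) {C : Set M} (hC : IsClopen C) (a b : E2) :
    ψ a ∈ C ↔ ψ b ∈ C := by
  rcases isClopen_iff.1 (hC.preimage ψ.continuous) with h | h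
  · exact iff_of_false (fun ha => (eq_empty_iff_forall_notMem.1 h a) ha)
      fun hb => (eq_empty_iff_forall_notMem.1 h b) hb
  · exact iff_of_true (eq_univ_iff_forall.1 h a) (eq_univ_iff_forall.1 h b)

theorem continuous_cross : Continuous fun z : R4 × R4 × R4 => cross z.1 z.2.1 z.2.2 := by
  refine (PiLp.continuous_toLp 2 _).comp (continuous_pi fun i => ?_)
  have h1 : ∀ k, Continuous fun z : R4 × R4 × R4 => z.1 k := fun k =>
    (EuclideanSpace.proj (𝕜 := ℝ) k).continuous.comp continuous_fst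
  have h2 : ∀ k, Continuous fun z : R4 × R4 × R4 => z.2.1 k := fun k =>
    (EuclideanSpace.proj (𝕜 := ℝ) k).continuous.comp (continuous_fst.comp continuous_snd)
  have h3 : ∀ k, Continuous fun z : R4 × R4 × R4 => z.2.2 k := fun k =>
    (EuclideanSpace.proj (𝕜 := ℝ) k).continuous.comp (continuous_snd.comp continuous_snd)
  have hp : ∀ j k, Continuous fun z : R4 × R4 × R4 => plk z.1 z.2.1 j k := fun j k =>
    ((h1 j).mul (h2 k)).sub ((h1 k).mul (h2 j))
  have hq : ∀ j k, Continuous fun z : R4 × R4 × R4 =>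
      plk z.2.2 (EuclideanSpace.single i (1 : ℝ)) j k := fun j k =>
    ((h3 j).mul continuous_const).sub ((h3 k).mul continuous_const)
  exact ((((((hp 0 1).mul (hq 2 3)).sub ((hp 0 2).mul (hq 1 3))).add ((hp 0 3).mul (hq 1 2))).add
    ((hp 1 2).mul (hq 0 3))).sub ((hp 1 3).mul (hq 0 2))).add ((hp 2 3).mul (hq 0 1))

seal cross d4 in
theorem continuousOn_cross {T : Set E2} {a b c : E2 → R4} (ha : ContinuousOn a T)
    (hb : ContinuousOn b T) (hc : ContinuousOn c T) :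
    ContinuousOn (fun x => cross (a x) (b x) (c x)) T :=
  Continuous.comp_continuousOn (g := fun z : R4 × R4 × R4 => cross z.1 z.2.1 z.2.2)
    (f := fun x => (a x, b x, c x)) continuous_cross (ha.prodMk (hb.prodMk hc))

seal cross d4 in
/-- The field in a frame of a chart ball. -/
theorem exists_frame (S : Sit M) (ψ : Chart M) {R : ℝ} (hR : 0 ≤ R) :
    ∃ u : E2 → R4, ContinuousOn u (closedBall 0 R) ∧
      let F := fun z => S.f (ψ z)
      let v := fun x => cross (pd 0 F x) (pd 1 F x) (u x)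
      ContinuousOn v (closedBall 0 R) ∧
      (∀ x ∈ closedBall (0 : E2) R, u x ≠ 0 ∧ IsNrm F x (u x)) ∧
      ContinuousOn (coordC u v fun z => S.n (ψ z)) (closedBall 0 R) ∧
      (∀ x ∈ closedBall (0 : E2) R,
        fieldC u v (coordC u v fun z => S.n (ψ z)) x = S.n (ψ x) ∧
        (coordC u v (fun z => S.n (ψ z)) x = 0 ↔ ψ x ∈ S.Z) ∧
        ∀ g : E2 → ℂ, IsNrm F x (fieldC u v g x) ∧ (fieldC u v g x = 0 ↔ g x = 0)) ∧
      ∀ x, ‖x‖ < R → ψ x ∈ S.Z → ∃ D : E2 →L[ℝ] ℂ,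
        HasFDerivAt (coordC u v fun z => S.n (ψ z)) D x ∧ 0 < sgn (S.s (ψ x)) * det2 D := by
  set F := fun z => S.f (ψ z) with hF
  have hFs : ContDiff ℝ ∞ F := ψ.contDiff_comp S.smooth
  obtain ⟨u, hu, hun⟩ := exists_normal_on_ball hFs (S.imm ψ) R hR
  refine ⟨u, hu, ?_⟩
  intro F' v
  have hv : ContinuousOn v (closedBall 0 R) := by
    have h0 : Continuous (pd 0 F) := continuous_pd hFs 0
    have h1 : Continuous (pd 1 F) := continuous_pd hFs 1
    exact continuousOn_cross h0.continuousOn h1.continuousOn hu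
  have hn : Continuous fun z => S.n (ψ z) := S.cont.comp ψ.continuous
  have hg : ContinuousOn (coordC u v fun z => S.n (ψ z)) (closedBall 0 R) :=
    (Complex.continuous_ofReal.comp_continuousOn (hn.continuousOn.inner hu)).add
      ((Complex.continuous_ofReal.comp_continuousOn (hn.continuousOn.inner hv)).mul
        continuousOn_const)
  have hframe := fun x hx => normal_frame_props (indep_pd (S.imm ψ) x) (hun x hx).1
    (hun x hx).2.1 (hun x hx).2.2
  refine ⟨hv, hun, hg, fun x hx => ⟨?_, ?_, fun g => ⟨?_, ?_⟩⟩, fun x hx hxZ => ?_⟩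
  · have h := normal_decomp (indep_pd (S.imm ψ) x) (hun x hx).1 (hun x hx).2.1 (hun x hx).2.2
      (S.normal ψ x).1 (S.normal ψ x).2
    conv_rhs => rw [h]
    simp [fieldC, coordC, v, F', F]
  · rw [← S.zero]
    refine ⟨fun h0 => ?_, fun h0 => by simp [coordC, h0]⟩
    have h := normal_decomp (indep_pd (S.imm ψ) x) (hun x hx).1 (hun x hx).2.1 (hun x hx).2.2
      (S.normal ψ x).1 (S.normal ψ x).2
    have h1 : ⟪S.n (ψ x), u x⟫ = 0 := by simpa [coordC] using congrArg Complex.re h0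
    have h2 : ⟪S.n (ψ x), v x⟫ = 0 := by simpa [coordC] using congrArg Complex.im h0
    rw [h1, show ⟪S.n (ψ x), cross (pd 0 F x) (pd 1 F x) (u x)⟫ = 0 from h2] at h
    simpa using h
  · obtain ⟨-, -, a1, a2, -⟩ := hframe x hx
    simp [IsNrm, fieldC, inner_add_right, real_inner_smul_right, (hun x hx).2.1, (hun x hx).2.2,
      a1, a2, v, F', F]
  · refine ⟨fun h0 => ?_, fun h0 => by simp [fieldC, h0]⟩
    obtain ⟨a0, -, -, -, a3⟩ := hframe x hx
    have h1 := congrArg (fun w => ⟪u x, w⟫) h0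
    have h2 := congrArg (fun w => ⟪v x, w⟫) h0
    have a3' : ⟪v x, u x⟫ = 0 := by rw [real_inner_comm]; exact a3
    have a3'' : ⟪u x, v x⟫ = 0 := a3
    simp only [fieldC, inner_add_right, real_inner_smul_right, a3', a3'', mul_zero, add_zero,
      zero_add, inner_zero_right, mul_eq_zero, div_eq_zero_iff, pow_eq_zero_iff two_ne_zero,
      norm_eq_zero, inner_self_eq_zero] at h1 h2
    have hu0 := (hun x hx).1
    have hv0 : v x ≠ 0 := a0
    apply Complex.ext <;> simp <;> tauto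
  · have hxc : x ∈ closedBall (0 : E2) R := mem_closedBall_zero_iff.2 hx.le
    obtain ⟨D, hD, hs⟩ := (S.sign _ hxZ).in_chart S.smooth ψ rfl
    have hnx : S.n (ψ x) = 0 := (S.zero _).2 hxZ
    have hnb : closedBall (0 : E2) R ∈ 𝓝 x := closedBall_mem_nhds_of_mem (mem_ball_zero_iff.2 hx)
    have hd1 := hasFDerivAt_inner_cont hD hnx (hu.continuousAt hnb)
    have hd2 := hasFDerivAt_inner_cont hD hnx (hv.continuousAt hnb)
    have hD' : HasFDerivAt (coordC u v fun z => S.n (ψ z))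
        ((Complex.ofRealCLM.comp ((innerSL ℝ (u x)).comp D)) +
          (Complex.ofRealCLM.comp ((innerSL ℝ (v x)).comp D)).smulRight Complex.I) x := by
      have e1 := Complex.ofRealCLM.hasFDerivAt.comp x hd1
      have e2 := (Complex.ofRealCLM.hasFDerivAt.comp x hd2).mul_const Complex.I
      refine (e1.add e2).congr_fderiv (ContinuousLinearMap.ext fun w => ?_)
      simp [mul_comm]
    refine ⟨_, hD', ?_⟩
    have e := d4_frame (indep_pd (S.imm ψ) x) (hun x hxc).1 (hun x hxc).2.1 (hun x hxc).2.2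
      (D (ev 0)) (D (ev 1))
    have hpos : 0 < ‖u x‖ ^ 2 := pow_pos (norm_pos_iff.2 (hun x hxc).1) 2
    have hdet : det2 ((Complex.ofRealCLM.comp ((innerSL ℝ (u x)).comp D)) +
          (Complex.ofRealCLM.comp ((innerSL ℝ (v x)).comp D)).smulRight Complex.I) =
        d4 (pd 0 F x) (pd 1 F x) (D (ev 0)) (D (ev 1)) * ‖u x‖ ^ 2 := by
      rw [e]
      simp [det2, real_inner_comm (D _), v, F', F]
    rw [hdet, ← mul_assoc]
    exact mul_pos hs hpos

/-- Replacing the field inside a chart ball. -/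
theorem replace_field (S : Sit M) (ψ : Chart M) {R : ℝ} {u v : E2 → R4} {g : E2 → ℂ}
    (hu : ContinuousOn u (closedBall 0 (R + 1))) (hv : ContinuousOn v (closedBall 0 (R + 1)))
    (hu0 : ∀ x ∈ closedBall (0 : E2) (R + 1), u x ≠ 0 ∧ v x ≠ 0)
    (hnrm : ∀ x ∈ closedBall (0 : E2) (R + 1),
      IsNrm (fun z => S.f (ψ z)) x (fieldC u v g x) ∧ (fieldC u v g x = 0 ↔ g x = 0))
    (hg : ContinuousOn g (closedBall 0 (R + 1)))
    (heq : ∀ x ∈ closedBall (0 : E2) (R + 1), R + 1 / 2 ≤ ‖x‖ → fieldC u v g x = S.n (ψ x)) :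
    ∃ n' : M → R4, Continuous n' ∧ (∀ (φ : Chart M) x, IsNrm (fun z => S.f (φ z)) x (n' (φ x))) ∧
      (∀ p, p ∉ ψ.toFun '' ball 0 (R + 1) → n' p = S.n p) ∧
      ∀ x ∈ ball (0 : E2) (R + 1), n' (ψ x) = fieldC u v g x ∧ (n' (ψ x) = 0 ↔ g x = 0) := by
  classical
  let w : E2 → R4 := fun x => if ‖x‖ < R + 1 then fieldC u v g x else S.n (ψ x)
  have hfield : ContinuousOn (fieldC u v g) (closedBall 0 (R + 1)) := by
    have h1 : ∀ {t : E2 → R4}, ContinuousOn t (closedBall 0 (R + 1)) →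
        (∀ x ∈ closedBall (0 : E2) (R + 1), t x ≠ 0) → ∀ {c : E2 → ℝ},
        ContinuousOn c (closedBall 0 (R + 1)) →
        ContinuousOn (fun x => (c x / ‖t x‖ ^ 2) • t x) (closedBall 0 (R + 1)) :=
      fun ht ht0 _ hc => (hc.div (ht.norm.pow 2) fun x hx =>
        pow_ne_zero 2 (norm_ne_zero_iff.2 (ht0 x hx))).smul ht
    exact (h1 hu (fun x hx => (hu0 x hx).1) (Complex.continuous_re.comp_continuousOn hg)).add
      (h1 hv (fun x hx => (hu0 x hx).2) (Complex.continuous_im.comp_continuousOn hg))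
  have hw : Continuous w := by
    rw [← continuousOn_univ]
    have e : (univ : Set E2) = closedBall 0 (R + 1) ∪ {x | R + 1 / 2 ≤ ‖x‖} := by
      symm
      rw [eq_univ_iff_forall]
      intro x
      rcases le_or_gt ‖x‖ (R + 1) with h | h
      · exact Or.inl (mem_closedBall_zero_iff.2 h)
      · exact Or.inr (show R + 1 / 2 ≤ ‖x‖ by linarith)
    rw [e]
    refine ContinuousOn.union_of_isClosed (hfield.congr fun x hx => ?_)
      ((S.cont.comp ψ.continuous).continuousOn.congr fun x hx => ?_) isClosed_closedBall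
      (isClosed_le continuous_const continuous_norm)
    · by_cases h : ‖x‖ < R + 1
      · simp [w, h]
      · simp only [w, h, if_false]
        exact (heq x hx (by linarith [not_lt.1 h])).symm
    · by_cases h : ‖x‖ < R + 1
      · simp only [w, h, if_true]
        exact heq x (mem_closedBall_zero_iff.2 h.le) hx
      · simp [w, h]
  have hoff : ∀ x, x ∉ closedBall (0 : E2) (R + 1) → w x = S.n (ψ.toFun x) := fun x hx => by
    have : ¬‖x‖ < R + 1 := fun h => hx (mem_closedBall_zero_iff.2 h.le)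
    simp [w, this]
  refine ⟨ψ.glue w S.n, glue_continuous ψ hw S.cont (isCompact_closedBall _ _) hoff,
    fun φ x => ?_, fun p hp => ?_, fun x hx => ?_⟩
  · by_cases h : φ.toFun x ∈ range ψ.toFun
    · obtain ⟨y, hy⟩ := h
      have ht : ψ.trans φ x = y := Chart.trans_eq hy.symm
      refine normal_transfer S.smooth ψ φ ⟨y, hy⟩ ?_
      rw [ht]
      show IsNrm _ y (ψ.glue w S.n (φ.toFun x))
      rw [← hy, Chart.glue_apply]
      by_cases hlt : ‖y‖ < R + 1
      · simp only [w, hlt, if_true]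
        exact (hnrm y (mem_closedBall_zero_iff.2 hlt.le)).1
      · simp only [w, hlt, if_false]
        exact S.normal ψ y
    · show IsNrm _ x (ψ.glue w S.n (φ.toFun x))
      rw [ψ.glue_of_notMem w S.n h]
      exact S.normal φ x
  · by_cases h : p ∈ range ψ.toFun
    · obtain ⟨x, rfl⟩ := h
      have hx : ¬‖x‖ < R + 1 := fun h => hp ⟨x, mem_ball_zero_iff.2 h, rfl⟩
      simp [w, hx]
    · exact ψ.glue_of_notMem w S.n h
  · have hlt : ‖x‖ < R + 1 := mem_ball_zero_iff.1 hx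
    simp only [Chart.glue_apply, w, hlt, if_true]
    exact ⟨trivial, (hnrm x (ball_subset_closedBall hx)).2⟩

/-- The linear part of a model zero. -/
noncomputable def modelCLM (s : Bool) : E2 →L[ℝ] ℂ :=
  if s then toC.toContinuousLinearEquiv.toContinuousLinearMap
  else Complex.conjCLE.toContinuousLinearMap.comp toC.toContinuousLinearEquiv.toContinuousLinearMap

theorem model_hasFDerivAt (s : Bool) (b : E2) : HasFDerivAt (model s b) (modelCLM s) b := by
  have e : model s b = fun x => modelCLM s (x - b) := by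
    funext x; cases s <;> simp [model, modelCLM, mir]
  rw [e]
  exact ((modelCLM s).hasFDerivAt.comp b ((hasFDerivAt_id b).sub_const b)).congr_fderiv
    (ContinuousLinearMap.comp_id _)

/-- One zero moves within a chart containing no other zero. -/
theorem Sit.move_chart (S : Sit M) (ψ : Chart M) {a b : E2} (ha : ψ a ∈ S.Z)
    (honly : ∀ x, ψ x ∈ S.Z → x = a) :
    ∃ S' : Sit M, (∀ p, p ∈ S'.Z ↔ p = ψ b ∨ (p ∈ S.Z ∧ p ≠ ψ a)) ∧ S'.s (ψ b) = S.s (ψ a) ∧
      (∀ p ∈ S.Z, p ≠ ψ a → S'.s p = S.s p) ∧ S'.Z.card = S.Z.card := by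
  classical
  let R : ℝ := max ‖a‖ ‖b‖ + 1
  have hRa : ‖a‖ < R := by linarith [le_max_left ‖a‖ ‖b‖]
  have hRb : ‖b‖ < R := by linarith [le_max_right ‖a‖ ‖b‖]
  have hR : 0 ≤ R + 1 := by linarith [norm_nonneg a]
  obtain ⟨u, hu, hv, hun, hg, hfield, hder⟩ := exists_frame S ψ hR
  set F := fun z => S.f (ψ z) with hF
  set v := fun x => cross (pd 0 F x) (pd 1 F x) (u x) with hvdef
  set g := coordC u v fun z => S.n (ψ z) with hgdef
  have hac : a ∈ closedBall (0 : E2) (R + 1) := mem_closedBall_zero_iff.2 (by linarith)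
  obtain ⟨D, hD, hs⟩ := hder a (by linarith) ha
  obtain ⟨g', hg', hoff', hz', hin⟩ := move_one (s := S.s (ψ a)) hg hRa hRb
    ((hfield a hac).2.1.2 ha) (fun x hx h0 => honly x ((hfield x hx).2.1.1 h0)) hD hs
  have hv0 : ∀ x ∈ closedBall (0 : E2) (R + 1), u x ≠ 0 ∧ v x ≠ 0 := fun x hx =>
    ⟨(hun x hx).1, (normal_frame_props (indep_pd (S.imm ψ) x) (hun x hx).1 (hun x hx).2.1
      (hun x hx).2.2).1⟩
  obtain ⟨n', hn', hnrm', hn'off, hn'in⟩ := replace_field S ψ hu hv hv0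
    (fun x hx => (hfield x hx).2.2 g') hg' fun x hx hx' => by
      rw [show fieldC u v g' x = fieldC u v g x by simp [fieldC, hoff' x hx hx']]
      exact (hfield x hx).1
  have hoffz : ∀ p, p ∉ ψ.toFun '' ball 0 (R + 1) → p ≠ ψ a ∧ p ≠ ψ b := fun p hp =>
    ⟨fun h => hp ⟨a, mem_ball_zero_iff.2 (by linarith), h.symm⟩,
      fun h => hp ⟨b, mem_ball_zero_iff.2 (by linarith), h.symm⟩⟩
  have hzero : ∀ p, n' p = 0 ↔ p ∈ insert (ψ b) (S.Z.erase (ψ a)) := by
    intro p
    rw [Finset.mem_insert, Finset.mem_erase]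
    by_cases hp : p ∈ ψ.toFun '' ball 0 (R + 1)
    · obtain ⟨x, hx, rfl⟩ := hp
      rw [(hn'in x hx).2, hz']
      refine ⟨fun h => Or.inl (congrArg ψ.toFun h), ?_⟩
      rintro (h | ⟨h1, h2⟩)
      · exact ψ.injective h
      · exact absurd (congrArg ψ.toFun (honly x h2)) h1
    · rw [hn'off p hp, S.zero]
      exact ⟨fun h => Or.inr ⟨(hoffz p hp).1, h⟩,
        fun h => (h.resolve_left (hoffz p hp).2).2⟩
  have hbZ : ψ b ∉ S.Z.erase (ψ a) := fun h => by
    obtain ⟨h1, h2⟩ := Finset.mem_erase.1 h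
    exact h1 (congrArg ψ.toFun (honly b h2))
  refine ⟨{
    f := S.f
    n := n'
    smooth := S.smooth
    imm := S.imm
    cont := hn'
    normal := hnrm'
    Z := insert (ψ b) (S.Z.erase (ψ a))
    zero := hzero
    s := Function.update S.s (ψ b) (S.s (ψ a))
    sign := fun p hp => ?_
    even := fun C hC => ?_ }, fun p => ?_, by simp, fun p hp hne => ?_, ?_⟩
  · rcases Finset.mem_insert.1 hp with rfl | hp
    · rw [Function.update_self]
      have hbI : b ∈ ball (0 : E2) (R + 1) := mem_ball_zero_iff.2 (by linarith)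
      have hev : (fun z => n' (ψ z)) =ᶠ[𝓝 b] fieldC u v (model (S.s (ψ a)) b) := by
        filter_upwards [isOpen_ball.eventually_mem (mem_ball_zero_iff.2 hRb)] with z hz
        have hz' : ‖z‖ < R := mem_ball_zero_iff.1 hz
        rw [(hn'in z (mem_ball_zero_iff.2 (by linarith))).1, fieldC, fieldC, hin z hz'.le]
      have hnb : closedBall (0 : E2) (R + 1) ∈ 𝓝 b := closedBall_mem_nhds_of_mem hbI
      have hbc := ball_subset_closedBall hbI
      obtain ⟨hu0', hv0'⟩ := hv0 b hbc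
      have hcu : ContinuousAt (fun x => (‖u x‖ ^ 2)⁻¹ • u x) b :=
        (((hu.continuousAt hnb).norm.pow 2).inv₀ (pow_ne_zero 2 (norm_ne_zero_iff.2 hu0'))).smul
          (hu.continuousAt hnb)
      have hcv : ContinuousAt (fun x => (‖v x‖ ^ 2)⁻¹ • v x) b :=
        (((hv.continuousAt hnb).norm.pow 2).inv₀ (pow_ne_zero 2 (norm_ne_zero_iff.2 hv0'))).smul
          (hv.continuousAt hnb)
      have hm := model_hasFDerivAt (S.s (ψ a)) b
      have hm0 : model (S.s (ψ a)) b b = 0 := model_eq_zero.2 rfl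
      have h1 := hasFDerivAt_smul_cont (Complex.reCLM.hasFDerivAt.comp b hm) (by simp [hm0]) hcu
      have h2 := hasFDerivAt_smul_cont (Complex.imCLM.hasFDerivAt.comp b hm) (by simp [hm0]) hcv
      have hfd : HasFDerivAt (fieldC u v (model (S.s (ψ a)) b))
          ((Complex.reCLM.comp (modelCLM (S.s (ψ a)))).smulRight ((‖u b‖ ^ 2)⁻¹ • u b) +
          (Complex.imCLM.comp (modelCLM (S.s (ψ a)))).smulRight ((‖v b‖ ^ 2)⁻¹ • v b)) b := by
        refine (h1.add h2).congr_of_eventuallyEq (Eventually.of_forall fun x => ?_)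
        simp [fieldC, smul_smul, div_eq_mul_inv]
      refine ⟨ψ, b, _, rfl, hfd.congr_of_eventuallyEq hev, ?_⟩
      have hu2 : (‖u b‖ ^ 2) ≠ 0 := pow_ne_zero 2 (norm_ne_zero_iff.2 hu0')
      have hv2 : (‖v b‖ ^ 2) ≠ 0 := pow_ne_zero 2 (norm_ne_zero_iff.2 hv0')
      simp only [add_apply, ContinuousLinearMap.smulRight_apply, ContinuousLinearMap.comp_apply,
        smul_smul, d4_right]
      have hp : d4 (pd 0 F b) (pd 1 F b) (u b) (v b) = ‖v b‖ ^ 2 := d4_cross_self _ _ _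
      rw [hp]
      have hpu : 0 < ‖u b‖ ^ 2 := pow_pos (norm_pos_iff.2 hu0') 2
      cases hsa : S.s (ψ a) <;>
        simp [sgn, modelCLM, toC_ev] <;> field_simp <;> norm_num
    · obtain ⟨hne, hpZ⟩ := Finset.mem_erase.1 hp
      have hpb : p ≠ ψ b := fun h => hbZ (h ▸ hp)
      rw [Function.update_of_ne hpb]
      refine (S.sign p hpZ).congr EventuallyEq.rfl ?_
      have hp' : p ∉ ψ.toFun '' closedBall 0 (R + 1) := by
        rintro ⟨x, -, rfl⟩
        exact hne (congrArg ψ.toFun (honly x hpZ))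
      filter_upwards [((isCompact_closedBall (0 : E2) (R + 1)).image ψ.continuous).isClosed.isOpen_compl.mem_nhds hp']
        with q hq
      exact hn'off q fun h => hq (image_mono ball_subset_closedBall h)
  · have hiff : ψ b ∈ C ↔ ψ a ∈ C := mem_clopen_iff_of_chart ψ hC b a
    by_cases hC' : ψ a ∈ C
    · rw [Finset.filter_insert, if_pos (hiff.2 hC'), Finset.filter_erase,
        Finset.card_insert_of_notMem, Finset.card_erase_add_one]
      · exact S.even C hC
      · exact Finset.mem_filter.2 ⟨ha, hC'⟩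
      · intro h
        rw [← Finset.filter_erase] at h
        exact hbZ (Finset.mem_filter.1 h).1
    · rw [Finset.filter_insert, if_neg (fun h => hC' (hiff.1 h)), Finset.filter_erase,
        Finset.erase_eq_of_notMem fun h => hC' (Finset.mem_filter.1 h).2]
      exact S.even C hC
  · simp [Finset.mem_erase, and_comm]
  · have : p ≠ ψ b := fun h => hbZ (Finset.mem_erase.2 ⟨fun e => hne (h.trans e), h ▸ hp⟩)
    exact Function.update_of_ne this _ _
  · rw [Finset.card_insert_of_notMem hbZ, Finset.card_erase_add_one ha]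

/-- Two zeros of opposite sign in a chart with no other zero cancel. -/
theorem Sit.cancel_chart (S : Sit M) (ψ : Chart M) {a b : E2} (hab : a ≠ b) (ha : ψ a ∈ S.Z)
    (hb : ψ b ∈ S.Z) (honly : ∀ x, ψ x ∈ S.Z → x = a ∨ x = b)
    (hs : S.s (ψ b) = !(S.s (ψ a))) :
    ∃ S' : Sit M, (∀ p, p ∈ S'.Z ↔ p ∈ S.Z ∧ p ≠ ψ a ∧ p ≠ ψ b) ∧ S'.s = S.s ∧
      S'.Z.card + 2 = S.Z.card := by
  classical
  let R : ℝ := max ‖a‖ ‖b‖ + 1
  have hRa : ‖a‖ < R := by linarith [le_max_left ‖a‖ ‖b‖]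
  have hRb : ‖b‖ < R := by linarith [le_max_right ‖a‖ ‖b‖]
  have hR : 0 ≤ R + 1 := by linarith [norm_nonneg a]
  obtain ⟨u, hu, hv, hun, hg, hfield, hder⟩ := exists_frame S ψ hR
  set F := fun z => S.f (ψ z) with hF
  set v := fun x => cross (pd 0 F x) (pd 1 F x) (u x) with hvdef
  set g := coordC u v fun z => S.n (ψ z) with hgdef
  obtain ⟨Da, hDa, hsa⟩ := hder a (by linarith) ha
  obtain ⟨Db, hDb, hsb⟩ := hder b (by linarith) hb
  rw [hs] at hsb
  obtain ⟨g', hg', hoff', hz'⟩ := cancel_two hg hRa hRb hab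
    ((hfield a (mem_closedBall_zero_iff.2 (by linarith))).2.1.2 ha)
    ((hfield b (mem_closedBall_zero_iff.2 (by linarith))).2.1.2 hb)
    (fun x hx h0 => honly x ((hfield x hx).2.1.1 h0)) hDa hsa hDb hsb
  have hv0 : ∀ x ∈ closedBall (0 : E2) (R + 1), u x ≠ 0 ∧ v x ≠ 0 := fun x hx =>
    ⟨(hun x hx).1, (normal_frame_props (indep_pd (S.imm ψ) x) (hun x hx).1 (hun x hx).2.1
      (hun x hx).2.2).1⟩
  obtain ⟨n', hn', hnrm', hn'off, hn'in⟩ := replace_field S ψ hu hv hv0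
    (fun x hx => (hfield x hx).2.2 g') hg' fun x hx hx' => by
      rw [show fieldC u v g' x = fieldC u v g x by simp [fieldC, hoff' x hx hx']]
      exact (hfield x hx).1
  have hzero : ∀ p, n' p = 0 ↔ p ∈ (S.Z.erase (ψ a)).erase (ψ b) := by
    intro p
    simp only [Finset.mem_erase]
    by_cases hp : p ∈ ψ.toFun '' ball 0 (R + 1)
    · obtain ⟨x, hx, rfl⟩ := hp
      rw [(hn'in x hx).2]
      refine iff_of_false (hz' x) fun h => ?_
      rcases honly x h.2.2 with rfl | rfl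
      · exact h.2.1 rfl
      · exact h.1 rfl
    · rw [hn'off p hp, S.zero]
      exact ⟨fun h => ⟨fun e => hp ⟨b, mem_ball_zero_iff.2 (by linarith), e.symm⟩,
        fun e => hp ⟨a, mem_ball_zero_iff.2 (by linarith), e.symm⟩, h⟩, fun h => h.2.2⟩
  have hba : ψ b ≠ ψ a := fun h => hab (ψ.injective h).symm
  refine ⟨{
    f := S.f
    n := n'
    smooth := S.smooth
    imm := S.imm
    cont := hn'
    normal := hnrm'
    Z := (S.Z.erase (ψ a)).erase (ψ b)
    zero := hzero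
    s := S.s
    sign := fun p hp => ?_
    even := fun C hC => ?_ }, fun p => ?_, rfl, ?_⟩
  · obtain ⟨hne1, hne2, hpZ⟩ : p ≠ ψ b ∧ p ≠ ψ a ∧ p ∈ S.Z := by
      simpa [Finset.mem_erase] using hp
    refine (S.sign p hpZ).congr EventuallyEq.rfl ?_
    have hp' : p ∉ ψ.toFun '' closedBall 0 (R + 1) := by
      rintro ⟨x, -, rfl⟩
      rcases honly x hpZ with rfl | rfl
      · exact hne2 rfl
      · exact hne1 rfl
    filter_upwards [((isCompact_closedBall (0 : E2) (R + 1)).image ψ.continuous).isClosed.isOpen_compl.mem_nhds hp']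
      with q hq
    exact hn'off q fun h => hq (image_mono ball_subset_closedBall h)
  · have hiff : ψ b ∈ C ↔ ψ a ∈ C := mem_clopen_iff_of_chart ψ hC b a
    rw [Finset.filter_erase, Finset.filter_erase]
    by_cases hC' : ψ a ∈ C
    · have h1 : ψ a ∈ S.Z.filter fun p => p ∈ C := Finset.mem_filter.2 ⟨ha, hC'⟩
      have h2 : ψ b ∈ (S.Z.filter fun p => p ∈ C).erase (ψ a) :=
        Finset.mem_erase.2 ⟨hba, Finset.mem_filter.2 ⟨hb, hiff.2 hC'⟩⟩
      obtain ⟨k, hk⟩ := S.even C hC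
      refine ⟨k - 1, ?_⟩
      have e1 := Finset.card_erase_add_one h1
      have e2 := Finset.card_erase_add_one h2
      omega
    · rw [Finset.erase_eq_of_notMem, Finset.erase_eq_of_notMem]
      · exact S.even C hC
      · exact fun h => hC' (Finset.mem_filter.1 h).2
      · exact fun h => hC' (hiff.1 (Finset.mem_filter.1 (Finset.mem_erase.1 h).2).2)
  · simp only [Finset.mem_erase]
    tauto
  · show ((S.Z.erase (ψ a)).erase (ψ b)).card + 2 = S.Z.card
    have h2 : ψ b ∈ S.Z.erase (ψ a) := Finset.mem_erase.2 ⟨hba, hb⟩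
    have e1 := Finset.card_erase_add_one ha
    have e2 := Finset.card_erase_add_one h2
    omega

/-- A zero moves to any free point of its component. -/
theorem Sit.move_to (S : Sit M) {p q : M} (hp : p ∈ S.Z) (hq : q ∉ S.Z)
    (hpq : q ∈ connectedComponent p) :
    ∃ S' : Sit M, (∀ r, r ∈ S'.Z ↔ r = q ∨ (r ∈ S.Z ∧ r ≠ p)) ∧ S'.s q = S.s p ∧
      (∀ r ∈ S.Z, r ≠ p → S'.s r = S.s r) ∧ S'.Z.card = S.Z.card := by
  classical
  let F := S.Z.erase p
  let K : Set M := {x | x ∉ F ∧ ∃ S' : Sit M, (∀ r, r ∈ S'.Z ↔ r = x ∨ r ∈ F) ∧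
    S'.s x = S.s p ∧ (∀ r ∈ F, S'.s r = S.s r) ∧ S'.Z.card = S.Z.card}
  have hstep : ∀ (ψ : Chart M), Disjoint (range ψ.toFun) (F : Set M) → ∀ a b : E2,
      ψ a ∈ K → ψ b ∈ K := by
    intro ψ hd a b ha
    obtain ⟨-, S1, hZ1, hs1, hs1', hc1⟩ := ha
    have hnF : ∀ x, ψ.toFun x ∉ F := fun x h =>
      Set.disjoint_left.1 hd ⟨x, rfl⟩ (Finset.mem_coe.2 h)
    obtain ⟨S2, hZ2, hs2, hs2', hc2⟩ := S1.move_chart ψ (a := a) (b := b) ((hZ1 _).2 (Or.inl rfl))
      fun x hx => ψ.injective (((hZ1 _).1 hx).resolve_right (hnF x))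
    refine ⟨hnF b, S2, fun r => ?_, hs2.trans hs1, fun r hr => ?_, hc2.trans hc1⟩
    · rw [hZ2, hZ1]
      refine ⟨fun h => h.imp id fun h' => h'.1.resolve_left h'.2, fun h => h.imp id fun h' =>
        ⟨Or.inr h', fun e => hnF a (e ▸ h')⟩⟩
    · rw [hs2' r ((hZ1 r).2 (Or.inr hr)) fun e => hnF a (e ▸ hr), hs1' r hr]
  have hloc : ∀ x : M, ∃ V : Set M, IsOpen V ∧ x ∈ V ∧
      ((∀ y ∈ V, y ∉ F → y ∈ K) ∨ ∀ y ∈ V, y ∉ K) ∧ (∀ y ∈ V, y ∈ F → y = x) := by
    intro x
    have hU : ((F.erase x : Finset M) : Set M)ᶜ ∈ 𝓝 x :=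
      (F.erase x).finite_toSet.isClosed.isOpen_compl.mem_nhds (by simp)
    obtain ⟨ψ, x0, hx0, hr⟩ := Chart.exists_mem hU
    refine ⟨range ψ.toFun, ψ.isOpen_range, ⟨x0, hx0⟩, ?_, fun y hy hyF => ?_⟩
    swap
    · by_contra hne
      exact hr hy (Finset.mem_coe.2 (Finset.mem_erase.2 ⟨hne, hyF⟩))
    by_cases hex : ∃ a, ψ.toFun a ∈ K
    swap
    · exact Or.inr fun y ⟨a, ha⟩ hy => hex ⟨a, by rw [ha]; exact hy⟩
    obtain ⟨a, haK⟩ := hex
    refine Or.inl fun y ⟨b, hb⟩ hbF => ?_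
    subst hb
    by_cases hxF : x ∈ F
    swap
    · refine hstep ψ ?_ a b haK
      refine Set.disjoint_left.2 fun z hz hzF => hr hz ?_
      exact Finset.mem_coe.2 (Finset.mem_erase.2 ⟨fun e => hxF (e ▸ hzF), hzF⟩)
    -- the punctured chart is connected
    have hPc : IsConnected ({x0}ᶜ : Set E2) :=
      (isPathConnected_compl_singleton_of_one_lt_rank
        (by rw [← Module.finrank_eq_rank]; simp) x0).isConnected
    have hnx : ∀ z : E2, z ≠ x0 → ψ.toFun z ∉ F := fun z hz h =>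
      hr ⟨z, rfl⟩ (Finset.mem_coe.2 (Finset.mem_erase.2
        ⟨fun e => hz (ψ.injective (e.trans hx0.symm)), h⟩))
    have hloc2 : ∀ z : E2, z ≠ x0 → ∃ W : Set E2, IsOpen W ∧ z ∈ W ∧
        ∀ w ∈ W, (ψ.toFun w ∈ K ↔ ψ.toFun z ∈ K) := by
      intro z hz
      obtain ⟨φ, z0, hz0, hφ⟩ := Chart.exists_mem
        (F.finite_toSet.isClosed.isOpen_compl.mem_nhds (hnx z hz))
      have hd : Disjoint (range φ.toFun) (F : Set M) :=
        Set.disjoint_left.2 fun w hw hwF => hφ hw hwF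
      refine ⟨ψ.toFun ⁻¹' range φ.toFun, φ.isOpen_range.preimage ψ.continuous, ⟨z0, hz0⟩,
        fun w ⟨w0, hw0⟩ => ?_⟩
      rw [← hw0, ← hz0]
      exact ⟨hstep φ hd w0 z0, hstep φ hd z0 w0⟩
    by_contra hbK
    have hUo : IsOpen ({z : E2 | z ≠ x0 ∧ ψ.toFun z ∈ K}) := isOpen_iff_mem_nhds.2 fun z hz => by
      obtain ⟨W, hW, hzW, hWe⟩ := hloc2 z hz.1
      filter_upwards [hW.mem_nhds hzW, isOpen_ne.mem_nhds hz.1] with w hw hw'
      exact ⟨hw', (hWe w hw).2 hz.2⟩
    have hVo : IsOpen ({z : E2 | z ≠ x0 ∧ ψ.toFun z ∉ K}) := isOpen_iff_mem_nhds.2 fun z hz => by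
      obtain ⟨W, hW, hzW, hWe⟩ := hloc2 z hz.1
      filter_upwards [hW.mem_nhds hzW, isOpen_ne.mem_nhds hz.1] with w hw hw'
      exact ⟨hw', fun h => hz.2 ((hWe w hw).1 h)⟩
    have hax : a ≠ x0 := fun e => haK.1 (by rw [e, hx0]; exact hxF)
    have hbx : b ≠ x0 := fun e => hbF (by rw [e, hx0]; exact hxF)
    obtain ⟨z, -, h1, h2⟩ := hPc.isPreconnected _ _ hUo hVo
      (fun z hz => (em (ψ.toFun z ∈ K)).imp (fun h => ⟨hz, h⟩) (fun h => ⟨hz, h⟩))
      ⟨a, hax, hax, haK⟩ ⟨b, hbx, hbx, hbK⟩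
    exact h2.2 h1.2
  -- the points reached, with the obstacles next to them
  let A : Set M := {x | x ∈ K ∨ (x ∈ F ∧ ∀ O : Set M, IsOpen O → x ∈ O → ∃ y ∈ O, y ∈ K)}
  have hA : IsClopen A := by
    have key : ∀ x, ∃ V, IsOpen V ∧ x ∈ V ∧ (x ∈ A → V ⊆ A) ∧ (x ∉ A → V ⊆ Aᶜ) := by
      intro x
      obtain ⟨V, hV, hxV, hcase, hVF⟩ := hloc x
      refine ⟨V, hV, hxV, fun hxA y hy => ?_, fun hxA y hy hyA => ?_⟩
      · by_cases hyF : y ∈ F
        · rw [hVF y hy hyF]; exact hxA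
        refine Or.inl ((hcase.resolve_right fun hnone => ?_) y hy hyF)
        rcases hxA with h | ⟨-, h⟩
        · exact hnone x hxV h
        · obtain ⟨z, hz, hzK⟩ := h V hV hxV
          exact hnone z hz hzK
      · by_cases hyF : y ∈ F
        · exact hxA (hVF y hy hyF ▸ hyA)
        have hyK : y ∈ K := hyA.resolve_right fun h => hyF h.1
        have hall := hcase.resolve_right fun hnone => hnone y hy hyK
        by_cases hxF : x ∈ F
        · refine hxA (Or.inr ⟨hxF, fun O hO hxO => ?_⟩)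
          by_contra! hOK
          obtain ⟨φ, z0, hz0, hφ⟩ := Chart.exists_mem ((hO.inter hV).mem_nhds ⟨hxO, hxV⟩)
          obtain ⟨w, hw⟩ := exists_ne z0
          have hne : φ.toFun w ≠ x := fun e => hw (φ.injective (e.trans hz0.symm))
          exact hOK _ (hφ ⟨w, rfl⟩).1 (hall _ (hφ ⟨w, rfl⟩).2
            fun h => hne (hVF _ (hφ ⟨w, rfl⟩).2 h))
        · exact hxA (Or.inl (hall x hxV hxF))
    refine ⟨isOpen_compl_iff.1 (isOpen_iff_mem_nhds.2 fun x hx => ?_),
      isOpen_iff_mem_nhds.2 fun x hx => ?_⟩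
    · obtain ⟨V, hV, hxV, -, h⟩ := key x
      exact mem_of_superset (hV.mem_nhds hxV) (h hx)
    · obtain ⟨V, hV, hxV, h, -⟩ := key x
      exact mem_of_superset (hV.mem_nhds hxV) (h hx)
  have hpA : p ∈ A := by
    refine Or.inl ⟨by simp [F], S, fun r => ?_, rfl, fun r _ => rfl, rfl⟩
    constructor
    · intro hr; exact (em (r = p)).imp id fun h => Finset.mem_erase.2 ⟨h, hr⟩
    · rintro (rfl | h)
      · exact hp
      · exact Finset.mem_of_mem_erase h
  have hqF : q ∉ F := fun h => hq (Finset.mem_of_mem_erase h)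
  obtain ⟨-, S', hZ', hs', hs'', hc'⟩ :=
    (hA.connectedComponent_subset hpA hpq).resolve_right fun h => hqF h.1
  exact ⟨S', fun r => by rw [hZ', Finset.mem_erase]; tauto, hs',
    fun r hr hne => hs'' r (Finset.mem_erase.2 ⟨hne, hr⟩), hc'⟩

/-- Two zeros of opposite sign in one component cancel. -/
theorem Sit.cancel (S : Sit M) {p q : M} (hp : p ∈ S.Z) (hq : q ∈ S.Z) (hpq : p ≠ q)
    (hc : q ∈ connectedComponent p) (hs : S.s q = !(S.s p)) :
    ∃ S' : Sit M, (∀ r, r ∈ S'.Z ↔ r ∈ S.Z ∧ r ≠ p ∧ r ≠ q) ∧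
      (∀ r ∈ S'.Z, S'.s r = S.s r) ∧ S'.Z.card + 2 = S.Z.card := by
  classical
  have hU : (((S.Z.erase q) : Finset M) : Set M)ᶜ ∈ 𝓝 q :=
    (S.Z.erase q).finite_toSet.isClosed.isOpen_compl.mem_nhds (by simp)
  obtain ⟨ψ, b, hb, hr⟩ := Chart.exists_mem hU
  obtain ⟨a, hab⟩ := exists_ne b
  have hne : ψ.toFun a ≠ q := fun e => hab (ψ.injective (e.trans hb.symm))
  have hfree : ψ.toFun a ∉ S.Z := fun h =>
    hr ⟨a, rfl⟩ (Finset.mem_coe.2 (Finset.mem_erase.2 ⟨hne, h⟩))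
  have hcomp : ψ.toFun a ∈ connectedComponent p := by
    rw [connectedComponent_eq hc]
    exact (isPreconnected_range ψ.continuous).subset_connectedComponent ⟨b, hb⟩ ⟨a, rfl⟩
  obtain ⟨S1, hZ1, hs1, hs1', hc1⟩ := S.move_to hp hfree hcomp
  have honly : ∀ x, ψ x ∈ S1.Z → x = a ∨ x = b := by
    intro x hx
    rcases (hZ1 _).1 hx with h | ⟨h, -⟩
    · exact Or.inl (ψ.injective h)
    · by_cases hxb : ψ.toFun x = q
      · exact Or.inr (ψ.injective (hxb.trans hb.symm))
      · exact absurd (Finset.mem_coe.2 (Finset.mem_erase.2 ⟨hxb, h⟩)) (hr ⟨x, rfl⟩)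
  obtain ⟨S2, hZ2, hs2, hc2⟩ := S1.cancel_chart ψ (a := a) (b := b) hab ((hZ1 _).2 (Or.inl rfl))
    ((hZ1 _).2 (Or.inr ⟨by rw [hb]; exact hq, by rw [hb]; exact hpq.symm⟩)) honly
    (by rw [hb, hs1' q hq hpq.symm, hs1, hs])
  refine ⟨S2, fun r => ?_, fun r hr2 => ?_, by omega⟩
  · rw [hZ2, hZ1, hb]
    constructor
    · rintro ⟨h, h1, h2⟩
      obtain ⟨h3, h4⟩ := h.resolve_left h1
      exact ⟨h3, h4, h2⟩
    · rintro ⟨h, h1, h2⟩
      exact ⟨Or.inr ⟨h, h1⟩, fun e => hfree (e ▸ h), h2⟩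
  · obtain ⟨h, h1, -⟩ := (hZ2 r).1 hr2
    obtain ⟨h3, h4⟩ := ((hZ1 r).1 h).resolve_left h1
    rw [hs2]
    exact hs1' r h3 h4

end Vale.Agent.P205F.Top
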