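import Vale.Agent.P205F.Top.Parity
import Vale.Agent.P205F.Top.Sit
import Vale.Agent.P205F.Top.KinkInsert

/-!
# P205, immersions with a normal field: every closed surface has one

The theorem `topStmt`: every compact smooth surface has an immersion into `R4` with a smooth unit
normal field.
-/

namespace Vale.Agent.P205F.Top

open Set Filter Function Topology Metric
open scoped Manifold ContDiff RealInnerProductSpace

theorem prj_unique {a b w z : R4} (hab : Indep a b) (h1 : ⟪a, z⟫ = 0) (h2 : ⟪b, z⟫ = 0) {p q : ℝ}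
    (e : w = z + (p • a + q • b)) : prj a b w = z := by
  rw [e, map_add, prj_span hab, add_zero, prj_of_orth h1 h2]

theorem contDiff_prj {a b : E2 → R4} (ha : ContDiff ℝ ∞ a) (hb : ContDiff ℝ ∞ b)
    (h : ∀ x, Indep (a x) (b x)) {w : E2 → R4} (hw : ContDiff ℝ ∞ w) :
    ContDiff ℝ ∞ fun x => prj (a x) (b x) (w x) := by
  simp only [prj_apply]
  have haa := ha.inner ℝ ha
  have hbb := hb.inner ℝ hb
  have hab := ha.inner ℝ hb
  have haw := ha.inner ℝ hw
  have hbw := hb.inner ℝ hw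
  have hg : ContDiff ℝ ∞ fun x => (gram (a x) (b x))⁻¹ :=
    ((haa.mul hbb).sub (hab.pow 2)).inv fun x => (gram_pos (h x)).ne'
  exact (hw.sub ((hg.mul ((hbb.mul haw).sub (hab.mul hbw))).smul ha)).sub
    ((hg.mul ((haa.mul hbw).sub (hab.mul haw))).smul hb)

variable {M : Type*} [TopologicalSpace M] [T2Space M] [CompactSpace M] [ChartedSpace E2 M]
  [IsManifold (𝓡 2) ∞ M]

/-- A chart and a point over `p`. -/
theorem exists_chart (p : M) : ∃ c : Chart M × E2, c.1 c.2 = p := by
  obtain ⟨ψ, x, hx, -⟩ := Chart.exists_mem (Filter.univ_mem (f := 𝓝 p))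
  exact ⟨(ψ, x), hx⟩

/-- The normal projection of a vector at a point. -/
noncomputable def npr (f : M → R4) (w : R4) (p : M) : R4 :=
  let c := Classical.choose (exists_chart p)
  prj (pd 0 (fun z => f (c.1 z)) c.2) (pd 1 (fun z => f (c.1 z)) c.2) w

theorem npr_eq {f : M → R4} (hf : ContMDiff (𝓡 2) (𝓡 4) ∞ f)
    (himm : ∀ ψ : Chart M, IsImm fun z => f (ψ z)) (φ : Chart M) (x : E2) (w : R4) :
    npr f w (φ x) = prj (pd 0 (fun z => f (φ z)) x) (pd 1 (fun z => f (φ z)) x) w := by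
  have hc := Classical.choose_spec (exists_chart (φ x))
  set c := Classical.choose (exists_chart (φ x)) with hcdef
  obtain ⟨ψ, y⟩ := c
  have hc' : ψ.toFun y = φ.toFun x := hc
  show npr f w (φ x) = _
  have hn : npr f w (φ x) = prj (pd 0 (fun z => f (ψ z)) y) (pd 1 (fun z => f (ψ z)) y) w := by
    simp only [npr, ← hcdef]
  rw [hn]
  have hr : φ.toFun x ∈ range ψ.toFun := ⟨y, hc'⟩
  have hr' : ψ.toFun y ∈ range φ.toFun := ⟨x, hc'.symm⟩
  have hy : ψ.trans φ x = y := Chart.trans_eq hc'.symm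
  have hx : φ.trans ψ y = x := Chart.trans_eq hc'
  set a := pd 0 (fun z => f (φ z)) x with ha
  set b := pd 1 (fun z => f (φ z)) x with hb
  obtain ⟨o1, o2⟩ := prj_orth (indep_pd (himm φ) x) w
  obtain ⟨p, q, e⟩ := exists_prj_eq a b w
  have hN : IsNrm (fun z => f (ψ z)) y (prj a b w) :=
    normal_transfer hf φ ψ hr' (by rw [hx]; exact ⟨o1, o2⟩)
  have hspan : ∀ u : E2, fderiv ℝ (fun z => f (φ z)) x u =
      fderiv ℝ (fun z => f (ψ z)) y (fderiv ℝ (ψ.trans φ) x u) := fun u => by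
    show fderiv ℝ (fun z => f (φ.toFun z)) x u = _
    rw [fderiv_change ψ φ hf hr, hy]; rfl
  set u := fderiv ℝ (ψ.trans φ) x (p • ev 0 + q • ev 1)
  refine prj_unique (indep_pd (himm ψ) y) hN.1 hN.2 (p := u 0) (q := u 1) ?_
  rw [← apply_eq_pd (fun z => f (ψ z)) y u, ← hspan]
  conv_lhs => rw [e]
  simp [a, b, pd]

omit [T2Space M] in
/-- Immersive in a cover is immersive in every chart. -/
theorem Gen.imm_all (G : Gen M) (φ : Chart M) : IsImm fun z => G.f (φ z) := by
  intro x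
  obtain ⟨i, y, hy⟩ := G.cover (φ x)
  have hr : φ.toFun x ∈ range (G.ψ i).toFun := ⟨y, hy⟩
  show Injective (fderiv ℝ (fun z => G.f (φ.toFun z)) x)
  rw [fderiv_change (G.ψ i) φ G.smooth hr]
  exact (G.imm i _).comp ((G.ψ i).trans_fderiv_injective φ hr)

/-- The starting field. -/
theorem exists_sit : Nonempty (Sit M) := by
  classical
  obtain ⟨G⟩ := exists_gen (M := M)
  set e : R4 := EuclideanSpace.single 3 1 with he
  let n : M → R4 := fun p => npr G.f e p
  have hF : ∀ φ : Chart M, ContDiff ℝ ∞ fun z => G.f (φ z) := fun φ => φ.contDiff_comp G.smooth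
  have hn : ∀ (φ : Chart M) x, n (φ x) =
      prj (pd 0 (fun z => G.f (φ z)) x) (pd 1 (fun z => G.f (φ z)) x) e :=
    fun φ x => npr_eq G.smooth G.imm_all φ x e
  have hP : ∀ (φ : Chart M), Continuous fun x =>
      prj (pd 0 (fun z => G.f (φ z)) x) (pd 1 (fun z => G.f (φ z)) x) := fun φ =>
    continuous_iff_continuousAt.2 fun x => continuousAt_prj (continuous_pd (hF φ) 0).continuousAt
      (continuous_pd (hF φ) 1).continuousAt (indep_pd (G.imm_all φ) x)
  have hncont : Continuous n := by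
    refine continuous_iff_continuousAt.2 fun p => ?_
    obtain ⟨⟨φ, x⟩, hx⟩ := exists_chart p
    subst hx
    rw [← φ.open_emb.continuousAt_iff (x := x)]
    have : (n ∘ φ.toFun) = fun x => prj (pd 0 (fun z => G.f (φ z)) x)
        (pd 1 (fun z => G.f (φ z)) x) e := funext (hn φ)
    rw [this]
    exact ((hP φ).clm_apply continuous_const).continuousAt
  have hker : ∀ (i : Fin G.K) x, n (G.ψ i x) = 0 → ∃ v, v ≠ 0 ∧ fderiv ℝ (G.F i) x v = e := by
    intro i x h0
    rw [hn] at h0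
    obtain ⟨p, q, hpq⟩ := exists_prj_eq (pd 0 (G.F i) x) (pd 1 (G.F i) x) e
    rw [show prj (pd 0 (G.F i) x) (pd 1 (G.F i) x) e = 0 from h0, zero_add] at hpq
    have hv : fderiv ℝ (G.F i) x (p • ev 0 + q • ev 1) = e := by
      rw [map_add, map_smul, map_smul]; exact hpq.symm
    refine ⟨_, fun h => ?_, hv⟩
    rw [h, map_zero] at hv
    simpa [he] using congrArg (fun w : R4 => w 3) hv
  have hzero : ∀ p, n p = 0 ↔ p ∈ G.sing := by
    intro p
    obtain ⟨i, x, rfl⟩ := G.cover p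
    constructor
    · intro h0
      obtain ⟨v, hv, hve⟩ := hker i x h0
      refine ⟨i, x, v, rfl, hv, funext fun k => ?_⟩
      rw [hve]
      fin_cases k <;> simp [pr3, he]
    · intro hs
      obtain ⟨v, hv, h0⟩ := G.exists_kernel hs (j := i) (y := x) rfl
      set w := fderiv ℝ (G.F i) x v with hw
      have hw3 : w 3 ≠ 0 := fun h3 => hv (G.imm i x (show fderiv ℝ (G.F i) x v = _ by
        rw [map_zero]
        ext k; fin_cases k
        · exact congrFun h0 0
        · exact congrFun h0 1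
        · exact congrFun h0 2
        · exact h3))
      have hwe : e = ((w 3)⁻¹ * v 0) • pd 0 (G.F i) x + ((w 3)⁻¹ * v 1) • pd 1 (G.F i) x := by
        rw [← smul_smul, ← smul_smul, ← smul_add, ← apply_eq_pd, ← hw]
        ext k; fin_cases k
        · simp [he, show w 0 = 0 from congrFun h0 0]
        · simp [he, show w 1 = 0 from congrFun h0 1]
        · simp [he, show w 2 = 0 from congrFun h0 2]
        · simp [he, hw3]
      rw [hn, hwe]
      exact prj_span (indep_pd (G.imm_all _) x) _ _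
  have hder : ∀ p, p ∈ G.sing → ∃ s, HasSign G.f n p s := by
    intro p hp
    obtain ⟨i, x, rfl⟩ := G.cover p
    obtain ⟨w0, hw0, hw0e⟩ := hker i x ((hzero _).2 hp)
    obtain ⟨s0, t0, c, hc, rfl⟩ := exists_dir hw0
    set v := dir s0 t0 with hv
    set F := G.F i with hFdef
    have hFs : ContDiff ℝ ∞ F := G.F_smooth i
    have h0 : pr3 (fderiv ℝ F x v) = 0 := by
      funext k
      have h := congrArg (fun w : R4 => w k.castSucc) hw0e
      rw [map_smul] at h
      fin_cases k <;> simp [he, hc, pr3] at h ⊢ <;> exact h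
    set P := fun y => prj (pd 0 F y) (pd 1 F y) with hPdef
    let Dv : E2 →L[ℝ] R4 := fderiv ℝ (fun z => fderiv ℝ F z v) x
    have hdv : HasFDerivAt (fun z => fderiv ℝ F z v) Dv x :=
      (((hFs.fderiv_right (m := ∞) (by simp)).clm_apply contDiff_const).differentiable
        (by simp) x).hasFDerivAt
    have hh : HasFDerivAt (fun z => e - c • fderiv ℝ F z v) (-(c • Dv)) x :=
      (hdv.const_smul c).const_sub e
    have hD := hasFDerivAt_clm_cont (P := P) hh
      (by rw [← map_smul, hw0e, sub_self]) (hP (G.ψ i)).continuousAt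
    have hev : (fun z => n (G.ψ i z)) = fun z => P z (e - c • fderiv ℝ F z v) := by
      funext z
      rw [hn, map_sub]
      have : P z (c • fderiv ℝ F z v) = 0 := by
        rw [apply_eq_pd F z v, smul_add, smul_smul, smul_smul]
        exact prj_span (indep_pd (G.imm i) z) _ _
      rw [this, sub_zero]
      rfl
    rw [← hev] at hD
    set D := (P x).comp (-(c • Dv)) with hDdef
    suffices hne : d4 (pd 0 F x) (pd 1 F x) (D (ev 0)) (D (ev 1)) ≠ 0 by
      rcases lt_or_gt_of_ne hne with hlt | hgt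
      · exact ⟨false, G.ψ i, x, D, rfl, hD, show 0 < sgn false *
          d4 (pd 0 F x) (pd 1 F x) (D (ev 0)) (D (ev 1)) by simp [sgn, hlt]⟩
      · exact ⟨true, G.ψ i, x, D, rfl, hD, show 0 < sgn true *
          d4 (pd 0 F x) (pd 1 F x) (D (ev 0)) (D (ev 1)) by simp [sgn, hgt]⟩
    intro hd4
    -- a direction in which the field stays zero to first order
    have hI : IsImm F := G.imm i
    obtain ⟨u0, hu0, hu0'⟩ := exists_prj_ne hFs hI x
    have hu1 := normal_frame_props (indep_pd hI x) hu0 hu0'.1 hu0'.2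
    set cr := cross (pd 0 F x) (pd 1 F x) u0 with hcr
    have hdet : ⟪D (ev 0), u0⟫ * ⟪D (ev 1), cr⟫ - ⟪D (ev 0), cr⟫ * ⟪D (ev 1), u0⟫ = 0 := by
      rw [hcr, ← d4_frame (indep_pd hI x) hu0 hu0'.1 hu0'.2, hd4, zero_mul]
    obtain ⟨a, b, hab, e1, e2⟩ : ∃ a b : ℝ, (a ≠ 0 ∨ b ≠ 0) ∧
        a * ⟪D (ev 0), u0⟫ + b * ⟪D (ev 1), u0⟫ = 0 ∧
        a * ⟪D (ev 0), cr⟫ + b * ⟪D (ev 1), cr⟫ = 0 := by
      by_cases h : ⟪D (ev 0), u0⟫ = 0 ∧ ⟪D (ev 1), u0⟫ = 0
      · by_cases h' : ⟪D (ev 1), cr⟫ = 0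
        · exact ⟨0, 1, Or.inr one_ne_zero, by simp [h.2], by simp [h']⟩
        · exact ⟨⟪D (ev 1), cr⟫, -⟪D (ev 0), cr⟫, Or.inl h', by simp [h.1, h.2], by ring⟩
      · refine ⟨⟪D (ev 1), u0⟫, -⟪D (ev 0), u0⟫, ?_, by ring, by linarith⟩
        rcases not_and_or.1 h with h | h
        · exact Or.inr (neg_ne_zero.2 h)
        · exact Or.inl h
    set dm := a • ev 0 + b • ev 1 with hdm
    have hdm0 : dm ≠ 0 := fun h => by
      rcases hab with ha | hb
      · exact ha (by simpa [hdm, ev] using congrArg (fun v : E2 => v 0) h)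
      · exact hb (by simpa [hdm, ev] using congrArg (fun v : E2 => v 1) h)
    obtain ⟨o1, o2⟩ := prj_orth (indep_pd hI x) (-(c • Dv) dm)
    have hDdm : D dm = 0 := by
      have hdec := normal_decomp (indep_pd hI x) hu0 hu0'.1 hu0'.2
        (w := D dm) o1 o2
      have i1 : ⟪D dm, u0⟫ = 0 := by
        simp [hdm, inner_add_left, real_inner_smul_left, e1]
      have i2 : ⟪D dm, cr⟫ = 0 := by
        simp [hdm, inner_add_left, real_inner_smul_left, e2]
      rw [← hcr, i1, i2] at hdec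
      simpa using hdec
    have hPd : P x (Dv dm) = 0 := by
      have : -(c • P x (Dv dm)) = 0 := by simpa [hDdef] using hDdm
      exact (smul_eq_zero.1 (neg_eq_zero.1 this)).resolve_left hc
    obtain ⟨p, q, epq⟩ := exists_prj_eq (pd 0 F x) (pd 1 F x) (Dv dm)
    rw [show prj (pd 0 F x) (pd 1 F x) (Dv dm) = 0 from hPd, zero_add] at epq
    obtain ⟨α, β, hαβ⟩ := exists_coords s0 t0 (p • ev 0 + q • ev 1)
    have hpr : pr3 (d2 F x v dm) = β • pr3 (fderiv ℝ F x (ev (s0 + 1))) := by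
      have h1 : d2 F x v dm = fderiv ℝ F x (α • v + β • ev (s0 + 1)) := by
        rw [← hαβ, map_add, map_smul, map_smul]
        exact epq
      rw [h1, map_add, map_smul, map_smul, ← pr3L_apply, map_add, map_smul, map_smul,
        pr3L_apply, pr3L_apply, h0, smul_zero, zero_add]
    exact hdm0 (G.umb_inj h0 (c := -β) (by rw [hpr, neg_smul, add_neg_cancel])).1
  choose sg hsg using hder
  refine ⟨{
    f := G.f
    n := n
    smooth := G.smooth
    imm := G.imm_all
    cont := hncont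
    normal := fun φ x => by rw [hn]; exact prj_orth (indep_pd (G.imm_all φ) x) e
    Z := G.sing_finite.toFinset
    zero := fun p => (hzero p).trans G.sing_finite.mem_toFinset.symm
    s := fun p => if h : p ∈ G.sing then sg p h else true
    sign := fun p hp => ?_
    even := fun C hC => ?_ }⟩
  · have h := G.sing_finite.mem_toFinset.1 hp
    rw [dif_pos h]
    exact hsg p h
  · have h := G.even_sing hC
    have e : G.sing ∩ C = ↑(G.sing_finite.toFinset.filter fun p => p ∈ C) := by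
      ext p; simp
    rw [e, Set.ncard_coe_finset] at h
    exact h
where
  exists_prj_ne {F : E2 → R4} (hF : ContDiff ℝ ∞ F) (hI : IsImm F) (x : E2) :
      ∃ u : R4, u ≠ 0 ∧ IsNrm F x u := by
    obtain ⟨u, -, hu⟩ := exists_normal_on_ball (F := fun z => F (z + x))
      (hF.comp (contDiff_id.add contDiff_const))
      (fun z => by rw [fderiv_comp_add_right]; exact hI _) 0 le_rfl
    obtain ⟨h1, h2⟩ := hu 0 (by simp)
    refine ⟨u 0, h1, ?_⟩
    simpa [IsNrm, pd, fderiv_comp_add_right] using h2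

/-- Insert a kink in the component of a zero. -/
theorem Sit.add_kink (S : Sit M) {p : M} (s : Bool) :
    ∃ (S' : Sit M) (c d : M), c ≠ d ∧ c ∉ S.Z ∧ d ∉ S.Z ∧ c ∈ connectedComponent p ∧
      d ∈ connectedComponent p ∧ (∀ q, q ∈ S'.Z ↔ q ∈ S.Z ∨ q = c ∨ q = d) ∧
      S'.s c = s ∧ S'.s d = s ∧ (∀ q ∈ S.Z, S'.s q = S.s q) ∧ S'.Z.card = S.Z.card + 2 := by
  classical
  -- a small chart in the component, free of zeros
  obtain ⟨ψ0, b0, hb0, hr0⟩ := Chart.exists_mem
    ((S.Z.erase p).finite_toSet.isClosed.isOpen_compl.mem_nhds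
      (show p ∈ ((S.Z.erase p : Finset M) : Set M)ᶜ by simp))
  obtain ⟨a0, ha0⟩ := exists_ne b0
  have hfree : ψ0.toFun a0 ∉ S.Z := fun h => hr0 ⟨a0, rfl⟩ (Finset.mem_coe.2 (Finset.mem_erase.2
    ⟨fun e => ha0 (ψ0.injective (e.trans hb0.symm)), h⟩))
  have hcomp0 : ψ0.toFun a0 ∈ connectedComponent p :=
    (isPreconnected_range ψ0.continuous).subset_connectedComponent ⟨b0, hb0⟩ ⟨a0, rfl⟩
  obtain ⟨ψ, x0, hx0, hr⟩ := Chart.exists_mem
    (S.Z.finite_toSet.isClosed.isOpen_compl.mem_nhds (show ψ0.toFun a0 ∈ (S.Z : Set M)ᶜ by simpa))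
  have hcomp : range ψ.toFun ⊆ connectedComponent p := by
    rw [connectedComponent_eq hcomp0]
    exact (isPreconnected_range ψ.continuous).subset_connectedComponent ⟨x0, hx0⟩
  have hnz : ∀ x, ψ.toFun x ∉ S.Z := fun x => hr ⟨x, rfl⟩
  obtain ⟨F', n', a, b, hF', hI', hn', hN', hoff, hab, hz, hsgn⟩ :=
    exists_kink (ψ.contDiff_comp S.smooth) (S.imm ψ) (S.cont.comp ψ.continuous) (S.normal ψ)
      (fun x h => hnz x ((S.zero _).1 h)) s
  set f' := ψ.glue F' S.f with hf'def
  have hfs : ContMDiff (𝓡 2) (𝓡 4) ∞ f' :=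
    ψ.glue_contMDiff hF' S.smooth (isCompact_closedBall _ _) fun x hx => (hoff x hx).1
  have hf'ψ : (fun z => f' (ψ z)) = F' := funext fun z => ψ.glue_apply _ _ z
  have haway : ∀ q, q ∉ ψ.toFun '' closedBall 0 1 → f' =ᶠ[𝓝 q] S.f ∧
      ψ.glue n' S.n =ᶠ[𝓝 q] S.n := by
    intro q hq
    have ho := ((isCompact_closedBall (0 : E2) 1).image ψ.continuous).isClosed.isOpen_compl.mem_nhds hq
    constructor <;> filter_upwards [ho] with z hz
    · exact ψ.glue_eq_off (fun x hx => (hoff x hx).1) hz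
    · exact ψ.glue_eq_off (fun x hx => (hoff x hx).2) hz
  have himm : ∀ φ : Chart M, IsImm fun z => f' (φ z) := by
    intro φ x
    by_cases h : φ.toFun x ∈ range ψ.toFun
    · show Injective (fderiv ℝ (fun z => f' (φ.toFun z)) x)
      rw [fderiv_change ψ φ hfs h, hf'ψ]
      exact (hI' _).comp (ψ.trans_fderiv_injective φ h)
    · have e : (fun z => f' (φ.toFun z)) =ᶠ[𝓝 x] fun z => S.f (φ.toFun z) :=
        ((haway _ fun h' => h (image_subset_range _ _ h')).1).comp_tendsto
          φ.continuous.continuousAt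
      show Injective (fderiv ℝ (fun z => f' (φ.toFun z)) x)
      rw [e.fderiv_eq]
      exact S.imm φ x
  have hnorm : ∀ (φ : Chart M) x, IsNrm (fun z => f' (φ z)) x (ψ.glue n' S.n (φ x)) := by
    intro φ x
    by_cases h : φ.toFun x ∈ range ψ.toFun
    · obtain ⟨y, hy⟩ := h
      refine normal_transfer hfs ψ φ ⟨y, hy⟩ ?_
      rw [Chart.trans_eq hy.symm, hf'ψ]
      show IsNrm F' y (ψ.glue n' S.n (φ.toFun x))
      rw [← hy, Chart.glue_apply]
      exact hN' y
    · obtain ⟨e1, e2⟩ := haway _ fun h' => h (image_subset_range _ _ h')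
      have e3 : (fun z => f' (φ.toFun z)) =ᶠ[𝓝 x] fun z => S.f (φ.toFun z) :=
        e1.comp_tendsto φ.continuous.continuousAt
      show IsNrm (fun z => f' (φ.toFun z)) x (ψ.glue n' S.n (φ.toFun x))
      rw [e2.self_of_nhds]
      simp only [IsNrm, pd, e3.fderiv_eq]
      exact S.normal φ x
  have hcd : ψ.toFun a ≠ ψ.toFun b := fun h => hab (ψ.injective h)
  let Z' := insert (ψ.toFun a) (insert (ψ.toFun b) S.Z)
  have hzero : ∀ q, ψ.glue n' S.n q = 0 ↔ q ∈ Z' := by
    intro q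
    simp only [Z', Finset.mem_insert]
    by_cases h : q ∈ range ψ.toFun
    · obtain ⟨x, rfl⟩ := h
      rw [Chart.glue_apply, hz]
      simp [ψ.injective.eq_iff, hnz x]
    · rw [ψ.glue_of_notMem _ _ h, S.zero]
      exact ⟨fun h' => Or.inr (Or.inr h'), fun h' => (h'.resolve_left
        fun e => h ⟨a, e.symm⟩).resolve_left fun e => h ⟨b, e.symm⟩⟩
  refine ⟨{
    f := f'
    n := ψ.glue n' S.n
    smooth := hfs
    imm := himm
    cont := glue_continuous ψ hn' S.cont (isCompact_closedBall _ _) fun x hx => (hoff x hx).2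
    normal := hnorm
    Z := Z'
    zero := hzero
    s := fun q => if q ∈ range ψ.toFun then s else S.s q
    sign := fun q hq => ?_
    even := fun C hC => ?_ }, ψ.toFun a, ψ.toFun b, hcd, hnz a, hnz b, hcomp ⟨a, rfl⟩,
      hcomp ⟨b, rfl⟩, fun q => ?_, by simp, by simp, fun q hq => ?_, ?_⟩
  · by_cases h : q ∈ range ψ.toFun
    · rw [if_pos h]
      obtain ⟨x, rfl⟩ := h
      have hx0' : n' x = 0 := by
        rw [← ψ.glue_apply n' S.n x]; exact (hzero _).2 hq
      obtain ⟨D, hD, hpos⟩ := hsgn x hx0'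
      refine ⟨ψ, x, D, rfl, ?_, ?_⟩
      · rwa [show (fun z => ψ.glue n' S.n (ψ z)) = n' from funext fun z => ψ.glue_apply _ _ z]
      · rwa [hf'ψ]
    · rw [if_neg h]
      have hq' : q ∈ S.Z := by
        simp only [Z', Finset.mem_insert] at hq
        exact (hq.resolve_left fun e => h ⟨a, e.symm⟩).resolve_left fun e => h ⟨b, e.symm⟩
      obtain ⟨e1, e2⟩ := haway q fun h' => h (image_subset_range _ _ h')
      exact (S.sign q hq').congr e1 e2
  · have hiff : ψ a ∈ C ↔ ψ b ∈ C := mem_clopen_iff_of_chart ψ hC a b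
    simp only [Z', Finset.filter_insert]
    by_cases hC' : ψ.toFun a ∈ C
    · rw [if_pos hC', if_pos (hiff.1 hC'), Finset.card_insert_of_notMem, Finset.card_insert_of_notMem]
      · exact (S.even C hC).add even_two
      · exact fun h => hnz b (Finset.mem_filter.1 h).1
      · simp only [Finset.mem_insert, Finset.mem_filter, not_or]
        exact ⟨hcd, fun h => hnz a h.1⟩
    · rw [if_neg hC', if_neg fun h => hC' (hiff.2 h)]
      exact S.even C hC
  · simp only [Z', Finset.mem_insert]; tauto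
  · show (if q ∈ range ψ.toFun then s else S.s q) = S.s q
    rw [if_neg]
    rintro ⟨x, rfl⟩
    exact hnz x hq
  · show Z'.card = _
    rw [Finset.card_insert_of_notMem, Finset.card_insert_of_notMem (hnz b)]
    simp only [Finset.mem_insert, not_or]
    exact ⟨hcd, hnz a⟩

/-- All zeros can be removed. -/
theorem Sit.reduce : ∀ (k : ℕ) (S : Sit M), S.Z.card = k → ∃ S' : Sit M, S'.Z = ∅ := by
  classical
  haveI : LocallyConnectedSpace M := ChartedSpace.locallyConnectedSpace E2 M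
  intro k
  induction k using Nat.strong_induction_on with
  | _ k ih =>
    intro S hk
    rcases S.Z.eq_empty_or_nonempty with h | ⟨p, hp⟩
    · exact ⟨S, h⟩
    have hC : IsClopen (connectedComponent p) := ⟨isClosed_connectedComponent, isOpen_connectedComponent⟩
    have hpC : p ∈ S.Z.filter fun q => q ∈ connectedComponent p :=
      Finset.mem_filter.2 ⟨hp, mem_connectedComponent⟩
    obtain ⟨q, hq, hqp⟩ := Finset.exists_mem_ne (s := S.Z.filter fun q => q ∈ connectedComponent p)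
      (by
        obtain ⟨j, hj⟩ := S.even _ hC
        have := Finset.card_pos.2 ⟨p, hpC⟩
        omega) p
    obtain ⟨hqZ, hqc⟩ := Finset.mem_filter.1 hq
    by_cases hs : S.s q = !(S.s p)
    · obtain ⟨S', -, -, hc⟩ := S.cancel hp hqZ hqp.symm hqc hs
      exact ih S'.Z.card (by omega) S' rfl
    have hs' : S.s q = S.s p := by
      cases h1 : S.s q <;> cases h2 : S.s p <;> simp [h1, h2] at hs ⊢
    obtain ⟨S1, c, d, hcd, hcZ, hdZ, hcc, hdc, hZ1, hsc, hsd, hsame, hcard1⟩ :=
      S.add_kink (p := p) (!(S.s p))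
    obtain ⟨S2, hZ2, hs2, hcard2⟩ := S1.cancel (p := p) (q := c) ((hZ1 p).2 (Or.inl hp))
      ((hZ1 c).2 (Or.inr (Or.inl rfl))) (fun e => hcZ (e ▸ hp)) hcc (by rw [hsc, hsame p hp])
    have hqS2 : q ∈ S2.Z := (hZ2 q).2 ⟨(hZ1 q).2 (Or.inl hqZ), hqp, fun e => hcZ (e ▸ hqZ)⟩
    have hdS2 : d ∈ S2.Z :=
      (hZ2 d).2 ⟨(hZ1 d).2 (Or.inr (Or.inr rfl)), fun e => hdZ (e ▸ hp), hcd.symm⟩
    obtain ⟨S3, -, -, hcard3⟩ := S2.cancel (p := q) (q := d) hqS2 hdS2 (fun e => hdZ (e ▸ hqZ))
      (connectedComponent_eq hqc ▸ hdc) (by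
        rw [hs2 d hdS2, hs2 q hqS2, hsd, hsame q hqZ, hs'])
    exact ih S3.Z.card (by omega) S3 rfl

end Vale.Agent.P205F.Top

namespace Vale.Agent.P205F

open Set Filter Function Topology Metric Top
open scoped Manifold ContDiff RealInnerProductSpace

/-- **Every closed surface has an immersion into `R4` with a smooth unit normal field.** -/
theorem topStmt : TopStmt := by
  intro M _ _ _ _ _
  obtain ⟨S0⟩ := exists_sit (M := M)
  obtain ⟨S, hS⟩ := Sit.reduce S0.Z.card S0 rfl
  have hn0 : ∀ p, S.n p ≠ 0 := fun p h => by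
    have := (S.zero p).1 h
    rw [hS] at this
    simp at this
  obtain ⟨g, hg, -⟩ := S.cont.exists_contMDiff_approx (𝓡 2) (⊤ : ℕ∞) S.cont.norm
    fun p => norm_pos_iff.2 (hn0 p)
  let m : M → R4 := fun p => npr S.f (g p) p
  have hm : ∀ (ψ : Chart M) x, m (ψ x) =
      prj (pd 0 (fun z => S.f (ψ z)) x) (pd 1 (fun z => S.f (ψ z)) x) (g (ψ x)) :=
    fun ψ x => npr_eq S.smooth S.imm ψ x _
  have hm0 : ∀ p, m p ≠ 0 := by
    intro p h0
    obtain ⟨⟨ψ, x⟩, hx⟩ := exists_chart p
    subst hx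
    rw [hm] at h0
    obtain ⟨a, b, e⟩ := exists_prj_eq (pd 0 (fun z => S.f (ψ z)) x) (pd 1 (fun z => S.f (ψ z)) x)
      (g (ψ x))
    rw [h0, zero_add] at e
    have hinner : ⟪g (ψ x), S.n (ψ x)⟫ = 0 := by
      rw [e, inner_add_left, real_inner_smul_left, real_inner_smul_left, (S.normal ψ x).1,
        (S.normal ψ x).2]
      ring
    have h1 := hg (ψ x)
    rw [dist_eq_norm] at h1
    have h2 : ⟪g (ψ x) - S.n (ψ x), S.n (ψ x)⟫ = -‖S.n (ψ x)‖ ^ 2 := by
      rw [inner_sub_left, hinner, real_inner_self_eq_norm_sq, zero_sub]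
    have h3 := abs_real_inner_le_norm (g (ψ x) - S.n (ψ x)) (S.n (ψ x))
    rw [h2, abs_neg, abs_of_nonneg (sq_nonneg _)] at h3
    nlinarith [mul_lt_mul_of_pos_right h1 (norm_pos_iff.2 (hn0 (ψ x)))]
  refine ⟨S.f, fun p => ‖m p‖⁻¹ • m p, S.smooth, ?_, S.imm, fun p => ?_, fun ψ x i => ?_⟩
  · refine Chart.contMDiff_of_forall fun ψ => ?_
    have hgs : ContDiff ℝ ∞ fun z => g (ψ.toFun z) := ψ.contDiff_comp g.contMDiff
    have hF := ψ.contDiff_comp S.smooth
    have hp : ∀ i, ContDiff ℝ ∞ (pd i fun z => S.f (ψ z)) := fun i =>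
      (hF.fderiv_right (m := ∞) (by simp)).clm_apply contDiff_const
    have hms : ContDiff ℝ ∞ fun z => m (ψ.toFun z) := by
      rw [funext fun z => hm ψ z]
      exact contDiff_prj (hp 0) (hp 1) (fun z => indep_pd (S.imm ψ) z) hgs
    exact ((hms.norm ℝ fun z => hm0 _).inv fun z => norm_ne_zero_iff.2 (hm0 _)).smul hms
  · rw [norm_smul, norm_inv, norm_norm, inv_mul_cancel₀ (norm_ne_zero_iff.2 (hm0 p))]
  · show ⟪‖m (ψ x)‖⁻¹ • m (ψ x), _⟫ = 0
    obtain ⟨o1, o2⟩ := prj_orth (indep_pd (S.imm ψ) x) (g (ψ x))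
    rw [real_inner_smul_left, real_inner_comm, hm]
    fin_cases i
    · exact mul_eq_zero_of_right _ o1
    · exact mul_eq_zero_of_right _ o2

end Vale.Agent.P205F
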