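import Vale.Agent.P205F.Top.Sing

/-!
# P205, immersions with a normal field: the double set is a curve
-/

namespace Vale.Agent.P205F.Top

open Set Filter Function Topology
open scoped Manifold ContDiff RealInnerProductSpace

variable {M : Type*} [TopologicalSpace M] [T2Space M] [CompactSpace M] [ChartedSpace E2 M]
  [IsManifold (𝓡 2) ∞ M] (G : Gen M)

omit [T2Space M] [CompactSpace M] [IsManifold (𝓡 2) ∞ M] in
@[simp] theorem pr3_zero : pr3 (0 : R4) = 0 := map_zero pr3L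

/-- The double set. -/
def Gen.double : Set (M × M) := {w | w.1 ≠ w.2 ∧ G.phi w.1 = G.phi w.2}

/-- A parametrised piece of the double set. -/
structure Gen.Arc (z : M × M) where
  δ : ℝ
  δ_pos : 0 < δ
  i : Fin G.K
  j : Fin G.K
  c : ℝ → E2 × E2
  cont : ContinuousOn c (Ioo (-δ) δ)
  start : (G.ψ i (c 0).1, G.ψ j (c 0).2) = z
  mem : ∀ t ∈ Ioo (-δ) δ, (G.ψ i (c t).1, G.ψ j (c t).2) ∈ G.double
  inj : InjOn c (Ioo (-δ) δ)
  img : ∀ O, IsOpen O → O ⊆ Ioo (-δ) δ → ∃ W : Set (M × M), IsOpen W ∧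
    (fun t => (G.ψ i (c t).1, G.ψ j (c t).2)) '' O = W ∩ G.double
  k : Fin 3
  path_diff : ∀ t ∈ Ioo (-δ) δ, DifferentiableAt ℝ (fun t => G.phi (G.ψ i (c t).1)) t
  vel_diff : ∀ t ∈ Ioo (-δ) δ,
    DifferentiableAt ℝ (deriv fun t => G.phi (G.ψ i (c t).1)) t
  vel_ne : ∀ t ∈ Ioo (-δ) δ, deriv (fun t => G.phi (G.ψ i (c t).1)) t k ≠ 0

omit [T2Space M] [CompactSpace M] [IsManifold (𝓡 2) ∞ M] in
theorem Gen.not_sing_left {w : M × M} (hw : w ∈ G.double) : w.1 ∉ G.sing :=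
  G.not_sing_of_double hw.1 hw.2

omit [T2Space M] [CompactSpace M] [IsManifold (𝓡 2) ∞ M] in
theorem Gen.not_sing_right {w : M × M} (hw : w ∈ G.double) : w.2 ∉ G.sing :=
  G.not_sing_of_double (Ne.symm hw.1) hw.2.symm

omit [CompactSpace M] [IsManifold (𝓡 2) ∞ M] in
/-- The double set is a curve. -/
theorem Gen.exists_arc {z : M × M} (hz : z ∈ G.double) : Nonempty (G.Arc z) := by
  classical
  obtain ⟨i, x0, hx0⟩ := G.cover z.1
  obtain ⟨j, y0, hy0⟩ := G.cover z.2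
  let Φ : E2 × E2 → Fin 3 → ℝ := fun w => pr3L (G.F i w.1) - pr3L (G.F j w.2)
  let L : E2 × E2 →L[ℝ] (Fin 3 → ℝ) :=
    (pr3L.comp (fderiv ℝ (G.F i) x0)).comp (ContinuousLinearMap.fst ℝ E2 E2) -
      (pr3L.comp (fderiv ℝ (G.F j) y0)).comp (ContinuousLinearMap.snd ℝ E2 E2)
  have hΦs : ContDiff ℝ ∞ Φ := (pr3L.contDiff.comp ((G.F_smooth i).comp contDiff_fst)).sub
    (pr3L.contDiff.comp ((G.F_smooth j).comp contDiff_snd))
  have h1 : HasFDerivAt (pr3L ∘ G.F i) (pr3L.comp (fderiv ℝ (G.F i) x0)) x0 :=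
    pr3L.hasFDerivAt.comp x0 ((G.F_smooth i).differentiable infty_ne_zero x0).hasFDerivAt
  have h2 : HasFDerivAt (pr3L ∘ G.F j) (pr3L.comp (fderiv ℝ (G.F j) y0)) y0 :=
    pr3L.hasFDerivAt.comp y0 ((G.F_smooth j).differentiable infty_ne_zero y0).hasFDerivAt
  have hΦd : HasFDerivAt Φ L (x0, y0) :=
    (h1.comp (f := Prod.fst) (x0, y0) hasFDerivAt_fst).sub
      (h2.comp (f := Prod.snd) (x0, y0) hasFDerivAt_snd)
  have hne : G.ψ i x0 ≠ G.ψ j y0 := by rw [hx0, hy0]; exact hz.1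
  have heq : pr3 (G.f (G.ψ i x0)) = pr3 (G.f (G.ψ j y0)) := by
    rw [hx0, hy0]; exact hz.2
  have hsurj : LinearMap.range L.toLinearMap = ⊤ := by
    by_contra hr
    obtain ⟨ℓ, hℓ0, hℓ⟩ := Submodule.exists_le_ker_of_lt_top _ (lt_top_iff_ne_top.2 hr)
    let w : Fin 3 → ℝ := fun a => ℓ (Pi.single a 1)
    have hdot : ∀ v : Fin 3 → ℝ, ℓ v = ∑ a, w a * v a := by
      intro v
      conv_lhs => rw [pi_eq_sum_univ' v]
      simp [w, map_sum, mul_comm]
    have hw : w ≠ 0 := fun h => hℓ0 (LinearMap.ext fun v => by simp [hdot, h])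
    obtain ⟨r, hr'⟩ := G.dbl i j x0 y0 w hw hne heq
    rcases hr' with h | h <;> refine h ?_
    · have := hℓ ⟨(ev r, 0), rfl⟩
      rw [LinearMap.mem_ker, hdot] at this
      simp [L] at this
      exact this
    · have := hℓ ⟨(0, ev r), rfl⟩
      rw [LinearMap.mem_ker, hdot] at this
      simp only [L, ContinuousLinearMap.coe_coe, sub_apply, ContinuousLinearMap.comp_apply,
        ContinuousLinearMap.coe_fst', ContinuousLinearMap.coe_snd', map_zero, zero_sub,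
        Pi.neg_apply, mul_neg, Finset.sum_neg_distrib, neg_eq_zero, pr3L_apply] at this
      exact this
  have hker : Module.finrank ℝ (LinearMap.ker L.toLinearMap) = 1 := by
    have := LinearMap.finrank_range_add_finrank_ker L.toLinearMap
    rw [hsurj, finrank_top, Module.finrank_prod] at this
    simp at this
    omega
  obtain ⟨⟨k, hk⟩, hk0⟩ := (Module.finrank_pos_iff_exists_ne_zero (R := ℝ)
    (M := LinearMap.ker L.toLinearMap)).1 (by omega)
  have hkL : L k = 0 := hk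
  have hk1 : k.1 ≠ 0 := by
    intro h1
    have h2 : pr3 (fderiv ℝ (G.F j) y0 k.2) = 0 := by simpa [L, h1] using hkL
    have := G.dbl_imm j i y0 x0 k.2 hne.symm heq.symm h2
    exact hk0 (Subtype.ext (Prod.ext h1 this))
  let θ : E2 × E2 →L[ℝ] ℝ := (innerSL ℝ k.1).comp (ContinuousLinearMap.fst ℝ E2 E2)
  let D : E2 × E2 →L[ℝ] (Fin 3 → ℝ) × ℝ := L.prod θ
  have hD : Injective D := (injective_iff_map_eq_zero _).2 fun d hd => by
    obtain ⟨hd1, hd2⟩ : L d = 0 ∧ θ d = 0 := Prod.mk_eq_zero.1 hd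
    obtain ⟨c, hc⟩ := exists_smul_eq_of_finrank_eq_one hker (x := ⟨k, hk⟩) hk0 ⟨d, hd1⟩
    have hcd : c • k = d := congrArg Subtype.val hc
    rw [← hcd, map_smul, smul_eq_mul] at hd2
    have hθk : θ k ≠ 0 := by simp [θ, hk1]
    rw [← hcd, (mul_eq_zero.1 hd2).resolve_right hθk, zero_smul]
  let g : E2 × E2 → (Fin 3 → ℝ) × ℝ := fun w => (Φ w, θ w - θ (x0, y0))
  let De : (E2 × E2) ≃L[ℝ] (Fin 3 → ℝ) × ℝ :=
    (LinearMap.linearEquivOfInjective D.toLinearMap hD (by simp)).toContinuousLinearEquiv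
  have hgd : HasFDerivAt g (De : E2 × E2 →L[ℝ] (Fin 3 → ℝ) × ℝ) (x0, y0) := by
    have he : (De : E2 × E2 →L[ℝ] (Fin 3 → ℝ) × ℝ) = D := ContinuousLinearMap.ext fun d =>
      LinearMap.linearEquivOfInjective_apply hD (by simp) d
    rw [he]
    exact hΦd.prodMk (θ.hasFDerivAt.sub_const _)
  have hgs : ContDiffAt ℝ ∞ g (x0, y0) :=
    (hΦs.prodMk (θ.contDiff.sub contDiff_const)).contDiffAt
  let e := hgs.toOpenPartialHomeomorph g hgd infty_ne_zero
  have hsrc : (x0, y0) ∈ e.source := hgs.mem_toOpenPartialHomeomorph_source hgd infty_ne_zero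
  have hg0 : g (x0, y0) = (0, 0) := Prod.ext (sub_eq_zero.2 heq) (sub_self _)
  let c : ℝ → E2 × E2 := fun t => e.symm (0, t)
  have hc0 : c 0 = (x0, y0) := by
    show e.symm (0, 0) = _
    rw [← hg0]; exact e.left_inv hsrc
  have htgt : ((0 : Fin 3 → ℝ), (0 : ℝ)) ∈ e.target := hg0 ▸ e.map_source hsrc
  have hline : Continuous fun t : ℝ => ((0 : Fin 3 → ℝ), t) := continuous_const.prodMk continuous_id
  have hcs : ContDiffAt ℝ ∞ c 0 := by
    have h1 : ContDiffAt ℝ ∞ e.symm (g (x0, y0)) := hgs.to_localInverse hgd infty_ne_zero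
    exact ContDiffAt.comp (0 : ℝ) (f := fun t : ℝ => ((0 : Fin 3 → ℝ), t)) (by rwa [hg0] at h1)
      (contDiffAt_const.prodMk contDiffAt_id)
  have hpath : ContDiffAt ℝ (2 : ℕ) (fun t => G.phi (G.ψ i (c t).1)) 0 :=
    ((pr3L.contDiff.comp ((G.F_smooth i).comp contDiff_fst)).contDiffAt.comp 0 hcs).of_le
      (WithTop.coe_le_coe.2 le_top)
  have hv : deriv (fun t => G.phi (G.ψ i (c t).1)) 0 ≠ 0 := by
    have hcd := (hcs.differentiableAt infty_ne_zero).hasDerivAt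
    have h1 : HasDerivAt (fun t => G.phi (G.ψ i (c t).1))
        (pr3L (fderiv ℝ (G.F i) x0 (deriv c 0).1)) 0 :=
      HasFDerivAt.comp_hasDerivAt_of_eq (f := fun t => (c t).1) (l := fun z => G.phi (G.ψ i z)) 0
        (G.phi_hasFDerivAt i x0).hasFDerivAt
        ((ContinuousLinearMap.fst ℝ E2 E2).hasFDerivAt.comp_hasDerivAt 0 hcd)
        (congrArg Prod.fst hc0).symm
    have hθ : HasDerivAt (fun t => (g (c t)).2) (θ (deriv c 0)) 0 :=
      (θ.hasFDerivAt.comp_hasDerivAt 0 hcd).sub_const _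
    have hid : (fun t => (g (c t)).2) =ᶠ[𝓝 0] id := by
      filter_upwards [hline.continuousAt.eventually (e.open_target.mem_nhds htgt)] with t ht
      exact congrArg Prod.snd (e.right_inv ht)
    have h2 : θ (deriv c 0) = 1 :=
      (hθ.congr_of_eventuallyEq hid.symm).unique (hasDerivAt_id _)
    rw [h1.deriv]
    intro h0
    have hx' : (deriv c 0).1 = 0 := G.dbl_imm i j x0 y0 _ hne heq h0
    simp [θ, hx'] at h2
  obtain ⟨k3, hk3⟩ := Function.ne_iff.1 hv
  let S : Set (E2 × E2) := e.source ∩ {w | G.ψ i w.1 ≠ G.ψ j w.2}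
  have hSo : IsOpen S := e.open_source.inter (isOpen_ne_fun
    ((G.ψ i).continuous.comp continuous_fst) ((G.ψ j).continuous.comp continuous_snd))
  have hev : ∀ᶠ t in 𝓝 (0 : ℝ), ((0 : Fin 3 → ℝ), t) ∈ e.target ∧ c t ∈ S ∧
      DifferentiableAt ℝ (fun t => G.phi (G.ψ i (c t).1)) t ∧
      DifferentiableAt ℝ (deriv fun t => G.phi (G.ψ i (c t).1)) t ∧
      deriv (fun t => G.phi (G.ψ i (c t).1)) t k3 ≠ 0 := by
    have e1 := hline.continuousAt.eventually (e.open_target.mem_nhds htgt)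
    have e2 : ∀ᶠ t in 𝓝 (0 : ℝ), c t ∈ S :=
      hcs.continuousAt.eventually (hSo.mem_nhds (by rw [hc0]; exact ⟨hsrc, hne⟩))
    have e3 := hpath.eventually (by simp)
    have hd : ∀ t, ContDiffAt ℝ (2 : ℕ) (fun t => G.phi (G.ψ i (c t).1)) t →
        DifferentiableAt ℝ (deriv fun t => G.phi (G.ψ i (c t).1)) t := by
      intro t ht
      have h := (ht.fderiv_right (m := 1) (by norm_num)).differentiableAt one_ne_zero
      exact (h.clm_apply (differentiableAt_const (1 : ℝ)))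
    have e4 : ∀ᶠ t in 𝓝 (0 : ℝ), deriv (fun t => G.phi (G.ψ i (c t).1)) t k3 ≠ 0 := by
      have hcont := differentiableAt_pi.1 (hd 0 hpath) k3
      exact hcont.continuousAt.eventually_ne hk3
    filter_upwards [e1, e2, e3, e4] with t a1 a2 a3 a4
    exact ⟨a1, a2, a3.differentiableAt (by simp), hd t a3, a4⟩
  obtain ⟨δ, hδ, hball⟩ := Metric.eventually_nhds_iff.1 hev
  have hJ : ∀ t ∈ Ioo (-δ) δ, _ := fun t ht => hball (show dist t 0 < δ by
    rw [Real.dist_eq, sub_zero, abs_lt]; exact ht)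
  refine ⟨{
    δ := δ
    δ_pos := hδ
    i := i
    j := j
    c := c
    cont := fun t ht => ?_
    start := by rw [hc0]; exact Prod.ext hx0 hy0
    mem := fun t ht => ⟨(hJ t ht).2.1.2, ?_⟩
    inj := fun t ht u hu h => ?_
    img := fun O hO hsub => ?_
    k := k3
    path_diff := fun t ht => (hJ t ht).2.2.1
    vel_diff := fun t ht => (hJ t ht).2.2.2.1
    vel_ne := fun t ht => (hJ t ht).2.2.2.2 }⟩
  · exact (ContinuousAt.comp (g := e.symm) (e.continuousAt_symm (hJ t ht).1)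
      hline.continuousAt).continuousWithinAt
  · have := congrArg Prod.fst (e.right_inv (hJ t ht).1)
    exact sub_eq_zero.1 this
  · have h' : e.symm ((0 : Fin 3 → ℝ), t) = e.symm (0, u) := h
    exact (Prod.ext_iff.1 (e.symm.injOn (hJ t ht).1 (hJ u hu).1 h')).2
  · let W : Set (M × M) := Prod.map (G.ψ i).toFun (G.ψ j).toFun '' (S ∩ (fun w => (g w).2) ⁻¹' O)
    refine ⟨W, ?_, ?_⟩
    · refine ((G.ψ i).open_emb.isOpenMap.prodMap (G.ψ j).open_emb.isOpenMap) _ (hSo.inter ?_)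
      exact hO.preimage (θ.continuous.sub continuous_const)
    · ext w
      constructor
      · rintro ⟨t, ht, rfl⟩
        refine ⟨⟨c t, ⟨(hJ t (hsub ht)).2.1, ?_⟩, rfl⟩, (hJ t (hsub ht)).2.1.2, ?_⟩
        · show (g (c t)).2 ∈ O
          rwa [show g (c t) = (0, t) from e.right_inv (hJ t (hsub ht)).1]
        · exact sub_eq_zero.1 (congrArg Prod.fst (e.right_inv (hJ t (hsub ht)).1))
      · rintro ⟨⟨v, ⟨hvS, hvO⟩, rfl⟩, -, hφ⟩
        refine ⟨(g v).2, hvO, ?_⟩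
        have hgv : g v = (0, (g v).2) := Prod.ext (sub_eq_zero.2 hφ) rfl
        have hcv : c (g v).2 = v := by
          show e.symm (0, (g v).2) = v
          rw [← hgv]; exact e.left_inv hvS.1
        show (G.ψ i (c (g v).2).1, G.ψ j (c (g v).2).2) = _
        rw [hcv]; rfl

end Vale.Agent.P205F.Top
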