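import Vale.Agent.P205F.Defs

/-!
# P205, immersions with a normal field: polynomials of degree five separate jets

`pol c` runs through a finite dimensional space of polynomials on `ℝⁿ` which, composed with an
immersion of the plane, prescribe first jets at two points and second jets at one point.
-/

namespace Vale.Agent.P205F.Top

open scoped ContDiff RealInnerProductSpace

/-- Source of the polynomials. -/
abbrev X (n : ℕ) : Type := EuclideanSpace ℝ (Fin n)

/-- Coefficients. -/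
abbrev Co (n : ℕ) : Type := (Fin 5 → Option (Fin n)) → ℝ

/-- A monomial. -/
def mon {n : ℕ} (i : Fin 5 → Option (Fin n)) (z : X n) : ℝ := ∏ k, (i k).elim 1 fun j => z j

/-- The polynomial with coefficients `c`. -/
def pol {n : ℕ} (c : Co n) (z : X n) : ℝ := ∑ i, c i * mon i z

theorem pol_add {n : ℕ} (c d : Co n) (z : X n) : pol (c + d) z = pol c z + pol d z := by
  simp [pol, add_mul, Finset.sum_add_distrib]

theorem pol_smul {n : ℕ} (s : ℝ) (c : Co n) (z : X n) : pol (s • c) z = s * pol c z := by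
  simp [pol, Finset.mul_sum, mul_assoc]

theorem pol_zero {n : ℕ} (z : X n) : pol (0 : Co n) z = 0 := by simp [pol]

theorem contDiff_mon {n : ℕ} (i : Fin 5 → Option (Fin n)) : ContDiff ℝ ∞ (mon i) := by
  unfold mon
  refine contDiff_prod fun k _ => ?_
  cases i k with
  | none => exact contDiff_const
  | some j => exact (EuclideanSpace.proj (𝕜 := ℝ) j).contDiff

theorem contDiff_pol {n : ℕ} (c : Co n) : ContDiff ℝ ∞ (pol c) :=
  ContDiff.sum fun i _ => contDiff_const.mul (contDiff_mon i)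

/-- Products of five affine functions are polynomials. -/
theorem exists_pol_prod {n : ℕ} (K : Fin 5 → X n →L[ℝ] ℝ) (c : Fin 5 → ℝ) :
    ∃ p : Co n, ∀ z, pol p z = ∏ k, (K k z + c k) := by
  refine ⟨fun i => ∏ k, (i k).elim (c k) fun j => K k (EuclideanSpace.single j 1), fun z => ?_⟩
  have hK : ∀ k, K k z + c k = ∑ o : Option (Fin n),
      (o.elim (c k) fun j => K k (EuclideanSpace.single j 1)) * o.elim 1 fun j => z j := by
    intro k
    rw [Fintype.sum_option]
    have hz : z = ∑ j, z j • EuclideanSpace.single j (1 : ℝ) := by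
      ext i; simp [Pi.single_apply]
    conv_lhs => rw [hz]
    simp [map_sum, mul_comm]
    ring
  simp only [hK]
  rw [Fintype.prod_sum]
  simp [pol, mon, Finset.prod_mul_distrib]

/-- A functional with prescribed composition with an injective linear map. -/
theorem exists_functional {n : ℕ} {A : E2 →L[ℝ] X n} (hA : Function.Injective A)
    (β : E2 →L[ℝ] ℝ) : ∃ K : X n →L[ℝ] ℝ, ∀ v, K (A v) = β v := by
  obtain ⟨L, hL⟩ := A.toLinearMap.exists_leftInverse_of_injective (LinearMap.ker_eq_bot.2 hA)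
  refine ⟨β.comp L.toContinuousLinearMap, fun v => ?_⟩
  have : L (A v) = v := congrArg (fun T : E2 →ₗ[ℝ] E2 => T v) hL
  simp [this]

/-- Values and first derivatives: anything at `x`, zero at `y`. -/
theorem jet_two {n : ℕ} {G H : E2 → X n} (hG : ContDiff ℝ ∞ G) (hH : ContDiff ℝ ∞ H) {x y : E2}
    (hne : G x ≠ H y) (hinj : Function.Injective (fderiv ℝ G x)) (c : ℝ) (β : E2 →L[ℝ] ℝ) :
    ∃ p : Co n, pol p (G x) = c ∧ (∀ v, fderiv ℝ (fun z => pol p (G z)) x v = β v) ∧
      pol p (H y) = 0 ∧ ∀ v, fderiv ℝ (fun z => pol p (H z)) y v = 0 := by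
  let d := G x - H y
  have hd : ⟪d, d⟫ ≠ 0 := inner_self_ne_zero.2 (sub_ne_zero.2 hne)
  let K0 : X n →L[ℝ] ℝ := ⟪d, d⟫⁻¹ • innerSL ℝ d
  have hK0 : K0 (G x) - K0 (H y) = 1 := by
    rw [← map_sub]; simp only [K0, d]
    simp only [ContinuousLinearMap.smul_apply, innerSL_apply_apply, smul_eq_mul]
    exact inv_mul_cancel₀ hd
  obtain ⟨K1, hK1⟩ := exists_functional hinj (β - (2 * c) • K0.comp (fderiv ℝ G x))
  obtain ⟨p, hp⟩ := exists_pol_prod ![K0, K0, K1, 0, 0]
    ![-K0 (H y), -K0 (H y), c - K1 (G x), 1, 1]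
  have hp' : ∀ z, pol p z = (K0 z - K0 (H y)) * (K0 z - K0 (H y)) * (K1 z + (c - K1 (G x))) := by
    intro z; rw [hp]; simp [Fin.prod_univ_five, sub_eq_add_neg]
  have hd' : ∀ (F : E2 → X n), ContDiff ℝ ∞ F → ∀ (K : X n →L[ℝ] ℝ) (s : ℝ) (w : E2),
      HasFDerivAt (fun z => K (F z) + s) (K.comp (fderiv ℝ F w)) w := fun F hF K s w =>
    (K.hasFDerivAt.comp w (hF.differentiable (by simp) w).hasFDerivAt).add_const s
  have key : ∀ (F : E2 → X n), ContDiff ℝ ∞ F → ∀ (w v : E2),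
      fderiv ℝ (fun z => pol p (F z)) w v =
        2 * (K0 (F w) - K0 (H y)) * (K1 (F w) + (c - K1 (G x))) * K0 (fderiv ℝ F w v)
          + (K0 (F w) - K0 (H y)) ^ 2 * K1 (fderiv ℝ F w v) := by
    intro F hF w v
    have h0 := hd' F hF K0 (-K0 (H y)) w
    have h1 := hd' F hF K1 (c - K1 (G x)) w
    simp only [← sub_eq_add_neg] at h0
    have h := (h0.mul h0).mul h1
    have e : (fun z => pol p (F z)) = fun z =>
        (K0 (F z) - K0 (H y)) * (K0 (F z) - K0 (H y)) * (K1 (F z) + (c - K1 (G x))) :=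
      funext fun z => hp' _
    have h' : HasFDerivAt (fun z =>
      (K0 (F z) - K0 (H y)) * (K0 (F z) - K0 (H y)) * (K1 (F z) + (c - K1 (G x)))) _ w := h
    rw [e, h'.fderiv]
    simp
    ring
  refine ⟨p, ?_, fun v => ?_, ?_, fun v => ?_⟩
  · rw [hp', hK0]; ring
  · rw [key G hG, hK0, hK1]
    simp
  · rw [hp']; ring
  · rw [key H hH]; ring

/-- The second derivative of a product of two functions vanishing at the point. -/
theorem fderiv2_mul {a b : E2 → ℝ} (ha : ContDiff ℝ ∞ a) (hb : ContDiff ℝ ∞ b) {x : E2}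
    (a0 : a x = 0) (b0 : b x = 0) (v u : E2) :
    fderiv ℝ (fun z => fderiv ℝ (fun w => a w * b w) z v) x u
      = fderiv ℝ a x v * fderiv ℝ b x u + fderiv ℝ a x u * fderiv ℝ b x v := by
  have ha1 : Differentiable ℝ a := ha.differentiable (by simp)
  have hb1 : Differentiable ℝ b := hb.differentiable (by simp)
  have da : Differentiable ℝ fun z => fderiv ℝ a z v :=
    ((ha.fderiv_right (m := ∞) (by simp)).clm_apply contDiff_const).differentiable (by simp)
  have db : Differentiable ℝ fun z => fderiv ℝ b z v :=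
    ((hb.fderiv_right (m := ∞) (by simp)).clm_apply contDiff_const).differentiable (by simp)
  have e : (fun z => fderiv ℝ (fun w => a w * b w) z v) =
      fun z => a z * fderiv ℝ b z v + b z * fderiv ℝ a z v := by
    funext z
    rw [fderiv_fun_mul (ha1 z) (hb1 z)]
    simp
  rw [e, fderiv_fun_add ((ha1 x).fun_mul (db x)) ((hb1 x).fun_mul (da x)),
    fderiv_fun_mul (ha1 x) (db x), fderiv_fun_mul (hb1 x) (da x)]
  simp [a0, b0]
  ring

/-- Second jets at one point. -/
theorem jet_one {n : ℕ} {G : E2 → X n} (hG : ContDiff ℝ ∞ G) {x v u : E2}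
    (hinj : Function.Injective (fderiv ℝ G x)) {θ₁ θ₂ : E2 →L[ℝ] ℝ}
    (h1v : θ₁ v = 1) (h1u : θ₁ u = 0) (h2v : θ₂ v = 0) (h2u : θ₂ u = 1)
    (β : E2 →L[ℝ] ℝ) (s t : ℝ) :
    ∃ p : Co n, (∀ w, fderiv ℝ (fun z => pol p (G z)) x w = β w) ∧
      fderiv ℝ (fun z => fderiv ℝ (fun w => pol p (G w)) z v) x v = s ∧
      fderiv ℝ (fun z => fderiv ℝ (fun w => pol p (G w)) z v) x u = t := by
  obtain ⟨K, hK⟩ := exists_functional hinj β
  obtain ⟨K1, hK1⟩ := exists_functional hinj θ₁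
  obtain ⟨K2, hK2⟩ := exists_functional hinj θ₂
  let a : E2 → ℝ := fun z => K (G z - G x)
  let b1 : E2 → ℝ := fun z => K1 (G z - G x)
  let b2 : E2 → ℝ := fun z => K2 (G z - G x)
  have cl : ∀ L : X n →L[ℝ] ℝ, ContDiff ℝ ∞ (fun z => L (G z - G x)) := fun L =>
    L.contDiff.comp (hG.sub contDiff_const)
  have dl : ∀ (L : X n →L[ℝ] ℝ) (w : E2), fderiv ℝ (fun z => L (G z - G x)) x w
      = L (fderiv ℝ G x w) := by
    intro L w
    have h := L.hasFDerivAt.comp x (((hG.differentiable (by simp)) x).hasFDerivAt.sub_const (G x))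
    have h' : HasFDerivAt (fun z => L (G z - G x)) _ x := h
    rw [h'.fderiv]
    rfl
  let A : E2 → ℝ := fun w => fderiv ℝ (fun z => fderiv ℝ a z v) x w
  let σ := (s - A v) / 2
  let τ := t - A u
  obtain ⟨pa, hpa⟩ := exists_pol_prod ![K, 0, 0, 0, 0] ![-K (G x), 1, 1, 1, 1]
  obtain ⟨p1, hp1⟩ := exists_pol_prod ![K1, K1, 0, 0, 0] ![-K1 (G x), -K1 (G x), 1, 1, 1]
  obtain ⟨p2, hp2⟩ := exists_pol_prod ![K1, K2, 0, 0, 0] ![-K1 (G x), -K2 (G x), 1, 1, 1]
  let q1 : E2 → ℝ := fun z => b1 z * b1 z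
  let q2 : E2 → ℝ := fun z => b1 z * b2 z
  have e : (fun z => pol (pa + σ • p1 + τ • p2) (G z)) = fun z => a z + σ * q1 z + τ * q2 z := by
    funext z
    simp [pol_add, pol_smul, hpa, hp1, hp2, a, q1, q2, b1, b2, Fin.prod_univ_five,
      sub_eq_add_neg]
  have ca : ContDiff ℝ ∞ a := cl K
  have c1 : ContDiff ℝ ∞ q1 := (cl K1).mul (cl K1)
  have c2 : ContDiff ℝ ∞ q2 := (cl K1).mul (cl K2)
  have hlin : ∀ z w, fderiv ℝ (fun z => pol (pa + σ • p1 + τ • p2) (G z)) z w
      = fderiv ℝ a z w + σ * fderiv ℝ q1 z w + τ * fderiv ℝ q2 z w := by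
    intro z w
    have h := (((ca.differentiable (by simp)) z).hasFDerivAt.add
      (((c1.differentiable (by simp)) z).hasFDerivAt.const_mul σ)).add
      (((c2.differentiable (by simp)) z).hasFDerivAt.const_mul τ)
    have h' : HasFDerivAt (fun z => a z + σ * q1 z + τ * q2 z) _ z := h
    rw [e, h'.fderiv]
    simp
  have hsec : ∀ w, fderiv ℝ (fun z => fderiv ℝ (fun y => pol (pa + σ • p1 + τ • p2) (G y)) z v) x w
      = A w + σ * fderiv ℝ (fun z => fderiv ℝ q1 z v) x w
        + τ * fderiv ℝ (fun z => fderiv ℝ q2 z v) x w := by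
    intro w
    have dd : ∀ {g : E2 → ℝ}, ContDiff ℝ ∞ g → DifferentiableAt ℝ (fun z => fderiv ℝ g z v) x :=
      fun hg => ((hg.fderiv_right (m := ∞) (by simp)).clm_apply contDiff_const).differentiable
        (by simp) x
    have h := ((dd ca).hasFDerivAt.add ((dd c1).hasFDerivAt.const_mul σ)).add
      ((dd c2).hasFDerivAt.const_mul τ)
    have h' : HasFDerivAt (fun z => fderiv ℝ a z v
      + σ * fderiv ℝ q1 z v + τ * fderiv ℝ q2 z v) _ x := h
    rw [funext fun z => hlin z v, h'.fderiv]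
    simp [A]
  have z1 : b1 x = 0 := by simp [b1]
  have z2 : b2 x = 0 := by simp [b2]
  refine ⟨pa + σ • p1 + τ • p2, fun w => ?_, ?_, ?_⟩
  · have hq : ∀ (f g : E2 → ℝ), ContDiff ℝ ∞ f → ContDiff ℝ ∞ g → f x = 0 → g x = 0 →
        fderiv ℝ (fun z => f z * g z) x w = 0 := by
      intro f g hf hg f0 g0
      rw [fderiv_fun_mul (hf.differentiable (by simp) x) (hg.differentiable (by simp) x)]
      simp [f0, g0]
    rw [hlin, hq b1 b1 (cl K1) (cl K1) z1 z1, hq b1 b2 (cl K1) (cl K2) z1 z2,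
      show fderiv ℝ a x w = _ from dl K w, hK]
    simp
  · rw [hsec, fderiv2_mul (cl K1) (cl K1) z1 z1, fderiv2_mul (cl K1) (cl K2) z1 z2]
    simp only [dl, hK1, hK2, h1v, h2v]
    simp [σ]; ring
  · rw [hsec, fderiv2_mul (cl K1) (cl K1) z1 z1, fderiv2_mul (cl K1) (cl K2) z1 z2]
    simp only [dl, hK1, hK2, h1v, h1u, h2v, h2u]
    simp [τ]

end Vale.Agent.P205F.Top
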