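import Vale.Agent.P205F.Top.Alg
import Vale.Agent.P205F.Top.Null
import Vale.Agent.P205F.Top.Poly
import Vale.Agent.P205F.Chart.Transfer
import Vale.Agent.P205F.Interfaces

/-!
# P205, immersions with a normal field: general position

A polynomial of degree five in the coordinates of a Whitney embedding gives an immersion `f` into
`R4` whose first three components `φ` have only nondegenerate umbrellas and a regular double set.
-/

namespace Vale.Agent.P205F.Top

open MeasureTheory Set Filter Function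
open scoped Manifold ContDiff RealInnerProductSpace Topology

/-- The vectors spanning all lines of the plane. -/
noncomputable def dir (s : Fin 2) (t : ℝ) : E2 := ev s + t • ev (s + 1)

theorem exists_dir {v : E2} (hv : v ≠ 0) : ∃ (s : Fin 2) (t c : ℝ), c ≠ 0 ∧ v = c • dir s t := by
  by_cases h : v 0 = 0
  · have h1 : v 1 ≠ 0 := fun h1 => hv (by ext i; fin_cases i <;> assumption)
    refine ⟨1, 0, v 1, h1, ?_⟩
    ext i; fin_cases i <;> simp [dir, ev, h]
  · refine ⟨0, v 1 / v 0, v 0, h, ?_⟩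
    ext i; fin_cases i <;> simp [dir, ev]; field_simp

theorem contDiff_dir (s : Fin 2) : ContDiff ℝ ∞ (dir s) :=
  contDiff_const.add (contDiff_id.smul contDiff_const)

/-- Dual functionals of the basis `dir s t, ev (s+1)`. -/
theorem exists_dual (s : Fin 2) (t : ℝ) : ∃ θ₁ θ₂ : E2 →L[ℝ] ℝ,
    θ₁ (dir s t) = 1 ∧ θ₁ (ev (s + 1)) = 0 ∧ θ₂ (dir s t) = 0 ∧ θ₂ (ev (s + 1)) = 1 := by
  refine ⟨EuclideanSpace.proj s, EuclideanSpace.proj (s + 1) - t • EuclideanSpace.proj s, ?_⟩
  fin_cases s <;> simp [dir, ev]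

/-- The second derivative. -/
noncomputable def d2 {V : Type*} [NormedAddCommGroup V] [NormedSpace ℝ V] (g : E2 → V)
    (x v u : E2) : V := fderiv ℝ (fun z => fderiv ℝ g z v) x u

theorem d2_apply {g : E2 → R4} (hg : ContDiff ℝ ∞ g) (x v u : E2) (k : Fin 4) :
    d2 g x v u k = d2 (fun z => g z k) x v u := by
  have h1 : ∀ (z : E2), fderiv ℝ g z v k = fderiv ℝ (fun z => g z k) z v := by
    intro z
    have h := (EuclideanSpace.proj (𝕜 := ℝ) k).hasFDerivAt.comp z
      (hg.differentiable infty_ne_zero z).hasFDerivAt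
    have h' : HasFDerivAt (fun z => g z k) _ z := h
    rw [h'.fderiv]; rfl
  have hd : DifferentiableAt ℝ (fun z => fderiv ℝ g z v) x :=
    ((hg.fderiv_right (m := ∞) (by simp)).clm_apply contDiff_const).differentiable infty_ne_zero x
  have h := (EuclideanSpace.proj (𝕜 := ℝ) k).hasFDerivAt.comp x hd.hasFDerivAt
  have h' : HasFDerivAt (fun z => fderiv ℝ g z v k) _ x := h
  rw [d2, d2, ← funext h1, h'.fderiv]; rfl

/-- The first three coordinates. -/
def pr3 (v : R4) : Fin 3 → ℝ := fun k => v k.castSucc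

/-- The pairing with the first three coordinates. -/
def dot3 (w : Fin 3 → ℝ) (v : R4) : ℝ := ∑ k, w k * v k.castSucc

theorem dot3_smul (c : ℝ) (w : Fin 3 → ℝ) (v : R4) : dot3 (c • w) v = c * dot3 w v := by
  simp [dot3, Finset.mul_sum, mul_assoc]

/-- General position, with respect to a finite cover by charts. -/
structure Gen (M : Type*) [TopologicalSpace M] [ChartedSpace E2 M] where
  f : M → R4
  smooth : ContMDiff (𝓡 2) (𝓡 4) ∞ f
  K : ℕ
  ψ : Fin K → Chart M
  cover : ∀ p, ∃ i x, ψ i x = p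
  imm : ∀ i, IsImm fun z => f (ψ i z)
  umb : ∀ i x s t (w : Fin 3 → ℝ), w ≠ 0 → pr3 (fderiv ℝ (fun z => f (ψ i z)) x (dir s t)) = 0 →
    ¬(dot3 w (fderiv ℝ (fun z => f (ψ i z)) x (ev (s + 1))) = 0 ∧
      dot3 w (d2 (fun z => f (ψ i z)) x (dir s t) (dir s t)) = 0 ∧
      dot3 w (d2 (fun z => f (ψ i z)) x (dir s t) (ev (s + 1))) = 0)
  dbl : ∀ i j x y (w : Fin 3 → ℝ), w ≠ 0 → ψ i x ≠ ψ j y → pr3 (f (ψ i x)) = pr3 (f (ψ j y)) →
    ∃ r : Fin 2, dot3 w (fderiv ℝ (fun z => f (ψ i z)) x (ev r)) ≠ 0 ∨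
      dot3 w (fderiv ℝ (fun z => f (ψ j z)) y (ev r)) ≠ 0
  dbl_imm : ∀ i j x y v, ψ i x ≠ ψ j y → pr3 (f (ψ i x)) = pr3 (f (ψ j y)) →
    pr3 (fderiv ℝ (fun z => f (ψ i z)) x v) = 0 → v = 0

section family

variable {n : ℕ}

/-- Parameters. -/
abbrev Par (n : ℕ) : Type := Fin 4 → Co n

/-- A linear functional of a polynomial, given by its values on monomials, in slot `k`. -/
noncomputable def fn (k : Fin 4) (a : (Fin 5 → Option (Fin n)) → ℝ) : Par n →L[ℝ] ℝ :=
  (∑ i, a i • ContinuousLinearMap.proj (φ := fun _ => ℝ) i).comp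
    (ContinuousLinearMap.proj (φ := fun _ => Co n) k)

theorem fn_apply (k : Fin 4) (a : (Fin 5 → Option (Fin n)) → ℝ) (p : Par n) :
    fn k a p = ∑ i, p k i * a i := by
  simp [fn, mul_comm]

/-- First derivative of a monomial. -/
noncomputable def m1 (G : E2 → X n) (x v : E2) (i : Fin 5 → Option (Fin n)) : ℝ :=
  fderiv ℝ (fun z => mon i (G z)) x v

/-- Second derivative of a monomial. -/
noncomputable def m2 (G : E2 → X n) (x v u : E2) (i : Fin 5 → Option (Fin n)) : ℝ :=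
  d2 (fun z => mon i (G z)) x v u

variable {G : E2 → X n}

theorem m1_sum (hG : ContDiff ℝ ∞ G) (c : Co n) (x v : E2) :
    fderiv ℝ (fun z => pol c (G z)) x v = ∑ i, c i * m1 G x v i := by
  have h : ∀ i, DifferentiableAt ℝ (fun z => mon i (G z)) x := fun i =>
    ((contDiff_mon i).comp hG).differentiable infty_ne_zero x
  simp only [pol]
  rw [fderiv_fun_sum fun i _ => (h i).const_mul (c i), sum_apply]
  exact Finset.sum_congr rfl fun i _ => by rw [fderiv_const_mul (h i)]; rfl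

theorem m2_sum (hG : ContDiff ℝ ∞ G) (c : Co n) (x v u : E2) :
    d2 (fun z => pol c (G z)) x v u = ∑ i, c i * m2 G x v u i := by
  have h : ∀ i, DifferentiableAt ℝ (fun z => fderiv ℝ (fun z => mon i (G z)) z v) x := fun i =>
    (((contDiff_mon i).comp hG).fderiv_right (m := ∞) (by simp) |>.clm_apply
      contDiff_const).differentiable infty_ne_zero x
  have e : (fun z => fderiv ℝ (fun z => pol c (G z)) z v) = fun z => ∑ i, c i * m1 G z v i :=
    funext fun z => m1_sum hG c z v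
  simp only [d2, e, m1]
  rw [fderiv_fun_sum fun i _ => (h i).const_mul (c i), sum_apply]
  exact Finset.sum_congr rfl fun i _ => by rw [fderiv_const_mul (h i)]; rfl

theorem contDiff_m1 (hG : ContDiff ℝ ∞ G) (i : Fin 5 → Option (Fin n)) :
    ContDiff ℝ ∞ fun z : E2 × E2 => m1 G z.1 z.2 i :=
  ((((contDiff_mon i).comp hG).fderiv_right (m := ∞) (by simp)).comp contDiff_fst).clm_apply
    contDiff_snd

theorem contDiff_m2 (hG : ContDiff ℝ ∞ G) (i : Fin 5 → Option (Fin n)) :
    ContDiff ℝ ∞ fun z : E2 × E2 × E2 => m2 G z.1 z.2.1 z.2.2 i := by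
  have h0 : ContDiff ℝ ∞ fun z => mon i (G z) := (contDiff_mon i).comp hG
  have hD : ContDiff ℝ ∞ (fderiv ℝ fun z => mon i (G z)) := h0.fderiv_right (m := ∞) (by simp)
  have hDD : ContDiff ℝ ∞ (fderiv ℝ (fderiv ℝ fun z => mon i (G z))) :=
    hD.fderiv_right (m := ∞) (by simp)
  have e : (fun z : E2 × E2 × E2 => m2 G z.1 z.2.1 z.2.2 i) = fun z =>
      fderiv ℝ (fderiv ℝ fun y => mon i (G y)) z.1 z.2.2 z.2.1 := by
    funext z
    simp only [m2, d2]
    rw [fderiv_clm_apply (hD.differentiable infty_ne_zero _) (differentiableAt_const _)]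
    simp
  rw [e]
  exact ((hDD.comp contDiff_fst).clm_apply (contDiff_snd.comp contDiff_snd)).clm_apply
    (contDiff_fst.comp contDiff_snd)

theorem contDiff_fn {Z : Type*} [NormedAddCommGroup Z] [NormedSpace ℝ Z] (k : Fin 4)
    {a : Z → (Fin 5 → Option (Fin n)) → ℝ} (ha : ∀ i, ContDiff ℝ ∞ fun z => a z i) (p : Par n) :
    ContDiff ℝ ∞ fun z => fn k (a z) p := by
  simp only [fn_apply]
  exact ContDiff.sum fun i _ => contDiff_const.mul (ha i)

/-- The weight with `1` in slot `l`. -/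
def wt (l : Fin 3) (a : Fin 2 → ℝ) : Fin 3 → ℝ := Fin.insertNth l 1 a

theorem contDiff_wt (l k : Fin 3) : ContDiff ℝ ∞ fun a : Fin 2 → ℝ => wt l a k := by
  obtain rfl | ⟨j, rfl⟩ := Fin.eq_self_or_eq_succAbove l k
  · simpa [wt] using contDiff_const (c := (1 : ℝ))
  · simpa [wt] using contDiff_apply ℝ ℝ j

theorem exists_wt {w : Fin 3 → ℝ} (hw : w ≠ 0) : ∃ (l : Fin 3) (a : Fin 2 → ℝ) (c : ℝ),
    c ≠ 0 ∧ wt l a = c • w := by
  obtain ⟨l, hl⟩ := Function.ne_iff.1 hw
  refine ⟨l, fun j => w (l.succAbove j) / w l, (w l)⁻¹, inv_ne_zero hl, ?_⟩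
  funext k
  obtain rfl | ⟨j, rfl⟩ := Fin.eq_self_or_eq_succAbove l k
  · simp [wt, inv_mul_cancel₀ hl]
  · simp [wt, div_eq_mul_inv, mul_comm]

variable [MeasurableSpace (Par n)] [BorelSpace (Par n)] (μ : Measure (Par n))
  [μ.IsAddHaarMeasure]

/-- Bad parameters for the immersion. -/
theorem null_imm (hG : ContDiff ℝ ∞ G) (hinj : ∀ x, Injective (fderiv ℝ G x)) (s : Fin 2) :
    μ {p | ∃ (x : E2) (t : ℝ), ∀ k, fderiv ℝ (fun z => pol (p k) (G z)) x (dir s t) = 0} = 0 := by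
  let L : E2 × ℝ → Par n →L[ℝ] (Fin 4 → ℝ) := fun z =>
    ContinuousLinearMap.pi fun k => fn k (m1 G z.1 (dir s z.2))
  have hL : ContDiffOn ℝ 1 L univ := by
    refine contDiffOn_clm_apply.2 fun p =>
      ((contDiff_pi.2 fun k => ?_ : ContDiff ℝ ∞ fun z => L z p).of_le
        (by exact_mod_cast le_top)).contDiffOn
    exact contDiff_fn k (fun i => (contDiff_m1 hG i).comp
      (contDiff_fst.prodMk ((contDiff_dir s).comp contDiff_snd))) p
  refine measure_mono_null ?_ (null_of_linear_family μ isOpen_univ hL (fun z _ τ => ?_) (by simp))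
  · rintro p ⟨x, t, h⟩
    refine ⟨(x, t), trivial, funext fun k => ?_⟩
    simp only [L, ContinuousLinearMap.pi_apply, fn_apply, ← m1_sum hG]
    exact h k
  · obtain ⟨θ₁, θ₂, h1, h2, h3, h4⟩ := exists_dual s z.2
    choose q hq _ _ using fun k => jet_one hG (hinj z.1) h1 h2 h3 h4 (τ k • θ₁) 0 0
    refine ⟨q, funext fun k => ?_⟩
    simp only [L, ContinuousLinearMap.pi_apply, fn_apply, ← m1_sum hG]
    simp [hq, h1]

/-- Bad parameters for the umbrellas. -/
theorem null_umb (hG : ContDiff ℝ ∞ G) (hinj : ∀ x, Injective (fderiv ℝ G x)) (s : Fin 2)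
    (l : Fin 3) :
    μ {p | ∃ (x : E2) (t : ℝ) (a : Fin 2 → ℝ),
      (∀ k : Fin 3, fderiv ℝ (fun z => pol (p k.castSucc) (G z)) x (dir s t) = 0) ∧
      ∑ k : Fin 3, wt l a k * fderiv ℝ (fun z => pol (p k.castSucc) (G z)) x (ev (s + 1)) = 0 ∧
      ∑ k : Fin 3, wt l a k * d2 (fun z => pol (p k.castSucc) (G z)) x (dir s t) (dir s t) = 0 ∧
      ∑ k : Fin 3, wt l a k * d2 (fun z => pol (p k.castSucc) (G z)) x (dir s t) (ev (s + 1)) = 0}
      = 0 := by
  let L : E2 × ℝ × (Fin 2 → ℝ) → Par n →L[ℝ] ((Fin 3 → ℝ) × (ℝ × ℝ × ℝ)) := fun z =>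
    (ContinuousLinearMap.pi fun k : Fin 3 => fn k.castSucc (m1 G z.1 (dir s z.2.1))).prod
      ((∑ k : Fin 3, wt l z.2.2 k • fn k.castSucc (m1 G z.1 (ev (s + 1)))).prod
        ((∑ k : Fin 3, wt l z.2.2 k • fn k.castSucc (m2 G z.1 (dir s z.2.1) (dir s z.2.1))).prod
          (∑ k : Fin 3, wt l z.2.2 k • fn k.castSucc (m2 G z.1 (dir s z.2.1) (ev (s + 1))))))
  have hw : ∀ k, ContDiff ℝ ∞ fun z : E2 × ℝ × (Fin 2 → ℝ) => wt l z.2.2 k := fun k =>
    (contDiff_wt l k).comp (contDiff_snd.comp contDiff_snd)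
  have hd : ContDiff ℝ ∞ fun z : E2 × ℝ × (Fin 2 → ℝ) => dir s z.2.1 :=
    (contDiff_dir s).comp (contDiff_fst.comp contDiff_snd)
  have hL : ContDiffOn ℝ 1 L univ := by
    refine contDiffOn_clm_apply.2 fun p =>
      (ContDiff.of_le (n := ∞) ?_ (by exact_mod_cast le_top)).contDiffOn
    simp only [L, ContinuousLinearMap.prod_apply, sum_apply, smul_apply, smul_eq_mul,
      ContinuousLinearMap.pi_apply]
    refine ContDiff.prodMk ?_ (ContDiff.prodMk ?_ (ContDiff.prodMk ?_ ?_))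
    · exact contDiff_pi.2 fun k => contDiff_fn _
        (fun i => (contDiff_m1 hG i).comp (contDiff_fst.prodMk hd)) p
    all_goals
      refine ContDiff.sum fun k _ => (hw k).mul (contDiff_fn _ (fun i => ?_) p)
    · exact (contDiff_m1 hG i).comp (contDiff_fst.prodMk contDiff_const)
    · exact (contDiff_m2 hG i).comp (contDiff_fst.prodMk (hd.prodMk hd))
    · exact (contDiff_m2 hG i).comp (contDiff_fst.prodMk (hd.prodMk contDiff_const))
  refine measure_mono_null ?_ (null_of_linear_family μ isOpen_univ hL (fun z _ τ => ?_) (by simp))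
  · rintro p ⟨x, t, a, h0, h1, h2, h3⟩
    refine ⟨(x, t, a), trivial, ?_⟩
    simp only [L, ContinuousLinearMap.prod_apply, sum_apply, smul_apply,
      smul_eq_mul, fn_apply, ← m1_sum hG, ← m2_sum hG, Prod.mk_eq_zero]
    exact ⟨funext fun k => by simpa [fn_apply, ← m1_sum hG] using h0 k, h1, h2, h3⟩
  · obtain ⟨θ₁, θ₂, h1, h2, h3, h4⟩ := exists_dual s z.2.1
    obtain ⟨ql, hl1, hl2, hl3⟩ :=
      jet_one hG (hinj z.1) h1 h2 h3 h4 (τ.1 l • θ₁ + τ.2.1 • θ₂) τ.2.2.1 τ.2.2.2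
    choose q hq1 hq2 hq3 using fun k => jet_one hG (hinj z.1) h1 h2 h3 h4 (τ.1 k • θ₁) 0 0
    let p : Par n := Fin.snoc (fun k : Fin 3 => if k = l then ql else q k) 0
    have e1 : ∀ k : Fin 3, fderiv ℝ (fun y => pol (p k.castSucc) (G y)) z.1 (dir s z.2.1) =
        τ.1 k := by
      intro k
      by_cases hk : k = l <;> simp [p, hk, hl1, hq1, h1, h3]
    refine ⟨p, ?_⟩
    simp only [L, ContinuousLinearMap.prod_apply, sum_apply, smul_apply,
      smul_eq_mul, fn_apply, ← m1_sum hG, ← m2_sum hG]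
    refine Prod.ext (funext fun k => ?_) (Prod.ext ?_ (Prod.ext ?_ ?_))
    · simp only [ContinuousLinearMap.pi_apply, fn_apply, ← m1_sum hG]
      exact e1 k
    all_goals
      dsimp only
      refine (Finset.sum_eq_single l ?_ ?_).trans ?_
    all_goals
      first
      | exact fun h => absurd (Finset.mem_univ l) h
      | (intro k _ hk; simp [p, hk, hq1, hq2, hq3, h2, d2])
      | simp [p, wt, hl1, hl2, hl3, h2, h4, d2]

/-- Bad parameters for the double set. -/
theorem null_dbl {H : E2 → X n} (hG : ContDiff ℝ ∞ G) (hinjG : ∀ x, Injective (fderiv ℝ G x))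
    (hH : ContDiff ℝ ∞ H) (hinjH : ∀ x, Injective (fderiv ℝ H x)) (l : Fin 3) :
    μ {p | ∃ (x y : E2) (a : Fin 2 → ℝ), G x ≠ H y ∧
      (∀ k : Fin 3, pol (p k.castSucc) (G x) = pol (p k.castSucc) (H y)) ∧
      (∀ r, ∑ k : Fin 3, wt l a k * fderiv ℝ (fun z => pol (p k.castSucc) (G z)) x (ev r) = 0) ∧
      ∀ r, ∑ k : Fin 3, wt l a k * fderiv ℝ (fun z => pol (p k.castSucc) (H z)) y (ev r) = 0}
      = 0 := by
  let U : Set (E2 × E2 × (Fin 2 → ℝ)) := {z | G z.1 ≠ H z.2.1}
  have hU : IsOpen U := isOpen_ne_fun (hG.continuous.comp continuous_fst)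
    (hH.continuous.comp (continuous_fst.comp continuous_snd))
  let L : E2 × E2 × (Fin 2 → ℝ) → Par n →L[ℝ] ((Fin 3 → ℝ) × ((Fin 2 → ℝ) × (Fin 2 → ℝ))) :=
    fun z => (ContinuousLinearMap.pi fun k : Fin 3 =>
        fn k.castSucc (fun i => mon i (G z.1) - mon i (H z.2.1))).prod
      ((ContinuousLinearMap.pi fun r : Fin 2 =>
          ∑ k : Fin 3, wt l z.2.2 k • fn k.castSucc (m1 G z.1 (ev r))).prod
        (ContinuousLinearMap.pi fun r : Fin 2 =>
          ∑ k : Fin 3, wt l z.2.2 k • fn k.castSucc (m1 H z.2.1 (ev r))))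
  have hw : ∀ k, ContDiff ℝ ∞ fun z : E2 × E2 × (Fin 2 → ℝ) => wt l z.2.2 k := fun k =>
    (contDiff_wt l k).comp (contDiff_snd.comp contDiff_snd)
  have hL : ContDiffOn ℝ 1 L U := by
    refine contDiffOn_clm_apply.2 fun p =>
      (ContDiff.of_le (n := ∞) ?_ (by exact_mod_cast le_top)).contDiffOn
    simp only [L, ContinuousLinearMap.prod_apply, sum_apply, smul_apply, smul_eq_mul,
      ContinuousLinearMap.pi_apply]
    refine ContDiff.prodMk ?_ (ContDiff.prodMk ?_ ?_)
    · exact contDiff_pi.2 fun k => contDiff_fn _ (fun i =>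
        (((contDiff_mon i).comp hG).comp contDiff_fst).sub
          (((contDiff_mon i).comp hH).comp (contDiff_fst.comp contDiff_snd))) p
    all_goals
      refine contDiff_pi.2 fun r => ?_
      simp only [ContinuousLinearMap.pi_apply, sum_apply, smul_apply, smul_eq_mul]
      refine ContDiff.sum fun k _ => (hw k).mul (contDiff_fn _ (fun i => ?_) p)
    · exact (contDiff_m1 hG i).comp (contDiff_fst.prodMk contDiff_const)
    · exact (contDiff_m1 hH i).comp ((contDiff_fst.comp contDiff_snd).prodMk contDiff_const)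
  refine measure_mono_null ?_ (null_of_linear_family μ hU hL (fun z hz τ => ?_) (by simp))
  · rintro p ⟨x, y, a, hne, h0, h1, h2⟩
    refine ⟨(x, y, a), hne, ?_⟩
    refine Prod.ext (funext fun k => ?_) (Prod.ext (funext fun r => ?_) (funext fun r => ?_))
    · simp only [L, ContinuousLinearMap.prod_apply, ContinuousLinearMap.pi_apply, fn_apply,
        mul_sub, Finset.sum_sub_distrib, sub_eq_zero, Prod.fst_zero, Pi.zero_apply]
      exact h0 k
    · simpa [L, fn_apply, ← m1_sum hG] using h1 r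
    · simpa [L, fn_apply, ← m1_sum hH] using h2 r
  · let β : (Fin 2 → ℝ) → E2 →L[ℝ] ℝ := fun c =>
      c 0 • EuclideanSpace.proj 0 + c 1 • EuclideanSpace.proj 1
    have hβ : ∀ c r, β c (ev r) = c r := by intro c r; fin_cases r <;> simp [β, ev]
    choose q hq1 hq2 hq3 hq4 using fun k => jet_two hG hH hz (hinjG z.1) (τ.1 k) 0
    obtain ⟨ga, ga1, ga2, ga3, ga4⟩ := jet_two hG hH hz (hinjG z.1) 0 (β τ.2.1)
    obtain ⟨gb, gb1, gb2, gb3, gb4⟩ := jet_two hH hG (Ne.symm hz) (hinjH z.2.1) 0 (β τ.2.2)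
    let p : Par n := Fin.snoc (fun k : Fin 3 => if k = l then q k + ga + gb else q k) 0
    have lin : ∀ {F : E2 → X n}, ContDiff ℝ ∞ F → ∀ (c d : Co n) (x v : E2),
        fderiv ℝ (fun y => pol (c + d) (F y)) x v =
          fderiv ℝ (fun y => pol c (F y)) x v + fderiv ℝ (fun y => pol d (F y)) x v := by
      intro F hF c d x v
      simp [m1_sum hF, add_mul, Finset.sum_add_distrib]
    refine ⟨p, ?_⟩
    refine Prod.ext (funext fun k => ?_) (Prod.ext (funext fun r => ?_) (funext fun r => ?_))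
    · simp only [L, ContinuousLinearMap.prod_apply, ContinuousLinearMap.pi_apply, fn_apply,
        mul_sub, Finset.sum_sub_distrib]
      change pol (p k.castSucc) (G z.1) - pol (p k.castSucc) (H z.2.1) = τ.1 k
      by_cases hk : k = l <;> simp [p, hk, pol_add, hq1, hq3, ga1, ga3, gb1, gb3]
    all_goals
      simp only [L, ContinuousLinearMap.prod_apply, ContinuousLinearMap.pi_apply,
        sum_apply, smul_apply, smul_eq_mul, fn_apply]
      simp only [← m1_sum hG, ← m1_sum hH]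
      refine (Finset.sum_eq_single l ?_ ?_).trans ?_
    all_goals
      first
      | exact fun h => absurd (Finset.mem_univ l) h
      | (intro k _ hk; simp [p, hk, hq2, hq4])
      | simp [p, wt, lin hG, lin hH, hq2, hq4, ga2, ga4, gb2, gb4, hβ]

/-- Bad parameters for singular double points. -/
theorem null_dbl_imm {H : E2 → X n} (hG : ContDiff ℝ ∞ G)
    (hinjG : ∀ x, Injective (fderiv ℝ G x)) (hH : ContDiff ℝ ∞ H) (s : Fin 2) :
    μ {p | ∃ (x y : E2) (t : ℝ), G x ≠ H y ∧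
      (∀ k : Fin 3, pol (p k.castSucc) (G x) = pol (p k.castSucc) (H y)) ∧
      ∀ k : Fin 3, fderiv ℝ (fun z => pol (p k.castSucc) (G z)) x (dir s t) = 0} = 0 := by
  let U : Set (E2 × E2 × ℝ) := {z | G z.1 ≠ H z.2.1}
  have hU : IsOpen U := isOpen_ne_fun (hG.continuous.comp continuous_fst)
    (hH.continuous.comp (continuous_fst.comp continuous_snd))
  let L : E2 × E2 × ℝ → Par n →L[ℝ] ((Fin 3 → ℝ) × (Fin 3 → ℝ)) := fun z =>
    (ContinuousLinearMap.pi fun k : Fin 3 =>
        fn k.castSucc (fun i => mon i (G z.1) - mon i (H z.2.1))).prod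
      (ContinuousLinearMap.pi fun k : Fin 3 => fn k.castSucc (m1 G z.1 (dir s z.2.2)))
  have hL : ContDiffOn ℝ 1 L U := by
    refine contDiffOn_clm_apply.2 fun p =>
      (ContDiff.of_le (n := ∞) ?_ (by exact_mod_cast le_top)).contDiffOn
    refine ContDiff.prodMk ?_ ?_
    · exact contDiff_pi.2 fun k => contDiff_fn _ (fun i =>
        (((contDiff_mon i).comp hG).comp contDiff_fst).sub
          (((contDiff_mon i).comp hH).comp (contDiff_fst.comp contDiff_snd))) p
    · exact contDiff_pi.2 fun k => contDiff_fn _ (fun i => (contDiff_m1 hG i).comp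
        (contDiff_fst.prodMk ((contDiff_dir s).comp (contDiff_snd.comp contDiff_snd)))) p
  refine measure_mono_null ?_ (null_of_linear_family μ hU hL (fun z hz τ => ?_) (by simp))
  · rintro p ⟨x, y, t, hne, h0, h1⟩
    refine ⟨(x, y, t), hne, Prod.ext (funext fun k => ?_) (funext fun k => ?_)⟩
    · simp only [L, ContinuousLinearMap.prod_apply, ContinuousLinearMap.pi_apply, fn_apply,
        mul_sub, Finset.sum_sub_distrib, sub_eq_zero, Prod.fst_zero, Pi.zero_apply]
      exact h0 k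
    · simpa [L, fn_apply, ← m1_sum hG] using h1 k
  · obtain ⟨θ₁, θ₂, h1, -, -, -⟩ := exists_dual s z.2.2
    choose q hq1 hq2 hq3 _ using fun k => jet_two hG hH hz (hinjG z.1) (τ.1 k) (τ.2 k • θ₁)
    refine ⟨Fin.snoc q 0, Prod.ext (funext fun k => ?_) (funext fun k => ?_)⟩
    · simp only [L, ContinuousLinearMap.prod_apply, ContinuousLinearMap.pi_apply, fn_apply,
        mul_sub, Finset.sum_sub_distrib]
      change pol _ (G z.1) - pol _ (H z.2.1) = τ.1 k
      simp [hq1, hq3]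
    · simp [L, fn_apply, ← m1_sum hG, hq2, h1]

end family

variable {M : Type*} [TopologicalSpace M] [T2Space M] [CompactSpace M] [ChartedSpace E2 M]
  [IsManifold (𝓡 2) ∞ M]

/-- The map with parameter `p`. -/
noncomputable def fpar {n : ℕ} (e : M → X n) (p : Par n) (q : M) : R4 :=
  WithLp.toLp 2 fun k => pol (p k) (e q)

omit [T2Space M] [CompactSpace M] [IsManifold (𝓡 2) ∞ M] in
theorem fpar_contMDiff {n : ℕ} {e : M → X n} (he : ContMDiff (𝓡 2) (𝓡 n) ∞ e) (p : Par n) :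
    ContMDiff (𝓡 2) (𝓡 4) ∞ (fpar e p) := by
  have h : ContDiff ℝ ∞ fun z : X n => (WithLp.toLp 2 fun k => pol (p k) z : R4) :=
    contDiff_euclidean.2 fun k => contDiff_pol (p k)
  exact h.contMDiff.comp he

/-- Charts pulling an immersion back to an immersion of the plane. -/
theorem injective_fderiv_comp_chart {n : ℕ} {e : M → X n} (he : ContMDiff (𝓡 2) (𝓡 n) ∞ e)
    (hinj : ∀ q, Injective (mfderiv (𝓡 2) (𝓡 n) e q)) (ψ : Chart M) (x : E2) :
    Injective (fderiv ℝ (fun z => e (ψ z)) x) := by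
  have hψ : MDifferentiableAt (𝓡 2) (𝓡 2) ψ.toFun x :=
    (ψ.smooth.mdifferentiable infty_ne_zero) x
  have hi : MDifferentiableAt (𝓡 2) (𝓡 2) ψ.inv (ψ.toFun x) :=
    (ψ.contMDiffAt_inv ⟨x, rfl⟩).mdifferentiableAt infty_ne_zero
  have hee : MDifferentiableAt (𝓡 2) (𝓡 n) e (ψ.toFun x) := (he.mdifferentiable infty_ne_zero) _
  have hl : ∀ v, mfderiv (𝓡 2) (𝓡 2) ψ.inv (ψ.toFun x) (mfderiv (𝓡 2) (𝓡 2) ψ.toFun x v) = v := by
    intro v
    rw [← mfderiv_comp_apply x hi hψ v]
    have : (ψ.inv ∘ ψ.toFun) = id := funext ψ.left_inv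
    rw [this, mfderiv_id]
    rfl
  intro v w h
  have hc : ∀ v, fderiv ℝ (fun z => e (ψ z)) x v =
      mfderiv (𝓡 2) (𝓡 n) e (ψ.toFun x) (mfderiv (𝓡 2) (𝓡 2) ψ.toFun x v) := by
    intro v
    rw [← mfderiv_comp_apply x hee hψ v, ← mfderiv_eq_fderiv]
    rfl
  rw [hc, hc] at h
  exact (LeftInverse.injective hl) (hinj _ h)

/-- General position is attained. -/
theorem exists_gen : Nonempty (Gen M) := by
  classical
  obtain ⟨n, e, he, hemb, hinj⟩ := exists_embedding_euclidean_of_compact (M := M) (I := 𝓡 2)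
  choose ch x0 hx0 _ using fun p : M =>
    Chart.exists_mem (p := p) (Filter.univ_mem (f := 𝓝 p))
  obtain ⟨T, hT⟩ := isCompact_univ.elim_finite_subcover (fun p => range (ch p).toFun)
    (fun p => (ch p).isOpen_range) (fun p _ => mem_iUnion.2 ⟨p, ⟨x0 p, hx0 p⟩⟩)
  let ψ : Fin T.card → Chart M := fun i => ch (T.equivFin.symm i).1
  have cover : ∀ p, ∃ i x, ψ i x = p := by
    intro p
    obtain ⟨q, hq, x, hx⟩ := mem_iUnion₂.1 (hT (mem_univ p))
    exact ⟨T.equivFin ⟨q, hq⟩, x, by simpa [ψ] using hx⟩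
  let G : Fin T.card → E2 → X n := fun i z => e (ψ i z)
  have hG : ∀ i, ContDiff ℝ ∞ (G i) := fun i => (ψ i).contDiff_comp he
  have hGi : ∀ i x, Injective (fderiv ℝ (G i) x) := fun i =>
    injective_fderiv_comp_chart he hinj (ψ i)
  let μ : Measure (Par n) := Measure.addHaar
  let bad : (Fin T.card × Fin 2) ⊕ (Fin T.card × Fin 2 × Fin 3) ⊕
      (Fin T.card × Fin T.card × Fin 3) ⊕ (Fin T.card × Fin T.card × Fin 2) → Set (Par n) :=
    Sum.elim (fun a => {p | ∃ (x : E2) (t : ℝ), ∀ k,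
      fderiv ℝ (fun z => pol (p k) (G a.1 z)) x (dir a.2 t) = 0}) <|
    Sum.elim (fun a => {p | ∃ (x : E2) (t : ℝ) (w : Fin 2 → ℝ),
      (∀ k : Fin 3, fderiv ℝ (fun z => pol (p k.castSucc) (G a.1 z)) x (dir a.2.1 t) = 0) ∧
      ∑ k : Fin 3, wt a.2.2 w k *
        fderiv ℝ (fun z => pol (p k.castSucc) (G a.1 z)) x (ev (a.2.1 + 1)) = 0 ∧
      ∑ k : Fin 3, wt a.2.2 w k *
        d2 (fun z => pol (p k.castSucc) (G a.1 z)) x (dir a.2.1 t) (dir a.2.1 t) = 0 ∧
      ∑ k : Fin 3, wt a.2.2 w k *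
        d2 (fun z => pol (p k.castSucc) (G a.1 z)) x (dir a.2.1 t) (ev (a.2.1 + 1)) = 0}) <|
    Sum.elim (fun a => {p | ∃ (x y : E2) (w : Fin 2 → ℝ), G a.1 x ≠ G a.2.1 y ∧
      (∀ k : Fin 3, pol (p k.castSucc) (G a.1 x) = pol (p k.castSucc) (G a.2.1 y)) ∧
      (∀ r, ∑ k : Fin 3, wt a.2.2 w k *
        fderiv ℝ (fun z => pol (p k.castSucc) (G a.1 z)) x (ev r) = 0) ∧
      ∀ r, ∑ k : Fin 3, wt a.2.2 w k *
        fderiv ℝ (fun z => pol (p k.castSucc) (G a.2.1 z)) y (ev r) = 0})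
    fun a => {p | ∃ (x y : E2) (t : ℝ), G a.1 x ≠ G a.2.1 y ∧
      (∀ k : Fin 3, pol (p k.castSucc) (G a.1 x) = pol (p k.castSucc) (G a.2.1 y)) ∧
      ∀ k : Fin 3, fderiv ℝ (fun z => pol (p k.castSucc) (G a.1 z)) x (dir a.2.2 t) = 0}
  obtain ⟨p, hp⟩ := exists_not_mem_of_null μ (s := bad) (by
    rintro (a | a | a | a)
    · exact null_imm μ (hG _) (hGi _) _
    · exact null_umb μ (hG _) (hGi _) _ _
    · exact null_dbl μ (hG _) (hGi _) (hG _) (hGi _) _
    · exact null_dbl_imm μ (hG _) (hGi _) (hG _) _)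
  have hf : ∀ i, ContDiff ℝ ∞ fun z => fpar e p (ψ i z) := fun i =>
    (ψ i).contDiff_comp (fpar_contMDiff he p)
  have hd : ∀ i x v k, fderiv ℝ (fun z => fpar e p (ψ i z)) x v k =
      fderiv ℝ (fun z => pol (p k) (G i z)) x v := by
    intro i x v k
    have h := (EuclideanSpace.proj (𝕜 := ℝ) k).hasFDerivAt.comp x
      ((hf i).differentiable infty_ne_zero x).hasFDerivAt
    have h' : HasFDerivAt (fun z => pol (p k) (G i z)) _ x := h
    rw [h'.fderiv]; rfl
  refine ⟨{
    f := fpar e p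
    smooth := fpar_contMDiff he p
    K := T.card
    ψ := ψ
    cover := cover
    imm := fun i x => ?_
    umb := fun i x s t w hw h0 => ?_
    dbl := fun i j x y w hw hne heq => ?_
    dbl_imm := fun i j x y v hne heq h0 => ?_ }⟩
  · refine (injective_iff_map_eq_zero _).2 fun v hv => ?_
    by_contra hv0
    obtain ⟨s, t, c, hc, rfl⟩ := exists_dir hv0
    refine hp (.inl (i, s)) ⟨x, t, fun k => ?_⟩
    rw [← hd]
    rw [map_smul, smul_eq_zero] at hv
    rw [hv.resolve_left hc]; rfl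
  · obtain ⟨l, a, c, hc, ha⟩ := exists_wt hw
    rintro ⟨h1, h2, h3⟩
    have hs : ∀ v : R4, dot3 w v = 0 → ∑ k : Fin 3, wt l a k * v k.castSucc = 0 := by
      intro v hv
      have := dot3_smul c w v
      rw [← ha, hv, mul_zero] at this
      exact this
    refine hp (.inr (.inl (i, s, l))) ⟨x, t, a, fun k => ?_, ?_, ?_, ?_⟩
    · rw [← hd]; exact congrFun h0 k
    · simpa [hd] using hs _ h1
    · have := hs _ h2
      simp only [d2_apply (hf i)] at this
      exact this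
    · have := hs _ h3
      simp only [d2_apply (hf i)] at this
      exact this
  · obtain ⟨l, a, c, hc, ha⟩ := exists_wt hw
    by_contra! hr
    refine hp (.inr (.inr (.inl (i, j, l)))) ⟨x, y, a, fun h => hne (hemb.injective h),
      fun k => congrFun heq k, fun r => ?_, fun r => ?_⟩
    · have := dot3_smul c w (fderiv ℝ (fun z => fpar e p (ψ i z)) x (ev r))
      rw [← ha, (hr r).1, mul_zero] at this
      simpa [dot3, hd] using this
    · have := dot3_smul c w (fderiv ℝ (fun z => fpar e p (ψ j z)) y (ev r))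
      rw [← ha, (hr r).2, mul_zero] at this
      simpa [dot3, hd] using this
  · by_contra hv0
    obtain ⟨s, t, c, hc, rfl⟩ := exists_dir hv0
    refine hp (.inr (.inr (.inr (i, j, s)))) ⟨x, y, t, fun h => hne (hemb.injective h),
      fun k => congrFun heq k, fun k => ?_⟩
    have h2 : c * fderiv ℝ (fun z => fpar e p (ψ i z)) x (dir s t) k.castSucc = 0 := by
      simpa [pr3] using congrFun h0 k
    rw [← hd]
    exact (mul_eq_zero.1 h2).resolve_left hc

end Vale.Agent.P205F.Top
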