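import Mathlib

/-!
# P205, immersions with a normal field: heights along curves in `ℝ³`

For almost every functional, the height along a regular curve has isolated critical points (a
same-dimension Sard argument).
-/

namespace Vale.Agent.P205F.Top

open MeasureTheory Set Filter Function Topology

/-- The height along a velocity field, scaled by the component `k`. -/
noncomputable def hgt (b : ℝ → Fin 3 → ℝ) (k : Fin 3) (a : Fin 3 → ℝ) (t : ℝ) : ℝ :=
  ∑ i, a i * (b t i / b t k)

theorem null_degenerate [MeasurableSpace (Fin 3 → ℝ)] [BorelSpace (Fin 3 → ℝ)]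
    (μ : Measure (Fin 3 → ℝ)) [μ.IsAddHaarMeasure] {b : ℝ → Fin 3 → ℝ} {J : Set ℝ} {k : Fin 3}
    (hb : ∀ t ∈ J, DifferentiableAt ℝ b t) (hk : ∀ t ∈ J, b t k ≠ 0) :
    μ {a | ∃ t ∈ J, hgt b k a t = 0 ∧ deriv (hgt b k a) t = 0} = 0 := by
  let Φ : (Fin 3 → ℝ) → Fin 3 → ℝ := fun c => c - hgt b k c (c k) • Pi.single k 1
  let s : Set (Fin 3 → ℝ) := {c | c k ∈ J ∧ deriv (hgt b k c) (c k) = 0}
  have hρ : ∀ i, ∀ t ∈ J, DifferentiableAt ℝ (fun t => b t i / b t k) t := fun i t ht =>
    (differentiableAt_pi.1 (hb t ht) i).fun_div (differentiableAt_pi.1 (hb t ht) k) (hk t ht)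
  have hh : ∀ c, c k ∈ J → DifferentiableAt ℝ (fun c : Fin 3 → ℝ => hgt b k c (c k)) c := by
    intro c hc
    unfold hgt
    refine DifferentiableAt.fun_sum fun i _ => ?_
    have hk' : DifferentiableAt ℝ (fun f : Fin 3 → ℝ => f k) c := differentiableAt_apply k c
    have hi' : DifferentiableAt ℝ (fun f : Fin 3 → ℝ => f i) c := differentiableAt_apply i c
    exact hi'.fun_mul (DifferentiableAt.comp (f := fun f : Fin 3 → ℝ => f k) c (hρ i _ hc) hk')
  have hΦ : ∀ c, c k ∈ J → DifferentiableAt ℝ Φ c := fun c hc =>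
    differentiableAt_id.fun_sub ((hh c hc).fun_smul (differentiableAt_const _))
  have hker : ∀ c ∈ s, fderiv ℝ Φ c (Pi.single k 1) = 0 := by
    rintro c ⟨hc, hd⟩
    let L := fderiv ℝ Φ c
    -- along the line through `c` in the direction `k`
    have h1 : HasDerivAt (fun x : ℝ => Φ (c + x • Pi.single k 1)) (L (Pi.single k 1)) 0 := by
      have hl : HasDerivAt (fun x : ℝ => c + x • (Pi.single k 1 : Fin 3 → ℝ)) (Pi.single k 1) 0 := by
        simpa using ((hasDerivAt_id (0 : ℝ)).smul_const (Pi.single k 1 : Fin 3 → ℝ)).const_add c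
      have hΦ' : HasFDerivAt Φ L (c + (0 : ℝ) • (Pi.single k 1 : Fin 3 → ℝ)) := by
        simpa using (hΦ c hc).hasFDerivAt
      exact hΦ'.comp_hasDerivAt 0 hl
    have hJ : ∀ᶠ x : ℝ in 𝓝 0, b (c k + x) k ≠ 0 := by
      have hcont : ContinuousAt (fun x : ℝ => b (c k + x) k) 0 := by
        have := (differentiableAt_pi.1 (hb _ hc) k).continuousAt
        exact ContinuousAt.comp (g := fun t => b t k) (by simpa using this)
          (continuousAt_const.add continuousAt_id)
      exact hcont.eventually_ne (by simpa using hk _ hc)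
    have heq : (fun x : ℝ => Φ (c + x • Pi.single k 1)) =ᶠ[𝓝 0]
        fun x => c - hgt b k c (c k + x) • Pi.single k 1 := by
      filter_upwards [hJ] with x hx
      have hl : hgt b k (c + x • Pi.single k 1) (c k + x) = hgt b k c (c k + x) + x := by
        simp only [hgt, Pi.add_apply, Pi.smul_apply, smul_eq_mul, add_mul, Finset.sum_add_distrib]
        congr 1
        rw [Finset.sum_eq_single k]
        · simp [div_self hx]
        · intro i _ hi; simp [hi]
        · simp
      simp only [Φ, Pi.add_apply, Pi.smul_apply, Pi.single_eq_same, smul_eq_mul, mul_one, hl,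
        add_smul]
      abel
    have h2 : HasDerivAt (fun x : ℝ => c - hgt b k c (c k + x) • (Pi.single k 1 : Fin 3 → ℝ))
        (-((0 : ℝ) • (Pi.single k 1 : Fin 3 → ℝ))) 0 := by
      have hhd : HasDerivAt (hgt b k c) 0 (c k) := by
        have hdiff : DifferentiableAt ℝ (hgt b k c) (c k) :=
          DifferentiableAt.fun_sum fun i _ => (hρ i _ hc).const_mul _
        simpa [hd] using hdiff.hasDerivAt
      have : HasDerivAt (fun x : ℝ => hgt b k c (c k + x)) 0 0 := by
        have := HasDerivAt.comp_const_add (f := hgt b k c) (c k) (0 : ℝ) (by simpa using hhd)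
        simpa using this
      exact (this.smul_const _).const_sub c
    have h3 : L (Pi.single k 1) = -((0 : ℝ) • (Pi.single k 1 : Fin 3 → ℝ)) :=
      (h1.congr_of_eventuallyEq heq.symm).unique h2
    simpa using h3
  have h0 : μ (Φ '' s) = 0 := by
    refine addHaar_image_eq_zero_of_det_fderivWithin_eq_zero μ
      (fun c hc => (hΦ c hc.1).hasFDerivAt.hasFDerivWithinAt) fun c hc => ?_
    refine LinearMap.det_eq_zero_iff_ker_ne_bot.2 (fun h => ?_)
    have hmem : (Pi.single k 1 : Fin 3 → ℝ) ∈ LinearMap.ker (fderiv ℝ Φ c).toLinearMap :=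
      hker c hc
    rw [h, Submodule.mem_bot] at hmem
    simpa using congrFun hmem k
  refine measure_mono_null ?_ h0
  rintro a ⟨t, ht, hz, hd⟩
  let c := a + (t - a k) • Pi.single k 1
  have hck : c k = t := by simp [c]
  have hsum : ∀ x ∈ ({x | b x k ≠ 0} : Set ℝ), hgt b k c x = hgt b k a x + (t - a k) := by
    intro x hx
    simp only [hgt, c, Pi.add_apply, Pi.smul_apply, smul_eq_mul, add_mul, Finset.sum_add_distrib]
    congr 1
    rw [Finset.sum_eq_single k]
    · simp [div_self (show b x k ≠ 0 from hx)]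
    · intro i _ hi; simp [hi]
    · simp
  refine ⟨c, ⟨hck ▸ ht, ?_⟩, ?_⟩
  · rw [hck]
    have : hgt b k c =ᶠ[𝓝 t] fun x => hgt b k a x + (t - a k) :=
      ((differentiableAt_pi.1 (hb t ht) k).continuousAt.eventually_ne (hk t ht)).mono hsum
    rw [this.deriv_eq, deriv_add_const, hd]
  · simp only [Φ, hck, hsum t (hk t ht), hz, zero_add, c]
    abel

/-- A zero of a function is not a zero nearby, if the derivative does not vanish. -/
theorem eventually_ne_of_deriv_ne_zero {h : ℝ → ℝ} {t : ℝ} (hd : DifferentiableAt ℝ h t)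
    (h0 : deriv h t ≠ 0) : ∀ᶠ x in 𝓝[≠] t, h x ≠ h t :=
  hd.hasDerivAt.eventually_ne h0

/-- Without critical points on both sides of `t`, the value at `t` is taken once. -/
theorem ne_of_deriv_ne_zero {l : ℝ → ℝ} {t ε : ℝ}
    (hl : ∀ x ∈ Icc (t - ε) (t + ε), DifferentiableAt ℝ l x)
    (h : ∀ x ∈ Icc (t - ε) (t + ε), x ≠ t → deriv l x ≠ 0) :
    ∀ x ∈ Icc (t - ε) (t + ε), x ≠ t → l x ≠ l t := by
  intro x hx hxt hlx
  have htI : t ∈ Icc (t - ε) (t + ε) := ⟨by linarith [hx.1, hx.2], by linarith [hx.1, hx.2]⟩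
  rcases lt_or_gt_of_ne hxt with hlt | hgt
  · obtain ⟨y, hy, hy0⟩ := exists_deriv_eq_zero hlt (fun z hz =>
      (hl z ⟨hx.1.trans hz.1, hz.2.trans htI.2⟩).continuousAt.continuousWithinAt) hlx
    exact h y ⟨hx.1.trans hy.1.le, hy.2.le.trans htI.2⟩ hy.2.ne hy0
  · obtain ⟨y, hy, hy0⟩ := exists_deriv_eq_zero hgt (fun z hz =>
      (hl z ⟨htI.1.trans hz.1, hz.2.trans hx.2⟩).continuousAt.continuousWithinAt) hlx.symm
    exact h y ⟨htI.1.trans hy.1.le, hy.2.le.trans hx.2⟩ hy.1.ne' hy0

end Vale.Agent.P205F.Top
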