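import Vale.Agent.P205F.Top.Normal

/-!
# P205, immersions with a normal field: the Whitney kink

`K (x, y) = (x - 2x/u, y, 1/u, xy/u)` with `u = (1 + x²)(1 + y²)`: an immersed plane, standard at
infinity, to which the third axis is tangent at exactly two points, both of the same sign.
-/

namespace Vale.Agent.P205F.Top

open Set Filter Function Topology
open scoped RealInnerProductSpace ContDiff

/-- `1 / (1 + t²)`. -/
noncomputable def kA (t : ℝ) : ℝ := (1 + t ^ 2)⁻¹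

/-- Derivative of `kA`. -/
noncomputable def kA' (t : ℝ) : ℝ := -(2 * t) / (1 + t ^ 2) ^ 2

/-- Second derivative of `kA`. -/
noncomputable def kA'' (t : ℝ) : ℝ := (6 * t ^ 2 - 2) / (1 + t ^ 2) ^ 3

/-- `t / (1 + t²)`. -/
noncomputable def kX (t : ℝ) : ℝ := t / (1 + t ^ 2)

/-- Derivative of `kX`. -/
noncomputable def kX' (t : ℝ) : ℝ := (1 - t ^ 2) / (1 + t ^ 2) ^ 2

/-- Second derivative of `kX`. -/
noncomputable def kX'' (t : ℝ) : ℝ := 2 * t * (t ^ 2 - 3) / (1 + t ^ 2) ^ 3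

theorem one_add_sq_ne (t : ℝ) : 1 + t ^ 2 ≠ 0 := by positivity

theorem hasDerivAt_kA (t : ℝ) : HasDerivAt kA (kA' t) t := by
  have h := ((hasDerivAt_pow 2 t).const_add 1).fun_inv (one_add_sq_ne t)
  exact h.congr_deriv (by simp [kA'])

theorem hasDerivAt_kA' (t : ℝ) : HasDerivAt kA' (kA'' t) t := by
  have h := (((hasDerivAt_id t).const_mul 2).neg).fun_div
    (((hasDerivAt_pow 2 t).const_add 1).fun_pow 2) (pow_ne_zero 2 (one_add_sq_ne t))
  refine h.congr_deriv ?_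
  have := one_add_sq_ne t
  simp [kA'']
  field_simp
  ring

theorem hasDerivAt_kX (t : ℝ) : HasDerivAt kX (kX' t) t := by
  have h := (hasDerivAt_id t).fun_div ((hasDerivAt_pow 2 t).const_add 1) (one_add_sq_ne t)
  refine h.congr_deriv ?_
  simp [kX']
  ring

theorem hasDerivAt_kX' (t : ℝ) : HasDerivAt kX' (kX'' t) t := by
  have h := ((hasDerivAt_pow 2 t).const_sub 1).fun_div
    (((hasDerivAt_pow 2 t).const_add 1).fun_pow 2) (pow_ne_zero 2 (one_add_sq_ne t))
  refine h.congr_deriv ?_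
  have := one_add_sq_ne t
  simp [kX'']
  field_simp
  ring

/-- Bounded and decaying like `1/|t|`. -/
def Decays (p : ℝ → ℝ) : Prop := ∀ t, |p t| ≤ 2 ∧ |t| * |p t| ≤ 2

theorem decays_kA : Decays kA := fun t => by
  have h : 0 < 1 + t ^ 2 := by positivity
  have ht : |t| ≤ 1 + t ^ 2 := by nlinarith [sq_abs t, sq_nonneg (|t| - 1)]
  refine ⟨?_, ?_⟩ <;> simp only [kA, abs_inv, abs_of_pos h]
  · rw [inv_le_iff_one_le_mul₀ h]; nlinarith
  · rw [← div_eq_mul_inv, div_le_iff₀ h]; nlinarith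

theorem decays_kA' : Decays kA' := fun t => by
  have h : 0 < (1 + t ^ 2) ^ 2 := by positivity
  have ht : |t| ≤ 1 + t ^ 2 := by nlinarith [sq_abs t, sq_nonneg (|t| - 1)]
  refine ⟨?_, ?_⟩ <;> simp only [kA', abs_div, abs_neg, abs_mul, abs_two, abs_of_pos h]
  · rw [div_le_iff₀ h]; nlinarith
  · rw [← mul_div_assoc, div_le_iff₀ h]; nlinarith [sq_abs t]

theorem decays_kX : Decays kX := fun t => by
  have h : 0 < 1 + t ^ 2 := by positivity
  have ht : |t| ≤ 1 + t ^ 2 := by nlinarith [sq_abs t, sq_nonneg (|t| - 1)]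
  refine ⟨?_, ?_⟩ <;> simp only [kX, abs_div, abs_of_pos h]
  · rw [div_le_iff₀ h]; nlinarith
  · rw [← mul_div_assoc, div_le_iff₀ h]; nlinarith [sq_abs t]

theorem decays_kX' : Decays kX' := fun t => by
  have h : 0 < (1 + t ^ 2) ^ 2 := by positivity
  have ht : |t| ≤ 1 + t ^ 2 := by nlinarith [sq_abs t, sq_nonneg (|t| - 1)]
  have h1 : |1 - t ^ 2| ≤ 1 + t ^ 2 := abs_le.2 ⟨by nlinarith, by nlinarith⟩
  refine ⟨?_, ?_⟩ <;> simp only [kX', abs_div, abs_of_pos h]
  · rw [div_le_iff₀ h]; nlinarith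
  · rw [← mul_div_assoc, div_le_iff₀ h]
    nlinarith [mul_le_mul ht h1 (abs_nonneg _) (by positivity)]

theorem decay_mul {p q : ℝ → ℝ} (hp : Decays p) (hq : Decays q) (y : E2) :
    ‖y‖ * |p (y 0) * q (y 1)| ≤ 8 := by
  have hn : ‖y‖ ≤ |y 0| + |y 1| := by
    rw [EuclideanSpace.norm_eq, Real.sqrt_le_left (by positivity)]
    simp only [Fin.sum_univ_two, Real.norm_eq_abs]
    nlinarith [mul_nonneg (abs_nonneg (y 0)) (abs_nonneg (y 1))]
  obtain ⟨a1, a2⟩ := hp (y 0)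
  obtain ⟨b1, b2⟩ := hq (y 1)
  rw [abs_mul]
  nlinarith [mul_le_mul a2 b1 (abs_nonneg _) zero_le_two,
    mul_le_mul a1 b2 (by positivity) zero_le_two, abs_nonneg (p (y 0)), abs_nonneg (q (y 1)),
    mul_nonneg (abs_nonneg (p (y 0))) (abs_nonneg (q (y 1)))]

theorem hasFDerivAt_sep {p p' q q' : ℝ → ℝ} (hp : ∀ t, HasDerivAt p (p' t) t)
    (hq : ∀ t, HasDerivAt q (q' t) t) (y : E2) :
    HasFDerivAt (fun z : E2 => p (z 0) * q (z 1))
      ((p' (y 0) * q (y 1)) • (EuclideanSpace.proj (0 : Fin 2) : E2 →L[ℝ] ℝ) +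
        (p (y 0) * q' (y 1)) • (EuclideanSpace.proj (1 : Fin 2) : E2 →L[ℝ] ℝ)) y := by
  have h0 := (hp (y 0)).comp_hasFDerivAt y (EuclideanSpace.proj (0 : Fin 2) : E2 →L[ℝ] ℝ).hasFDerivAt
  have h1 := (hq (y 1)).comp_hasFDerivAt y (EuclideanSpace.proj (1 : Fin 2) : E2 →L[ℝ] ℝ).hasFDerivAt
  refine (h0.mul h1).congr_fderiv (ContinuousLinearMap.ext fun v => ?_)
  simp
  ring

/-- Basis of `R4`. -/
noncomputable def e4 (i : Fin 4) : R4 := EuclideanSpace.single i 1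

/-- The standard plane. -/
noncomputable def lin : E2 →L[ℝ] R4 :=
  (EuclideanSpace.proj (0 : Fin 2) : E2 →L[ℝ] ℝ).smulRight (e4 0) +
    (EuclideanSpace.proj (1 : Fin 2) : E2 →L[ℝ] ℝ).smulRight (e4 1)

/-- The perturbation giving the kink. -/
noncomputable def pert (y : E2) : R4 :=
  (-2 * (kX (y 0) * kA (y 1))) • e4 0 + (kA (y 0) * kA (y 1)) • e4 2 +
    (kX (y 0) * kX (y 1)) • e4 3

/-- First partial of the perturbation. -/
noncomputable def pert0 (y : E2) : R4 :=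
  (-2 * (kX' (y 0) * kA (y 1))) • e4 0 + (kA' (y 0) * kA (y 1)) • e4 2 +
    (kX' (y 0) * kX (y 1)) • e4 3

/-- Second partial of the perturbation. -/
noncomputable def pert1 (y : E2) : R4 :=
  (-2 * (kX (y 0) * kA' (y 1))) • e4 0 + (kA (y 0) * kA' (y 1)) • e4 2 +
    (kX (y 0) * kX' (y 1)) • e4 3

theorem hasFDerivAt_pert (y : E2) : HasFDerivAt pert
    ((EuclideanSpace.proj (0 : Fin 2) : E2 →L[ℝ] ℝ).smulRight (pert0 y) +
      (EuclideanSpace.proj (1 : Fin 2) : E2 →L[ℝ] ℝ).smulRight (pert1 y)) y := by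
  have h := ((((hasFDerivAt_sep hasDerivAt_kX hasDerivAt_kA y).const_mul (-2)).smul_const (e4 0)).add
    ((hasFDerivAt_sep hasDerivAt_kA hasDerivAt_kA y).smul_const (e4 2))).add
    ((hasFDerivAt_sep hasDerivAt_kX hasDerivAt_kX y).smul_const (e4 3))
  refine h.congr_fderiv (ContinuousLinearMap.ext fun v => ?_)
  simp [pert0, pert1]
  module

theorem hasFDerivAt_pert0 (y : E2) : HasFDerivAt pert0
    ((EuclideanSpace.proj (0 : Fin 2) : E2 →L[ℝ] ℝ).smulRight
      ((-2 * (kX'' (y 0) * kA (y 1))) • e4 0 + (kA'' (y 0) * kA (y 1)) • e4 2 +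
        (kX'' (y 0) * kX (y 1)) • e4 3) +
      (EuclideanSpace.proj (1 : Fin 2) : E2 →L[ℝ] ℝ).smulRight
      ((-2 * (kX' (y 0) * kA' (y 1))) • e4 0 + (kA' (y 0) * kA' (y 1)) • e4 2 +
        (kX' (y 0) * kX' (y 1)) • e4 3)) y := by
  have h := ((((hasFDerivAt_sep hasDerivAt_kX' hasDerivAt_kA y).const_mul (-2)).smul_const (e4 0)).add
    ((hasFDerivAt_sep hasDerivAt_kA' hasDerivAt_kA y).smul_const (e4 2))).add
    ((hasFDerivAt_sep hasDerivAt_kX' hasDerivAt_kX y).smul_const (e4 3))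
  refine h.congr_fderiv (ContinuousLinearMap.ext fun v => ?_)
  simp
  module

theorem contDiff_pert : ContDiff ℝ ∞ pert := by
  have hA : ContDiff ℝ ∞ kA :=
    (contDiff_const.add (contDiff_id.pow 2)).inv fun t => one_add_sq_ne t
  have hX : ContDiff ℝ ∞ kX :=
    contDiff_id.div (contDiff_const.add (contDiff_id.pow 2)) fun t => one_add_sq_ne t
  have h0 : ContDiff ℝ ∞ fun z : E2 => z 0 := (EuclideanSpace.proj (0 : Fin 2) : E2 →L[ℝ] ℝ).contDiff
  have h1 : ContDiff ℝ ∞ fun z : E2 => z 1 := (EuclideanSpace.proj (1 : Fin 2) : E2 →L[ℝ] ℝ).contDiff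
  unfold pert
  exact ((((contDiff_const.mul ((hX.comp h0).mul (hA.comp h1))).smul contDiff_const).add
    (((hA.comp h0).mul (hA.comp h1)).smul contDiff_const))).add
    (((hX.comp h0).mul (hX.comp h1)).smul contDiff_const)

/-- The kink. -/
noncomputable def kink (y : E2) : R4 := lin y + pert y

theorem hasFDerivAt_kink (y : E2) : HasFDerivAt kink
    (lin + ((EuclideanSpace.proj (0 : Fin 2) : E2 →L[ℝ] ℝ).smulRight (pert0 y) +
      (EuclideanSpace.proj (1 : Fin 2) : E2 →L[ℝ] ℝ).smulRight (pert1 y))) y :=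
  lin.hasFDerivAt.add (hasFDerivAt_pert y)

/-- The derivative and a third vector, as one linear map. -/
noncomputable def joint (T : E2 →L[ℝ] R4) (w : R4) : E2 × ℝ →L[ℝ] R4 :=
  T.comp (ContinuousLinearMap.fst ℝ E2 ℝ) + (ContinuousLinearMap.snd ℝ E2 ℝ).smulRight w

theorem joint_apply (T : E2 →L[ℝ] R4) (w : R4) (z : E2 × ℝ) : joint T w z = T z.1 + z.2 • w := rfl

/-- The two exceptional points. -/
def Special (y : E2) : Prop := y 1 = 0 ∧ y 0 ^ 2 = Real.sqrt 5 - 2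

theorem kink_tangent {y : E2} {v : E2} {t : ℝ} (h : fderiv ℝ kink y v + t • e4 2 = 0) :
    v 1 = 0 ∧ (v 0 = 0 ∧ t = 0 ∨
      1 = 2 * (kX' (y 0) * kA (y 1)) ∧ kX' (y 0) * kX (y 1) = 0 ∧
        t = -(v 0 * (kA' (y 0) * kA (y 1)))) := by
  rw [(hasFDerivAt_kink y).fderiv] at h
  have h0 := congrArg (fun w : R4 => w 0) h
  have h1 := congrArg (fun w : R4 => w 1) h
  have h2 := congrArg (fun w : R4 => w 2) h
  have h3 := congrArg (fun w : R4 => w 3) h
  simp [lin, pert0, pert1, e4] at h0 h1 h2 h3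
  simp only [h1, zero_mul, add_zero] at h0 h2 h3
  refine ⟨h1, ?_⟩
  rcases eq_or_ne (v 0) 0 with hv | hv
  · left; exact ⟨hv, by simpa [hv] using h2⟩
  · right
    refine ⟨?_, ?_, by linarith⟩
    · have : v 0 * (1 - 2 * (kX' (y 0) * kA (y 1))) = 0 := by linarith
      linarith [(mul_eq_zero.1 this).resolve_left hv]
    · exact (mul_eq_zero.1 h3).resolve_left hv

theorem special_of_tangent {y : E2} (h1 : 1 = 2 * (kX' (y 0) * kA (y 1)))
    (h2 : kX' (y 0) * kX (y 1) = 0) : Special y := by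
  have hX : kX' (y 0) ≠ 0 := fun h => by rw [h, zero_mul, mul_zero] at h1; exact one_ne_zero h1
  have hy : y 1 = 0 := by simpa [kX, one_add_sq_ne] using (mul_eq_zero.1 h2).resolve_left hX
  refine ⟨hy, ?_⟩
  have hp : 0 < (1 + y 0 ^ 2) ^ 2 := by positivity
  simp only [hy, kX', kA] at h1
  norm_num at h1
  field_simp at h1
  nlinarith [Real.sq_sqrt (show (0 : ℝ) ≤ 5 by norm_num), Real.sqrt_nonneg (5 : ℝ)]

/-- The kink is an immersion, and its tangent planes miss the third axis off two points. -/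
theorem kink_injective (y : E2) : Injective (fderiv ℝ kink y) ∧
    (¬Special y → Injective (joint (fderiv ℝ kink y) (e4 2))) := by
  refine ⟨(injective_iff_map_eq_zero _).2 fun v hv => ?_, fun hy =>
    (injective_iff_map_eq_zero _).2 fun z hz => ?_⟩
  · obtain ⟨h1, h | ⟨ha, hb, hc⟩⟩ := kink_tangent (t := 0) (by rw [hv]; simp)
    · ext i; fin_cases i
      · exact h.1
      · exact h1
    · obtain ⟨hy1, hy0⟩ := special_of_tangent ha hb
      have hy00 : y 0 ≠ 0 := fun h0 => by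
        rw [h0] at hy0
        nlinarith [Real.sq_sqrt (show (0 : ℝ) ≤ 5 by norm_num)]
      have hA : kA' (y 0) * kA (y 1) ≠ 0 := by
        simp [kA', kA, hy00, one_add_sq_ne]
      ext i; fin_cases i
      · exact (mul_eq_zero.1 (neg_eq_zero.1 hc.symm)).resolve_right hA
      · exact h1
  · obtain ⟨h1, h | ⟨ha, hb, -⟩⟩ := kink_tangent (y := y) (v := z.1) (t := z.2) hz
    · refine Prod.ext ?_ h.2
      ext i; fin_cases i
      · exact h.1
      · exact h1
    · exact absurd (special_of_tangent ha hb) hy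

/-- At an exceptional point: the third axis is tangent, and the second derivatives are transverse
with positive sign. -/
theorem kink_special {y : E2} (hy : Special y) (w : Fin 4 → R4) :
    ∃ α : ℝ, α ≠ 0 ∧ α • fderiv ℝ kink y (ev 0) = e4 2 ∧
      ∃ c : ℝ, 0 < c ∧
        let A : R4 → R4 := fun v => ∑ i, v i • w i
        d4 (A (fderiv ℝ kink y (ev 0))) (A (fderiv ℝ kink y (ev 1)))
          (A (fderiv ℝ pert0 y (ev 0))) (A (fderiv ℝ pert0 y (ev 1))) =
        c * d4 (w 0) (w 1) (w 2) (w 3) := by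
  obtain ⟨hy1, hy0⟩ := hy
  set x := y 0 with hx
  have h5 := Real.sq_sqrt (show (0 : ℝ) ≤ 5 by norm_num)
  have hu : 0 < 1 + x ^ 2 := by positivity
  have hxl : x ^ 2 < 1 := by nlinarith [Real.sqrt_nonneg (5 : ℝ)]
  have hx0 : x ≠ 0 := fun h0 => by rw [h0] at hy0; nlinarith
  have hX2 : 2 * kX' x = 1 := by
    rw [kX', ← mul_div_assoc, div_eq_one_iff_eq (pow_ne_zero 2 hu.ne')]
    nlinarith
  have hA0 : kA' x ≠ 0 := by simp [kA', hx0, one_add_sq_ne]
  have hz : kA (0 : ℝ) = 1 ∧ kA' (0 : ℝ) = 0 ∧ kX (0 : ℝ) = 0 ∧ kX' (0 : ℝ) = 1 := by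
    simp [kA, kA', kX, kX']
  obtain ⟨z1, z2, z3, z4⟩ := hz
  refine ⟨(kA' x)⁻¹, inv_ne_zero hA0, ?_, -(kA' x * (-2 * kX'' x) * kX' x), ?_, ?_⟩
  · rw [(hasFDerivAt_kink y).fderiv]
    ext i
    fin_cases i <;> simp [lin, pert0, pert1, e4, ev, ← hx, hy1, z1, z3, hA0, hX2]
  · have hP : 0 < (3 - x ^ 2) := by linarith
    have e : -(kA' x * (-2 * kX'' x) * kX' x) =
        8 * x ^ 2 * (3 - x ^ 2) * (1 - x ^ 2) / ((1 + x ^ 2) ^ 7) := by
      simp only [kA', kX'', kX']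
      field_simp
      ring
    rw [e]
    have : 0 < x ^ 2 := by positivity
    have : 0 < 1 - x ^ 2 := by linarith
    positivity
  · intro A
    have hA : ∀ v, A v = v 0 • w 0 + v 1 • w 1 + v 2 • w 2 + v 3 • w 3 := fun v => by
      simp [A, Fin.sum_univ_four]
    rw [(hasFDerivAt_kink y).fderiv, (hasFDerivAt_pert0 y).fderiv]
    have e0 : A ((lin + ((EuclideanSpace.proj (0 : Fin 2) : E2 →L[ℝ] ℝ).smulRight (pert0 y) +
        (EuclideanSpace.proj (1 : Fin 2) : E2 →L[ℝ] ℝ).smulRight (pert1 y))) (ev 0)) =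
        (1 - 2 * kX' x) • w 0 + kA' x • w 2 := by
      rw [hA]; simp [lin, pert0, pert1, e4, ev, ← hx, hy1, z1, z3]; ring_nf
    rw [e0, hA, hA, hA]
    simp [lin, pert0, pert1, e4, ev, ← hx, hy1, z1, z2, z3, z4, hX2]
    simp [d4, plk]
    ring

end Vale.Agent.P205F.Top
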