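import Mathlib

/-!
# P205, immersions with a normal field: parity by counting level sets

A compact space which away from finitely many points is made of arcs, with an involution fixing
exactly those points, has an even number of them, as soon as some invariant function has arcs
isolated in their levels. This is the count of the endpoints of the double curve.
-/

namespace Vale.Agent.P205F.Top

open Set Filter Function Topology

/-- A number is above the level. -/
noncomputable def above (c x : ℝ) : ZMod 2 := if c < x then 1 else 0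

theorem above_eq_of_no_root {f : ℝ → ℝ} {a b c : ℝ} (hab : a ≤ b) (hf : ContinuousOn f (Icc a b))
    (h : ∀ t ∈ Icc a b, f t ≠ c) : above c (f a) = above c (f b) := by
  have ha := h a ⟨le_rfl, hab⟩
  have hb := h b ⟨hab, le_rfl⟩
  unfold above
  split_ifs with h1 h2 h2
  · rfl
  · obtain ⟨t, ht, htc⟩ := intermediate_value_Icc' hab hf ⟨not_lt.1 h2, h1.le⟩
    exact absurd htc (h t ht)
  · obtain ⟨t, ht, htc⟩ := intermediate_value_Icc hab hf ⟨not_lt.1 h1, h2.le⟩
    exact absurd htc (h t ht)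
  · rfl

/-- The number of roots on an interval, all crossings, is given by the endpoints mod two. -/
theorem roots_parity {f : ℝ → ℝ} {b c : ℝ} (hb : f b ≠ c) : ∀ {a : ℝ}, a ≤ b →
    ContinuousOn f (Icc a b) → f a ≠ c →
    (∀ t ∈ Icc a b, f t = c → ∃ η > 0, InjOn f (Icc (t - η) (t + η) ∩ Icc a b)) →
    {t ∈ Icc a b | f t = c}.Finite ∧
      (({t ∈ Icc a b | f t = c}.ncard : ℕ) : ZMod 2) = above c (f a) + above c (f b) := by
  intro a hab hf ha hinj
  have hfin : {t ∈ Icc a b | f t = c}.Finite := by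
    refine IsCompact.finite (IsCompact.of_isClosed_subset isCompact_Icc ?_ fun t ht => ht.1) ?_
    · exact hf.preimage_isClosed_of_isClosed isClosed_Icc isClosed_singleton
    · rw [isDiscrete_iff_forall_exists_isOpen]
      rintro t ⟨ht, htc⟩
      obtain ⟨η, hη, hi⟩ := hinj t ht htc
      refine ⟨Ioo (t - η) (t + η), isOpen_Ioo, ?_⟩
      ext s
      constructor
      · rintro ⟨hs, hs', hsc⟩
        exact hi ⟨Ioo_subset_Icc_self hs, hs'⟩ ⟨⟨by linarith, by linarith⟩, ht⟩ (hsc.trans htc.symm)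
      · rintro rfl
        exact ⟨⟨by linarith, by linarith⟩, ht, htc⟩
  refine ⟨hfin, ?_⟩
  induction hn : {t ∈ Icc a b | f t = c}.ncard generalizing a with
  | zero =>
    have h0 := (Set.ncard_eq_zero hfin).1 hn
    rw [above_eq_of_no_root hab hf fun t ht htc => by
      have : t ∈ ({t ∈ Icc a b | f t = c} : Set ℝ) := ⟨ht, htc⟩
      rw [h0] at this
      exact this]
    rw [CharTwo.add_self_eq_zero]; rfl
  | succ n ih =>
    have hne : {t ∈ Icc a b | f t = c}.Nonempty := by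
      rw [← Set.ncard_pos hfin, hn]; exact Nat.succ_pos n
    obtain ⟨t, ⟨ht, htc⟩, hmin⟩ := hfin.exists_minimal hne
    have hat : a < t := lt_of_le_of_ne ht.1 fun h => ha (h ▸ htc)
    have htb : t < b := lt_of_le_of_ne ht.2 fun h => hb (h ▸ htc)
    obtain ⟨η, hη, hi⟩ := hinj t ht htc
    let a' := min b (t + η)
    have hta' : t < a' := lt_min htb (by linarith)
    let l := max a (t - η)
    have hlt : l < t := max_lt hat (by linarith)
    have hsub : Icc l a' ⊆ Icc (t - η) (t + η) ∩ Icc a b := fun s hs =>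
      ⟨⟨(le_max_right _ _).trans hs.1, hs.2.trans (min_le_right _ _)⟩,
        ⟨(le_max_left _ _).trans hs.1, hs.2.trans (min_le_left _ _)⟩⟩
    have hone : ∀ s ∈ Icc l a', f s = c → s = t := fun s hs hsc =>
      hi (hsub hs) (hsub ⟨hlt.le, hta'.le⟩) (hsc.trans htc.symm)
    have ha' : f a' ≠ c := fun h => hta'.ne' (hone a' ⟨hlt.le.trans hta'.le, le_rfl⟩ h)
    have hside : above c (f a) + above c (f a') = 1 := by
      have hal : above c (f a) = above c (f l) := by
        refine above_eq_of_no_root (le_max_left _ _) (hf.mono ?_) fun s hs hsc => ?_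
        · exact Icc_subset_Icc le_rfl (hlt.le.trans ht.2)
        · have hst : s < t := hs.2.trans_lt hlt
          exact absurd (hmin (y := s) ⟨⟨hs.1, hst.le.trans ht.2⟩, hsc⟩ hst.le) (not_le.2 hst)
      rw [hal]
      unfold above
      rcases ContinuousOn.strictMonoOn_of_injOn_Icc' (hlt.le.trans hta'.le)
        (hf.mono fun s hs => (hsub hs).2) (hi.mono hsub) with hm | hm
      · have h1 := hm ⟨le_rfl, hlt.le.trans hta'.le⟩ ⟨hlt.le, hta'.le⟩ hlt
        have h2 := hm ⟨hlt.le, hta'.le⟩ ⟨hlt.le.trans hta'.le, le_rfl⟩ hta'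
        rw [htc] at h1 h2
        rw [if_neg h1.not_gt, if_pos h2, zero_add]
      · have h1 := hm ⟨le_rfl, hlt.le.trans hta'.le⟩ ⟨hlt.le, hta'.le⟩ hlt
        have h2 := hm ⟨hlt.le, hta'.le⟩ ⟨hlt.le.trans hta'.le, le_rfl⟩ hta'
        rw [htc] at h1 h2
        rw [if_pos h1, if_neg h2.not_gt, add_zero]
    have hdec : {s ∈ Icc a' b | f s = c} = {s ∈ Icc a b | f s = c} \ {t} := by
      ext s
      constructor
      · rintro ⟨hs, hsc⟩
        exact ⟨⟨⟨(hat.le.trans hta'.le).trans hs.1, hs.2⟩, hsc⟩,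
          fun h => (hta'.trans_le hs.1).ne' h⟩
      · rintro ⟨⟨hs, hsc⟩, hst⟩
        refine ⟨⟨?_, hs.2⟩, hsc⟩
        by_contra hlt'
        rcases lt_or_ge s t with h | h
        · exact absurd (hmin (y := s) ⟨hs, hsc⟩ h.le) (not_le.2 h)
        · exact hst (hone s ⟨hlt.le.trans h, (not_le.1 hlt').le⟩ hsc)
    have hcard : {s ∈ Icc a' b | f s = c}.ncard = n := by
      rw [hdec, Set.ncard_sdiff_singleton_of_mem (show t ∈ {s ∈ Icc a b | f s = c} from ⟨ht, htc⟩), hn]
      rfl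
    have hsub' : Icc a' b ⊆ Icc a b := Icc_subset_Icc (hat.le.trans hta'.le) le_rfl
    have := ih (min_le_left _ _) (hf.mono hsub') ha'
      (fun s hs hsc => by
        obtain ⟨η', h1, h2⟩ := hinj s (hsub' hs) hsc
        exact ⟨η', h1, h2.mono (inter_subset_inter_right _ hsub')⟩)
      (hfin.subset fun s hs => ⟨hsub' hs.1, hs.2⟩) hcard
    rw [Nat.cast_succ, this, ← hside]
    linear_combination (above c (f a')) * (CharTwo.two_eq_zero : (2 : ZMod 2) = 0)

/-- An open arc inside an open arc. -/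
theorem isOpen_image_sub {K : Type*} [TopologicalSpace K] [T2Space K] {γ : ℝ → K}
    (hc : ContinuousOn γ (Icc (-1) 1)) (hi : InjOn γ (Icc (-1) 1))
    (ho : IsOpen (γ '' Ioo (-1) 1)) {ε : ℝ} (hε : 0 < ε) (hε1 : ε ≤ 1) :
    IsOpen (γ '' Ioo (-ε) ε) := by
  have e : γ '' Ioo (-ε) ε = γ '' Ioo (-1) 1 \ γ '' (Icc (-1) (-ε) ∪ Icc ε 1) := by
    ext z
    constructor
    · rintro ⟨t, ht, rfl⟩
      refine ⟨⟨t, ⟨by linarith [ht.1], by linarith [ht.2]⟩, rfl⟩, ?_⟩
      rintro ⟨s, hs, hst⟩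
      rcases hs with hs | hs
      · have := hi ⟨hs.1, by linarith [hs.2]⟩ ⟨by linarith [ht.1], by linarith [ht.2]⟩ hst
        linarith [hs.2, ht.1]
      · have := hi ⟨by linarith [hs.1], hs.2⟩ ⟨by linarith [ht.1], by linarith [ht.2]⟩ hst
        linarith [hs.1, ht.2]
    · rintro ⟨⟨t, ht, rfl⟩, hn⟩
      refine ⟨t, ⟨?_, ?_⟩, rfl⟩
      · by_contra! h
        exact hn ⟨t, Or.inl ⟨ht.1.le, h⟩, rfl⟩
      · by_contra! h
        exact hn ⟨t, Or.inr ⟨h, ht.2.le⟩, rfl⟩
  rw [e]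
  refine ho.sdiff (((isCompact_Icc.union isCompact_Icc).image_of_continuousOn
    (hc.mono ?_)).isClosed)
  rintro s (hs | hs)
  · exact ⟨hs.1, by linarith [hs.2]⟩
  · exact ⟨by linarith [hs.1], hs.2⟩

/-- Data of a double curve. -/
structure DoubleCurve (K : Type*) [TopologicalSpace K] where
  lam : K → ℝ
  σ : K → K
  U : Finset K
  lam_cont : Continuous lam
  σ_cont : Continuous σ
  σσ : Involutive σ
  lam_σ : ∀ z, lam (σ z) = lam z
  fix_iff : ∀ z, σ z = z ↔ z ∈ U
  B : Set ℝ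
  B_count : B.Countable
  reg : ∀ z, lam z ∉ B → ∃ O ∈ 𝓝 z, InjOn lam O
  arc : ∀ z, z ∉ U → ∃ γ : ℝ → K, ContinuousOn γ (Icc (-1) 1) ∧ InjOn γ (Icc (-1) 1) ∧
    IsOpen (γ '' Ioo (-1) 1) ∧ γ 0 = z ∧ ∀ t ∈ Icc (-1 : ℝ) 1, t ≠ 0 → lam (γ t) ≠ lam z
  endArc : ∀ p ∈ U, ∃ γ : ℝ → K, ContinuousOn γ (Icc (-1) 1) ∧ InjOn γ (Icc (-1) 1) ∧
    IsOpen (γ '' Ioo (-1) 1) ∧ γ 0 = p ∧ (∀ t ∈ Icc (-1 : ℝ) 1, σ (γ t) = γ (-t)) ∧
    ∀ η : ℝ, 0 < η → ∃ t ∈ Ioo 0 η, lam (γ t) ≠ lam p

variable {K : Type*} [TopologicalSpace K] [T2Space K] [CompactSpace K] (D : DoubleCurve K)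

/-- Half the number of points of a level, mod two. -/
noncomputable def DoubleCurve.N (c : ℝ) : ZMod 2 := (({z | D.lam z = c}.ncard / 2 : ℕ) : ZMod 2)

/-- The endpoints on a level. -/
noncomputable def DoubleCurve.at (c : ℝ) : Finset K := D.U.filter fun p => D.lam p = c

/-- A usable level. -/
def DoubleCurve.Good (c : ℝ) : Prop := c ∉ D.B ∧ ∀ p ∈ D.U, D.lam p ≠ c

theorem DoubleCurve.crossing (D : DoubleCurve K) (c0 : ℝ) : ∃ δ > 0, ∃ E : ZMod 2,
    (∀ c ∈ Ioo c0 (c0 + δ), D.Good c → D.N c = E) ∧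
    (∀ c ∈ Ioo (c0 - δ) c0, D.Good c → D.N c = E + ((D.at c0).card : ℕ)) ∧
    ∀ p ∈ D.U, D.lam p ∈ Ioo (c0 - δ) (c0 + δ) → D.lam p = c0 := by
  classical
  have hatU : ∀ p : D.at c0, (p : K) ∈ D.U ∧ D.lam p = c0 := fun p => Finset.mem_filter.1 p.2
  choose γU hUc hUi hUo hU0 hUσ hUend using fun p : D.at c0 => D.endArc p (hatU p).1
  -- separate the endpoints
  obtain ⟨V, hV, hVd⟩ := (D.at c0).finite_toSet.t2_separation
  have hsmall : ∀ p : D.at c0, ∃ ε : ℝ, 0 < ε ∧ ε ≤ 1 ∧ D.lam (γU p ε) ≠ c0 ∧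
      ∀ t ∈ Icc (-ε) ε, γU p t ∈ V p := by
    intro p
    have h1 : ∀ᶠ t in 𝓝 (0 : ℝ), γU p t ∈ V p := by
      have : ContinuousAt (γU p) 0 := (hUc p).continuousAt (Icc_mem_nhds (by norm_num) one_pos)
      exact this.eventually ((hV p).2.mem_nhds (by rw [hU0]; exact (hV p).1))
    obtain ⟨η, hη, hηV⟩ := Metric.eventually_nhds_iff.1 h1
    obtain ⟨t, ht, htne⟩ := hUend p (min η 1) (lt_min hη one_pos)
    refine ⟨t, ht.1, ht.2.le.trans (min_le_right _ _), fun h => htne (h.trans (hatU p).2.symm),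
      fun s hs => hηV ?_⟩
    rw [Real.dist_eq, sub_zero, abs_lt]
    have := ht.2.trans_le (min_le_left η 1)
    constructor <;> linarith [hs.1, hs.2]
  choose εU hεU0 hεU1 hεUne hεUV using hsmall
  have hUo' : ∀ p, IsOpen (γU p '' Ioo (-εU p) (εU p)) := fun p =>
    isOpen_image_sub (hUc p) (hUi p) (hUo p) (hεU0 p) (hεU1 p)
  let T : Set K := {z | D.lam z = c0} \ ⋃ p : D.at c0, γU p '' Ioo (-εU p) (εU p)
  have hTU : ∀ z ∈ T, z ∉ D.U := fun z hz hzU =>
    hz.2 (mem_iUnion.2 ⟨⟨z, Finset.mem_filter.2 ⟨hzU, hz.1⟩⟩, 0,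
      ⟨neg_lt_zero.2 (hεU0 _), hεU0 _⟩, hU0 _⟩)
  have hTfin : T.Finite := by
    refine IsCompact.finite (((isClosed_singleton.preimage D.lam_cont).sdiff
      (isOpen_iUnion hUo')).isCompact) ?_
    rw [isDiscrete_iff_forall_exists_isOpen]
    intro z hz
    obtain ⟨γ, -, -, ho, h0, hne⟩ := D.arc z (hTU z hz)
    refine ⟨γ '' Ioo (-1) 1, ho, ?_⟩
    ext w
    constructor
    · rintro ⟨⟨t, ht, rfl⟩, hw⟩
      by_contra hne'
      exact hne t (Ioo_subset_Icc_self ht) (fun h => hne' (by rw [h, h0]; rfl))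
        (hw.1.trans hz.1.symm)
    · rintro rfl
      exact ⟨⟨0, ⟨by norm_num, one_pos⟩, h0⟩, hz⟩
  have hσU : ∀ p t, t ∈ Icc (-εU p) (εU p) → D.σ (γU p t) = γU p (-t) := fun p t ht =>
    hUσ p t ⟨by linarith [ht.1, hεU1 p], by linarith [ht.2, hεU1 p]⟩
  have hTσ : ∀ z ∈ T, D.σ z ∈ T := by
    refine fun z hz => ⟨(D.lam_σ z).trans hz.1, fun h => hz.2 ?_⟩
    obtain ⟨p, t, ht, htz⟩ := mem_iUnion.1 h
    refine mem_iUnion.2 ⟨p, -t, ⟨by linarith [ht.2], by linarith [ht.1]⟩, ?_⟩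
    rw [← hσU p t (Ioo_subset_Icc_self ht), htz, D.σσ z]
  -- choose one point of each pair
  let num : hTfin.toFinset ≃ Fin hTfin.toFinset.card := hTfin.toFinset.equivFin
  let H : Finset K := hTfin.toFinset.filter fun z => ∃ (h1 : z ∈ hTfin.toFinset)
    (h2 : D.σ z ∈ hTfin.toFinset), num ⟨z, h1⟩ < num ⟨D.σ z, h2⟩
  have hH : ∀ z ∈ T, (z ∈ H ∧ D.σ z ∉ H) ∨ (z ∉ H ∧ D.σ z ∈ H) := by
    intro z hz
    have h1 := hTfin.mem_toFinset.2 hz
    have h2 := hTfin.mem_toFinset.2 (hTσ z hz)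
    rcases lt_trichotomy (num ⟨z, h1⟩) (num ⟨D.σ z, h2⟩) with h | h | h
    · exact Or.inl ⟨Finset.mem_filter.2 ⟨h1, h1, h2, h⟩, fun hh => by
        obtain ⟨-, _, h4, h5⟩ := Finset.mem_filter.1 hh
        simp only [D.σσ z] at h5
        exact lt_asymm h h5⟩
    · have := congrArg Subtype.val (num.injective h)
      exact absurd ((D.fix_iff z).1 this.symm) (hTU z hz)
    · refine Or.inr ⟨fun hh => lt_asymm h (Finset.mem_filter.1 hh).2.2.2, ?_⟩
      exact Finset.mem_filter.2 ⟨h2, h2, by rwa [D.σσ z], by simpa [D.σσ z] using h⟩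
  have hHT : ∀ z ∈ H, z ∈ T := fun z hz => hTfin.mem_toFinset.1 (Finset.mem_filter.1 hz).1
  obtain ⟨W, hW, hWd⟩ := hTfin.t2_separation
  have hWU : ∀ z ∈ T, z ∉ ⋃ p : D.at c0, γU p '' Icc (-εU p) (εU p) := by
    rintro z hz h
    obtain ⟨p, t, ht, htz⟩ := mem_iUnion.1 h
    rcases eq_or_lt_of_le ht.1 with h1 | h1
    · refine hεUne p ?_
      rw [← D.lam_σ, hσU p _ ⟨by linarith [hεU0 p], le_rfl⟩, h1, htz]
      exact hz.1
    rcases eq_or_lt_of_le ht.2 with h2 | h2
    · exact hεUne p (by rw [← h2, htz]; exact hz.1)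
    · exact hz.2 (mem_iUnion.2 ⟨p, t, ⟨h1, h2⟩, htz⟩)
  have hUclosed : IsClosed (⋃ p : D.at c0, γU p '' Icc (-εU p) (εU p)) :=
    isClosed_iUnion_of_finite fun p => (isCompact_Icc.image_of_continuousOn ((hUc p).mono
      fun t ht => ⟨by linarith [ht.1, hεU1 p], by linarith [ht.2, hεU1 p]⟩)).isClosed
  choose γT hTc hTi hTo hT0 hTne using fun z : H => D.arc z (hTU z (hHT z z.2))
  have hsmallT : ∀ z : H, ∃ ε : ℝ, 0 < ε ∧ ε ≤ 1 ∧ ∀ t ∈ Icc (-ε) ε,
      γT z t ∈ W z ∧ D.σ (γT z t) ∈ W (D.σ z) ∧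
      γT z t ∉ (⋃ p : D.at c0, γU p '' Icc (-εU p) (εU p)) ∧
      D.σ (γT z t) ∉ (⋃ p : D.at c0, γU p '' Icc (-εU p) (εU p)) := by
    intro z
    have hc : ContinuousAt (γT z) 0 := (hTc z).continuousAt (Icc_mem_nhds (by norm_num) one_pos)
    have hcσ : ContinuousAt (fun t => D.σ (γT z t)) 0 := D.σ_cont.continuousAt.comp hc
    have h1 := hc.eventually ((hW z).2.mem_nhds (by rw [hT0]; exact (hW z).1))
    have h2 := hcσ.eventually ((hW (D.σ z)).2.mem_nhds (by simp only [hT0]; exact (hW _).1))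
    have h3 := hc.eventually (hUclosed.isOpen_compl.mem_nhds (by rw [hT0]; exact hWU z (hHT z z.2)))
    have h4 := hcσ.eventually (hUclosed.isOpen_compl.mem_nhds
      (by simp only [hT0]; exact hWU _ (hTσ _ (hHT z z.2))))
    obtain ⟨η, hη, hall⟩ := Metric.eventually_nhds_iff.1 (((h1.and h2).and h3).and h4)
    refine ⟨min (η / 2) 1, lt_min (by linarith) one_pos, min_le_right _ _, fun t ht => ?_⟩
    obtain ⟨⟨⟨a1, a2⟩, a3⟩, a4⟩ := hall (show dist t 0 < η by
      rw [Real.dist_eq, sub_zero, abs_lt]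
      have := min_le_left (η / 2) 1
      constructor <;> linarith [ht.1, ht.2])
    exact ⟨a1, a2, a3, a4⟩
  choose εT hεT0 hεT1 hεTV using hsmallT
  -- all the arcs
  let I := H ⊕ D.at c0
  let γ : I → ℝ → K := Sum.elim γT γU
  let lo : I → ℝ := Sum.elim (fun z => -εT z) (fun _ => 0)
  let hi : I → ℝ := Sum.elim εT εU
  have hlh : ∀ i, lo i ≤ hi i := by
    rintro (z | p)
    · exact neg_le_self (hεT0 z).le
    · exact (hεU0 p).le
  have hsubI : ∀ i, Icc (lo i) (hi i) ⊆ Icc (-1 : ℝ) 1 := by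
    rintro (z | p) t ht <;> simp only [lo, hi, Sum.elim_inl, Sum.elim_inr, mem_Icc] at ht
    · exact ⟨by linarith [hεT1 z], by linarith [hεT1 z]⟩
    · exact ⟨by linarith, by linarith [hεU1 p]⟩
  have hγc : ∀ i, ContinuousOn (γ i) (Icc (lo i) (hi i)) := by
    rintro (z | p)
    · exact (hTc z).mono (hsubI (.inl z))
    · exact (hUc p).mono (hsubI (.inr p))
  have hγi : ∀ i, InjOn (γ i) (Icc (lo i) (hi i)) := by
    rintro (z | p)
    · exact (hTi z).mono (hsubI (.inl z))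
    · exact (hUi p).mono (hsubI (.inr p))
  let op : Set K := (⋃ z : H, γT z '' Ioo (-εT z) (εT z) ∪ D.σ ⁻¹' (γT z '' Ioo (-εT z) (εT z)))
    ∪ ⋃ p : D.at c0, γU p '' Ioo (-εU p) (εU p)
  have hop : IsOpen op := by
    refine IsOpen.union (isOpen_iUnion fun z => ?_) (isOpen_iUnion hUo')
    have h := isOpen_image_sub (hTc z) (hTi z) (hTo z) (hεT0 z) (hεT1 z)
    exact h.union (h.preimage D.σ_cont)
  have hlevel : ∀ z, D.lam z = c0 → z ∈ op := by
    intro z hz
    by_cases h : z ∈ ⋃ p : D.at c0, γU p '' Ioo (-εU p) (εU p)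
    · exact Or.inr h
    rcases hH z ⟨hz, h⟩ with ⟨hzH, -⟩ | ⟨-, hzH⟩
    · exact Or.inl (mem_iUnion.2 ⟨⟨z, hzH⟩, Or.inl
        ⟨0, ⟨neg_lt_zero.2 (hεT0 _), hεT0 _⟩, hT0 _⟩⟩)
    · exact Or.inl (mem_iUnion.2 ⟨⟨D.σ z, hzH⟩, Or.inr
        ⟨0, ⟨neg_lt_zero.2 (hεT0 _), hεT0 _⟩, hT0 _⟩⟩)
  -- the values to avoid
  let bad : Set ℝ := D.lam '' opᶜ ∪ ((fun p => D.lam p) '' {p | p ∈ D.U ∧ D.lam p ≠ c0}
    ∪ range fun i : I => D.lam (γ i (hi i))) ∪ range fun z : H => D.lam (γT z (-εT z))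
  have hendne : ∀ i, D.lam (γ i (hi i)) ≠ c0 := by
    rintro (z | p)
    · have := hTne z (εT z) ⟨by linarith [hεT0 z], hεT1 z⟩ (hεT0 z).ne'
      exact fun h => this (h.trans (hHT z z.2).1.symm)
    · exact hεUne p
  have hbad : IsClosed bad := by
    refine ((hop.isClosed_compl.isCompact.image D.lam_cont).isClosed.union ?_).union
      (finite_range _).isClosed
    exact ((D.U.finite_toSet.subset fun p hp => hp.1).image _).isClosed.union
      (finite_range _).isClosed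
  have hc0 : c0 ∉ bad := by
    rintro ((⟨z, hz, hzc⟩ | ⟨p, hp, hpc⟩ | ⟨i, hi'⟩) | ⟨z, hz⟩)
    · exact hz (hlevel z hzc)
    · exact hp.2 hpc
    · exact hendne i hi'
    · have := hTne z (-εT z) ⟨by linarith [hεT1 z], by linarith [hεT0 z]⟩
        (neg_ne_zero.2 (hεT0 z).ne')
      exact this (hz.trans (hHT z z.2).1.symm)
  obtain ⟨δ, hδ, hball⟩ := Metric.mem_nhds_iff.1 (hbad.isOpen_compl.mem_nhds hc0)
  have havoid : ∀ x ∈ bad, x ∉ Ioo (c0 - δ) (c0 + δ) := fun x hx hxI => hball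
    (show x ∈ Metric.ball c0 δ by
      rw [Metric.mem_ball, Real.dist_eq, abs_lt]
      constructor <;> linarith [hxI.1, hxI.2]) hx
  have hside : ∀ x ∈ bad, ∀ c ∈ Ioo (c0 - δ) (c0 + δ), above c x = above c0 x := by
    intro x hx c hc
    have h := havoid x hx
    simp only [mem_Ioo, not_and, not_lt] at h
    unfold above
    rcases lt_or_ge (c0 - δ) x with h1 | h1
    · rw [if_pos (by linarith [h h1, hc.2]), if_pos (by linarith [h h1])]
    · rw [if_neg (by linarith [hc.1]), if_neg (by linarith)]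
  let E : ZMod 2 := ∑ z : H, (above c0 (D.lam (γT z (-εT z))) + above c0 (D.lam (γT z (εT z))))
    + ∑ p : D.at c0, above c0 (D.lam (γU p (εU p)))
  have key : ∀ c ∈ Ioo (c0 - δ) (c0 + δ), c ≠ c0 → D.Good c →
      D.N c = E + ((D.at c0).card : ℕ) * above c c0 := by
    intro c hc hcne hgood
    let R : I → Set ℝ := fun i => {t ∈ Icc (lo i) (hi i) | D.lam (γ i t) = c}
    have hend : ∀ i, D.lam (γ i (lo i)) ≠ c ∧ D.lam (γ i (hi i)) ≠ c := by
      intro i
      refine ⟨?_, fun h => havoid _ (Or.inl (Or.inr (Or.inr ⟨i, h⟩))) hc⟩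
      rcases i with z | p
      · exact fun h => havoid _ (Or.inr ⟨z, h⟩) hc
      · simp only [γ, lo, Sum.elim_inr, hU0, (hatU p).2]
        exact hcne.symm
    have hroots : ∀ i, (R i).Finite ∧ ((R i).ncard : ZMod 2) =
        above c (D.lam (γ i (lo i))) + above c (D.lam (γ i (hi i))) := by
      intro i
      refine roots_parity (f := fun t => D.lam (γ i t)) (hend i).2 (hlh i)
        (D.lam_cont.comp_continuousOn (hγc i)) (hend i).1 fun t ht htc => ?_
      obtain ⟨O, hO, hOi⟩ := D.reg (γ i t) (by rw [htc]; exact hgood.1)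
      obtain ⟨V', hV', hVsub⟩ :=
        mem_nhdsWithin_iff_exists_mem_nhds_inter.1 (hγc i t ht hO)
      obtain ⟨η, hη, hball'⟩ := Metric.mem_nhds_iff.1 hV'
      refine ⟨η / 2, by linarith, fun s hs u hu hsu => hγi i hs.2 hu.2 (hOi ?_ ?_ hsu)⟩
      · refine hVsub ⟨hball' ?_, hs.2⟩
        rw [Metric.mem_ball, Real.dist_eq, abs_lt]
        constructor <;> linarith [hs.1.1, hs.1.2]
      · refine hVsub ⟨hball' ?_, hu.2⟩
        rw [Metric.mem_ball, Real.dist_eq, abs_lt]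
        constructor <;> linarith [hu.1.1, hu.1.2]
    let A : I → Set K := fun i => γ i '' R i
    have hdisj : Pairwise (Disjoint on A) := by
      rintro (z | p) (w | q) hne
      all_goals
        refine Set.disjoint_left.2 ?_
        rintro x ⟨s, ⟨hs, -⟩, rfl⟩ ⟨t, ⟨ht, -⟩, hst⟩
        simp only [γ, lo, hi, Sum.elim_inl, Sum.elim_inr] at hs ht hst
      · exact Set.disjoint_left.1 (hWd (hHT z z.2) (hHT w w.2)
          fun h => hne (congrArg Sum.inl (Subtype.ext h))) (hεTV z s hs).1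
          (by rw [← hst]; exact (hεTV w t ht).1)
      · exact (hεTV z s hs).2.2.1 (mem_iUnion.2 ⟨q, t, ⟨by linarith [ht.1, hεU0 q], ht.2⟩, hst⟩)
      · exact (hεTV w t ht).2.2.1
          (mem_iUnion.2 ⟨p, s, ⟨by linarith [hs.1, hεU0 p], hs.2⟩, hst.symm⟩)
      · exact Set.disjoint_left.1 (hVd p.2 q.2
          fun h => hne (congrArg Sum.inr (Subtype.ext h)))
          (hεUV p s ⟨by linarith [hs.1, hεU0 p], hs.2⟩)
          (by rw [← hst]; exact hεUV q t ⟨by linarith [ht.1, hεU0 q], ht.2⟩)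
    have hlev : {z | D.lam z = c} = (⋃ i, A i) ∪ D.σ '' ⋃ i, A i := by
      ext x
      constructor
      · intro hx
        have hxop : x ∈ op := by
          by_contra hxo
          exact havoid _ (Or.inl (Or.inl ⟨x, hxo, hx⟩)) hc
        rcases hxop with h | h
        · obtain ⟨z, h | h⟩ := mem_iUnion.1 h <;> obtain ⟨t, ht, htx⟩ := h
          · exact Or.inl (mem_iUnion.2 ⟨.inl z, t,
              ⟨Ioo_subset_Icc_self ht, (congrArg D.lam htx).trans hx⟩, htx⟩)
          · exact Or.inr ⟨D.σ x, mem_iUnion.2 ⟨.inl z, t, ⟨Ioo_subset_Icc_self ht,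
              (congrArg D.lam htx).trans ((D.lam_σ x).trans hx)⟩, htx⟩, D.σσ x⟩
        · obtain ⟨p, t, ht, htx⟩ := mem_iUnion.1 h
          rcases le_or_gt 0 t with h0 | h0
          · exact Or.inl (mem_iUnion.2 ⟨.inr p, t, ⟨⟨h0, ht.2.le⟩,
              (congrArg D.lam htx).trans hx⟩, htx⟩)
          · have hσt := hσU p t (Ioo_subset_Icc_self ht)
            rw [htx] at hσt
            refine Or.inr ⟨D.σ x, mem_iUnion.2 ⟨.inr p, -t, ⟨⟨neg_nonneg.2 h0.le,
              show -t ≤ εU p by linarith [ht.1]⟩, ?_⟩, hσt.symm⟩, D.σσ x⟩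
            exact (congrArg D.lam hσt.symm).trans ((D.lam_σ x).trans hx)
      · rintro (h | ⟨y, h, rfl⟩) <;> obtain ⟨i, t, ht, rfl⟩ := mem_iUnion.1 h
        · exact ht.2
        · exact (D.lam_σ _).trans ht.2
    have hσdisj : Disjoint (⋃ i, A i) (D.σ '' ⋃ i, A i) := by
      refine Set.disjoint_left.2 ?_
      intro x hx hx'
      obtain ⟨y, hy, hyx⟩ := hx'
      obtain ⟨i, s, ⟨hs, hsc⟩, hsy⟩ := mem_iUnion.1 hy
      obtain ⟨j, t, ⟨ht, htc⟩, htx⟩ := mem_iUnion.1 hx
      subst hsy htx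
      rcases i with z | p <;> rcases j with w | q <;>
        simp only [γ, lo, hi, Sum.elim_inl, Sum.elim_inr] at hs ht hsc htc hyx
      · refine Set.disjoint_left.1 (hWd (hTσ z (hHT z z.2)) (hHT w w.2) ?_) (hεTV z s hs).2.1
          (by rw [hyx]; exact (hεTV w t ht).1)
        intro h
        rcases hH z (hHT z z.2) with ⟨-, h'⟩ | ⟨h', -⟩
        · exact h' (h ▸ w.2)
        · exact h' z.2
      · exact (hεTV z s hs).2.2.2
          (mem_iUnion.2 ⟨q, t, ⟨by linarith [ht.1, hεU0 q], ht.2⟩, hyx.symm⟩)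
      · refine (hεTV w t ht).2.2.1 (mem_iUnion.2
          ⟨p, -s, ⟨by linarith [hs.2], by linarith [hs.1, hεU0 p]⟩, ?_⟩)
        rw [← hσU p s ⟨by linarith [hs.1, hεU0 p], hs.2⟩]; exact hyx
      · rw [hσU p s ⟨by linarith [hs.1, hεU0 p], hs.2⟩] at hyx
        have hs0 : s ≠ 0 := fun h => hcne (by rw [← hsc, h, hU0, (hatU p).2])
        by_cases hpq : p = q
        · subst hpq
          have := hUi p ⟨by linarith [hs.2, hεU1 p], by linarith [hs.1]⟩
            ⟨by linarith [ht.1], by linarith [ht.2, hεU1 p]⟩ hyx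
          exact hs0 (by linarith [hs.1, ht.1])
        · exact Set.disjoint_left.1 (hVd p.2 q.2 fun h => hpq (Subtype.ext h))
            (hεUV p (-s) ⟨by linarith [hs.2], by linarith [hs.1, hεU0 p]⟩)
            (by rw [hyx]; exact hεUV q t ⟨by linarith [ht.1, hεU0 q], ht.2⟩)
    have hAfin : ∀ i, (A i).Finite := fun i => (hroots i).1.image _
    have hcard : {z | D.lam z = c}.ncard / 2 = ∑ i, (R i).ncard := by
      rw [hlev, Set.ncard_union_eq hσdisj (finite_iUnion hAfin) ((finite_iUnion hAfin).image _),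
        Set.ncard_image_of_injective _ D.σσ.injective,
        Set.ncard_iUnion_of_finite hAfin hdisj, finsum_eq_sum_of_fintype]
      rw [show ∀ n : ℕ, (n + n) / 2 = n from fun n => by omega]
      exact Finset.sum_congr rfl fun i _ => Set.ncard_image_of_injOn ((hγi i).mono fun t ht => ht.1)
    rw [DoubleCurve.N, hcard, Nat.cast_sum, Finset.sum_congr rfl fun i _ => (hroots i).2,
      Fintype.sum_sum_type]
    simp only [γ, lo, hi, Sum.elim_inl, Sum.elim_inr, hU0]
    have s1 : ∀ z : H, above c (D.lam (γT z (-εT z))) = above c0 (D.lam (γT z (-εT z))) :=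
      fun z => hside _ (Or.inr ⟨z, rfl⟩) c hc
    have s2 : ∀ z : H, above c (D.lam (γT z (εT z))) = above c0 (D.lam (γT z (εT z))) :=
      fun z => hside _ (Or.inl (Or.inr (Or.inr ⟨.inl z, rfl⟩))) c hc
    have s3 : ∀ p : D.at c0, above c (D.lam (γU p (εU p))) = above c0 (D.lam (γU p (εU p))) :=
      fun p => hside _ (Or.inl (Or.inr (Or.inr ⟨.inr p, rfl⟩))) c hc
    have s4 : ∀ p : D.at c0, above c (D.lam p) = above c c0 := fun p => by rw [(hatU p).2]
    simp only [s1, s2, s3, s4]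
    simp only [E, γ, hi, Sum.elim_inl, Sum.elim_inr, Finset.sum_add_distrib, Finset.sum_const,
      Finset.card_univ, Fintype.card_coe, nsmul_eq_mul]
    ring
  refine ⟨δ, hδ, E, fun c hc hg => ?_, fun c hc hg => ?_, fun p hp hI => ?_⟩
  · rw [key c ⟨by linarith [hc.1], hc.2⟩ hc.1.ne' hg, above, if_neg hc.1.not_gt, mul_zero, add_zero]
  · rw [key c ⟨hc.1, by linarith [hc.2]⟩ hc.2.ne hg, above, if_pos hc.2, mul_one]
  · by_contra h
    exact havoid _ (Or.inl (Or.inr (Or.inl ⟨p, ⟨hp, h⟩, rfl⟩))) hI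

/-- **Endpoints of a double curve are even in number.** -/
theorem DoubleCurve.even_card (D : DoubleCurve K) : Even D.U.card := by
  classical
  choose δ hδ E hR hL hUI using D.crossing
  have hgood : ∀ a b : ℝ, a < b → ∃ c ∈ Ioo a b, D.Good c := by
    intro a b hab
    obtain ⟨c, hc, hc'⟩ := ((D.B_count.union (D.U.finite_toSet.image D.lam).countable).dense_compl
      ℝ).exists_mem_open isOpen_Ioo (nonempty_Ioo.2 hab)
    exact ⟨c, hc', fun h => hc (Or.inl h), fun p hp h => hc (Or.inr ⟨p, hp, h⟩)⟩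
  let G : ℝ → ZMod 2 := fun c => E c + ((D.U.filter fun p => D.lam p ≤ c).card : ℕ)
  have hsplit : ∀ c, (D.U.filter fun p => D.lam p ≤ c).card =
      (D.U.filter fun p => D.lam p < c).card + (D.at c).card := by
    intro c
    rw [← Finset.card_union_of_disjoint, DoubleCurve.at, ← Finset.filter_or]
    · congr 1
      exact Finset.filter_congr fun p _ => le_iff_lt_or_eq
    · refine Finset.disjoint_filter.2 fun p _ h h' => h.ne h'
  have hconst : IsLocallyConstant G := by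
    rw [IsLocallyConstant.iff_eventually_eq]
    intro c0
    filter_upwards [Ioo_mem_nhds (sub_lt_self c0 (hδ c0)) (lt_add_of_pos_right c0 (hδ c0))]
      with c hc
    rcases lt_trichotomy c c0 with h | rfl | h
    · obtain ⟨d, hd, hdg⟩ := hgood c (min c0 (c + δ c)) (lt_min h (by linarith [hδ c]))
      have hE : E c = E c0 + ((D.at c0).card : ℕ) := by
        rw [← hR c d ⟨hd.1, hd.2.trans_le (min_le_right _ _)⟩ hdg,
          hL c0 d ⟨by linarith [hc.1, hd.1], hd.2.trans_le (min_le_left _ _)⟩ hdg]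
      have hcnt : (D.U.filter fun p => D.lam p ≤ c) = D.U.filter fun p => D.lam p < c0 := by
        refine Finset.filter_congr fun p hp => ⟨fun h1 => h1.trans_lt h, fun h1 => ?_⟩
        by_contra h2
        exact h1.ne (hUI c0 p hp ⟨by linarith [hc.1, not_le.1 h2], by linarith [hδ c0]⟩)
      simp only [G, hE, hcnt, hsplit c0, Nat.cast_add]
      ring
    · rfl
    · obtain ⟨d, hd, hdg⟩ := hgood c (min (c0 + δ c0) (c + δ c))
        (lt_min hc.2 (by linarith [hδ c]))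
      have hE : E c = E c0 := by
        rw [← hR c d ⟨hd.1, hd.2.trans_le (min_le_right _ _)⟩ hdg,
          hR c0 d ⟨h.trans hd.1, hd.2.trans_le (min_le_left _ _)⟩ hdg]
      have hcnt : (D.U.filter fun p => D.lam p ≤ c) = D.U.filter fun p => D.lam p ≤ c0 := by
        refine Finset.filter_congr fun p hp => ⟨fun h1 => ?_, fun h1 => h1.trans h.le⟩
        by_contra h2
        exact h2 (hUI c0 p hp ⟨by linarith [not_le.1 h2, hδ c0], by linarith [hc.2]⟩).le
      simp only [G, hE, hcnt]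
  obtain ⟨M, hM⟩ := (isCompact_range D.lam_cont).isBounded.subset_ball 0
  have hMlt : ∀ z, |D.lam z| < M := fun z => by
    simpa [Real.dist_eq] using hM ⟨z, rfl⟩
  have hout : ∀ d, (∀ z, D.lam z ≠ d) → D.N d = 0 := fun d hd => by
    simp [DoubleCurve.N, eq_empty_of_forall_notMem fun z (hz : z ∈ {z | D.lam z = d}) => hd z hz]
  have hlo : G (-M - 1) = 0 := by
    obtain ⟨d, hd, hdg⟩ := hgood (-M - 1) (min (-M - 1 + δ (-M - 1)) (-M))
      (lt_min (by linarith [hδ (-M - 1)]) (by linarith))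
    have hE : E (-M - 1) = 0 := by
      rw [← hR _ d ⟨hd.1, hd.2.trans_le (min_le_left _ _)⟩ hdg,
        hout d fun z h => by linarith [neg_abs_le (D.lam z), hMlt z, hd.2.trans_le (min_le_right _ _)]]
    have : (D.U.filter fun p => D.lam p ≤ -M - 1) = ∅ :=
      Finset.filter_eq_empty_iff.2 fun p _ => by linarith [neg_abs_le (D.lam p), hMlt p]
    simp [G, hE, this]
  have hhi : G (M + 1) = (D.U.card : ℕ) := by
    obtain ⟨d, hd, hdg⟩ := hgood (M + 1) (M + 1 + δ (M + 1)) (by linarith [hδ (M + 1)])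
    have hE : E (M + 1) = 0 := by
      rw [← hR _ d hd hdg, hout d fun z h => by linarith [le_abs_self (D.lam z), hMlt z, hd.1]]
    have : (D.U.filter fun p => D.lam p ≤ M + 1) = D.U :=
      Finset.filter_true_of_mem fun p _ => by linarith [le_abs_self (D.lam p), hMlt p]
    simp [G, hE, this]
  have := hconst.apply_eq_of_preconnectedSpace (-M - 1) (M + 1)
  rw [hlo, hhi] at this
  exact (ZMod.natCast_eq_zero_iff_even).1 this.symm

end Vale.Agent.P205F.Top
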