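import Vale.Agent.P205F.Defs

/-!
# P205, immersions with a normal field: planar fields with nondegenerate zeros

Two zeros of opposite sign in a disc can be cancelled and one zero can be moved, without changing
the field near the boundary. Logarithms on a disc are built by subdividing the rays.
-/

namespace Vale.Agent.P205F.Top

open Set Filter Function Topology Metric
open scoped ComplexConjugate

/-- The plane as the complex line. -/
noncomputable def toC : E2 ≃ₗᵢ[ℝ] ℂ := Complex.orthonormalBasisOneI.repr.symm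

theorem toC_apply (x : E2) : toC x = x 0 + x 1 * Complex.I := by
  simp [toC, Complex.orthonormalBasisOneI_repr_symm_apply]

theorem toC_ev : toC (ev 0) = 1 ∧ toC (ev 1) = Complex.I := by
  simp [toC_apply, ev]

/-- The identity or the conjugation. -/
noncomputable def mir (s : Bool) (z : ℂ) : ℂ := if s then z else conj z

theorem continuous_mir (s : Bool) : Continuous (mir s) := by
  cases s <;> unfold mir <;> simp [Complex.continuous_conj, continuous_id']

theorem mir_mul (s : Bool) (z w : ℂ) : mir s (z * w) = mir s z * mir s w := by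
  cases s <;> simp [mir]

theorem mir_exp (s : Bool) (z : ℂ) : mir s (Complex.exp z) = Complex.exp (mir s z) := by
  cases s <;> simp [mir, Complex.exp_conj]

@[simp] theorem mir_eq_zero (s : Bool) (z : ℂ) : mir s z = 0 ↔ z = 0 := by
  cases s <;> simp [mir]

theorem norm_mir (s : Bool) (z : ℂ) : ‖mir s z‖ = ‖z‖ := by
  cases s <;> simp [mir]

theorem mir_mul_mir_not (s : Bool) (z : ℂ) : mir s z * mir (!s) z = (‖z‖ ^ 2 : ℝ) := by
  rw [← Complex.normSq_eq_norm_sq]
  cases s
  · simp [mir, mul_comm, Complex.mul_conj]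
  · simp [mir, Complex.mul_conj]

/-- The model zero at `a`. -/
noncomputable def model (s : Bool) (a x : E2) : ℂ := mir s (toC (x - a))

theorem continuous_model (s : Bool) (a : E2) : Continuous (model s a) :=
  (continuous_mir s).comp (toC.continuous.comp (continuous_id.sub continuous_const))

theorem model_eq_zero {s : Bool} {a x : E2} : model s a x = 0 ↔ x = a := by
  simp [model, sub_eq_zero]

/-- The determinant of a linear map into `ℂ`. -/
noncomputable def det2 (D : E2 →L[ℝ] ℂ) : ℝ :=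
  (D (ev 0)).re * (D (ev 1)).im - (D (ev 0)).im * (D (ev 1)).re

/-- `1` or `-1`. -/
def sgn (s : Bool) : ℝ := if s then 1 else -1

/-- A linear map of sign `s` is dominated by its component along `mir s`. -/
theorem exists_dominant {D : E2 →L[ℝ] ℂ} {s : Bool} (h : 0 < sgn s * det2 D) :
    ∃ c : ℂ, c ≠ 0 ∧ ∃ k : ℝ, k < ‖c‖ ∧ ∀ x, ‖D x - c * mir s (toC x)‖ ≤ k * ‖x‖ := by
  set p := D (ev 0) with hp
  set q := D (ev 1) with hq
  let α : ℂ := (p - Complex.I * q) / 2
  let β : ℂ := (p + Complex.I * q) / 2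
  have hD : ∀ x, D x = α * toC x + β * conj (toC x) := by
    intro x
    have hx : x = x 0 • ev 0 + x 1 • ev 1 := by
      ext i; fin_cases i <;> simp [ev]
    conv_lhs => rw [hx]
    rw [map_add, map_smul, map_smul, ← hp, ← hq, toC_apply]
    apply Complex.ext <;> simp [α, β] <;> ring
  have hdet : ‖α‖ ^ 2 - ‖β‖ ^ 2 = det2 D := by
    rw [← Complex.normSq_eq_norm_sq, ← Complex.normSq_eq_norm_sq]
    simp [Complex.normSq_apply, α, β, det2, ← hp, ← hq]
    ring
  cases s
  · simp only [sgn, Bool.false_eq_true, if_false] at h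
    have hlt : ‖α‖ < ‖β‖ := by nlinarith [norm_nonneg α, norm_nonneg β]
    refine ⟨β, fun h0 => by simp [h0] at hlt; linarith [norm_nonneg α], ‖α‖, hlt, fun x => ?_⟩
    simp [mir, hD]
  · simp only [sgn, if_true] at h
    have hlt : ‖β‖ < ‖α‖ := by nlinarith [norm_nonneg α, norm_nonneg β]
    refine ⟨α, fun h0 => by simp [h0] at hlt; linarith [norm_nonneg β], ‖β‖, hlt, fun x => ?_⟩
    simp [mir, hD]

/-- A zero of sign `s` becomes exactly a multiple of the model, by a change near the zero. -/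
theorem normalise {g : E2 → ℂ} {K : Set E2} {a : E2} {s : Bool} {D : E2 →L[ℝ] ℂ}
    (hg : ContinuousOn g K) (ga : g a = 0) (hD : HasFDerivAt g D a) (h : 0 < sgn s * det2 D)
    {δ : ℝ} (hδ : 0 < δ) :
    ∃ (g' : E2 → ℂ) (c : ℂ), c ≠ 0 ∧ ContinuousOn g' K ∧ (∀ x, δ ≤ dist x a → g' x = g x) ∧
      (∀ x, g' x = 0 ↔ g x = 0) ∧ ∀ᶠ x in 𝓝 a, g' x = c * model s a x := by
  obtain ⟨c, hc, k, hk, hbd⟩ := exists_dominant h
  have hev := Asymptotics.isLittleO_iff.1 hD.isLittleO (half_pos (sub_pos.2 hk))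
  obtain ⟨η, hη, hball⟩ := Metric.eventually_nhds_iff.1 hev
  let e := min η δ
  have he : 0 < e := lt_min hη hδ
  let ρ : E2 → ℝ := fun x => max 0 (min 1 (2 - 2 * dist x a / e))
  let g' : E2 → ℂ := fun x => g x + (ρ x : ℂ) * (c * model s a x - g x)
  have hρ0 : ∀ x, e ≤ dist x a → ρ x = 0 := fun x hx => by
    have : 2 - 2 * dist x a / e ≤ 0 := by rw [sub_nonpos, le_div_iff₀ he]; linarith
    simp [ρ, (min_le_right (1 : ℝ) _).trans this]
  have hne : ∀ x, ∀ r : ℝ, 0 ≤ r → r ≤ 1 → dist x a < e → x ≠ a →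
      g x + (r : ℂ) * (c * model s a x - g x) ≠ 0 := by
    intro x r hr0 hr1 hx hxa h0
    have h1 := hball (hx.trans_le (min_le_left _ _))
    rw [ga, sub_zero] at h1
    have h2 : c * model s a x = -((1 - r : ℝ) : ℂ) *
        ((g x - D (x - a)) + (D (x - a) - c * mir s (toC (x - a)))) := by
      unfold model at h0 ⊢
      push_cast
      linear_combination h0
    have h3 := congrArg (‖·‖) h2
    simp only [norm_mul, norm_neg, Complex.norm_real, Real.norm_eq_abs, model, norm_mir,
      LinearIsometryEquiv.norm_map] at h3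
    rw [abs_of_nonneg (by linarith : (0 : ℝ) ≤ 1 - r)] at h3
    have h5 := hbd (x - a)
    have hpos : 0 < ‖x - a‖ := norm_pos_iff.2 (sub_ne_zero.2 hxa)
    have h6 := norm_add_le (g x - D (x - a)) (D (x - a) - c * mir s (toC (x - a)))
    nlinarith [norm_nonneg (g x - D (x - a) + (D (x - a) - c * mir s (toC (x - a))))]
  refine ⟨g', c, hc, ?_, fun x hx => ?_, fun x => ?_, ?_⟩
  · have hρc : Continuous ρ := by
      refine continuous_const.max (continuous_const.min ?_)
      exact continuous_const.sub ((continuous_const.mul (continuous_id.dist continuous_const)).div_const _)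
    exact hg.add (((Complex.continuous_ofReal.comp hρc).continuousOn).mul
      ((continuous_const.mul (continuous_model s a)).continuousOn.sub hg))
  · simp [g', hρ0 x ((min_le_right _ _).trans hx)]
  · rcases lt_or_ge (dist x a) e with hlt | hge
    · rcases eq_or_ne x a with rfl | hxa
      · simp [g', ga, model_eq_zero.2 rfl]
      · have h1 := hne x (ρ x) (le_max_left _ _) (max_le zero_le_one (min_le_left _ _)) hlt hxa
        have h2 := hne x 0 le_rfl zero_le_one hlt hxa
        simp only [Complex.ofReal_zero, zero_mul, add_zero] at h2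
        exact iff_of_false h1 h2
    · simp [g', hρ0 x hge]
  · filter_upwards [Metric.ball_mem_nhds a (half_pos he)] with x hx
    have hx' : dist x a < e / 2 := hx
    have : 1 ≤ 2 - 2 * dist x a / e := by
      rw [le_sub_iff_add_le, ← le_sub_iff_add_le', div_le_iff₀ he]; linarith
    simp [g', ρ, min_eq_left this]

/-- A continuous nonvanishing function on a disc has a logarithm. -/
theorem exists_log {R : ℝ} {q : E2 → ℂ} (hq : ContinuousOn q (closedBall 0 R))
    (h0 : ∀ x ∈ closedBall (0 : E2) R, q x ≠ 0) :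
    ∃ H : E2 → ℂ, ContinuousOn H (closedBall 0 R) ∧
      ∀ x ∈ closedBall (0 : E2) R, Complex.exp (H x) = q x := by
  rcases lt_or_ge R 0 with hR | hR
  · exact ⟨0, continuousOn_const, fun x hx => by
      rw [closedBall_eq_empty.2 hR] at hx; exact hx.elim⟩
  have hK : IsCompact (closedBall (0 : E2) R) := isCompact_closedBall _ _
  obtain ⟨x0, hx0, hmin⟩ := hK.exists_isMinOn ⟨0, mem_closedBall_self hR⟩ hq.norm
  have hm : 0 < ‖q x0‖ := norm_pos_iff.2 (h0 x0 hx0)
  obtain ⟨η, hη, huc⟩ := Metric.uniformContinuousOn_iff.1 (hK.uniformContinuousOn_of_continuous hq)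
    ‖q x0‖ hm
  obtain ⟨N, hN⟩ := exists_nat_gt (R / η)
  have hN0 : (0 : ℝ) < N := (div_nonneg hR hη.le).trans_lt hN
  let pt : ℕ → E2 → E2 := fun k x => ((k : ℝ) / N) • x
  have hpt : ∀ k ≤ N, ∀ x ∈ closedBall (0 : E2) R, pt k x ∈ closedBall (0 : E2) R := by
    intro k hk x hx
    rw [mem_closedBall_zero_iff] at hx ⊢
    rw [norm_smul, Real.norm_eq_abs, abs_of_nonneg (by positivity)]
    exact (mul_le_of_le_one_left (norm_nonneg _)
      ((div_le_one hN0).2 (Nat.cast_le.2 hk))).trans hx
  have hslit : ∀ k < N, ∀ x ∈ closedBall (0 : E2) R,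
      q (pt (k + 1) x) / q (pt k x) ∈ Complex.slitPlane := by
    intro k hk x hx
    refine Complex.mem_slitPlane_iff.2 (Or.inl ?_)
    have hd : dist (pt (k + 1) x) (pt k x) < η := by
      rw [dist_eq_norm, ← sub_smul, norm_smul, Nat.cast_succ, add_div, add_sub_cancel_left,
        Real.norm_eq_abs, abs_of_nonneg (by positivity), one_div]
      rw [mem_closedBall_zero_iff] at hx
      rw [inv_mul_lt_iff₀ hN0]
      rw [div_lt_iff₀ hη] at hN
      linarith
    have h1 := huc _ (hpt (k + 1) hk x hx) _ (hpt k hk.le x hx) hd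
    have hne := h0 _ (hpt k hk.le x hx)
    have hlt : ‖q (pt (k + 1) x) / q (pt k x) - 1‖ < 1 := by
      rw [div_sub_one hne, norm_div, div_lt_one (norm_pos_iff.2 hne), ← dist_eq_norm]
      exact h1.trans_le (hmin (hpt k hk.le x hx))
    have := (Complex.abs_re_le_norm _).trans_lt hlt
    rw [Complex.sub_re, Complex.one_re, abs_lt] at this
    linarith
  refine ⟨fun x => Complex.log (q 0) +
    ∑ k ∈ Finset.range N, Complex.log (q (pt (k + 1) x) / q (pt k x)), ?_, fun x hx => ?_⟩
  · refine continuousOn_const.add (continuousOn_finsetSum _ fun k hk => ?_)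
    have hk' := Finset.mem_range.1 hk
    refine ContinuousOn.clog ?_ (hslit k hk')
    exact (hq.comp (continuous_const_smul _).continuousOn fun x hx => hpt (k + 1) hk' x hx).div
      (hq.comp (continuous_const_smul _).continuousOn fun x hx => hpt k hk'.le x hx)
      fun x hx => h0 _ (hpt k hk'.le x hx)
  · have key : ∀ j ≤ N, Complex.exp (Complex.log (q 0) +
        ∑ k ∈ Finset.range j, Complex.log (q (pt (k + 1) x) / q (pt k x))) = q (pt j x) := by
      intro j hj
      induction j with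
      | zero => simp [pt, Complex.exp_log (h0 0 (mem_closedBall_self hR))]
      | succ j ih =>
        rw [Finset.sum_range_succ, ← add_assoc, Complex.exp_add, ih (Nat.le_of_succ_le hj),
          Complex.exp_log (Complex.slitPlane_ne_zero (hslit j hj x hx)),
          mul_div_cancel₀ _ (h0 _ (hpt j (Nat.le_of_succ_le hj) x hx))]
    rw [key N le_rfl]
    simp [pt, hN0.ne']

/-- The logarithm of `model s a` relative to `model s 0`, away from the disc. -/
noncomputable def shiftLog (s : Bool) (a x : E2) : ℂ :=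
  mir s (Complex.log (1 - toC a / toC x))

theorem shiftLog_props {R : ℝ} (s : Bool) {a : E2} (ha : ‖a‖ < R) :
    ContinuousOn (shiftLog s a) {x | R ≤ ‖x‖} ∧
      ∀ x, R ≤ ‖x‖ → Complex.exp (shiftLog s a x) * model s 0 x = model s a x := by
  have hx0 : ∀ x : E2, R ≤ ‖x‖ → toC x ≠ 0 := fun x hx h => by
    have := toC.norm_map x
    rw [h, norm_zero] at this
    linarith [norm_nonneg a]
  have hslit : ∀ x : E2, R ≤ ‖x‖ → (1 - toC a / toC x) ∈ Complex.slitPlane := by
    intro x hx
    refine Complex.mem_slitPlane_iff.2 (Or.inl ?_)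
    have h : ‖toC a / toC x‖ < 1 := by
      rw [norm_div, toC.norm_map, toC.norm_map, div_lt_one (by linarith [norm_nonneg a])]
      linarith
    have := (Complex.re_le_norm _).trans_lt h
    simp only [Complex.sub_re, Complex.one_re]
    linarith
  refine ⟨?_, fun x hx => ?_⟩
  · refine (continuous_mir s).comp_continuousOn (ContinuousOn.clog ?_ hslit)
    exact continuousOn_const.sub (continuousOn_const.div toC.continuous.continuousOn hx0)
  · rw [shiftLog, ← mir_exp, Complex.exp_log (Complex.slitPlane_ne_zero (hslit x hx)), model,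
      model, ← mir_mul, sub_zero, map_sub, sub_mul, one_mul, div_mul_cancel₀ _ (hx0 x hx)]

/-- A new field on a disc, equal to the old one near the boundary. -/
theorem replace_inside {R : ℝ} {g q M M' L : E2 → ℂ} (hq : ContinuousOn q (closedBall 0 (R + 1)))
    (hq0 : ∀ x ∈ closedBall (0 : E2) (R + 1), q x ≠ 0)
    (hg : ∀ x ∈ closedBall (0 : E2) (R + 1), R ≤ ‖x‖ → g x = M x * q x)
    (hL : ContinuousOn L {x | R ≤ ‖x‖})
    (hM : ∀ x, R ≤ ‖x‖ → M x = M' x * Complex.exp (L x)) (hM' : Continuous M') :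
    ∃ g' : E2 → ℂ, ContinuousOn g' (closedBall 0 (R + 1)) ∧
      (∀ x ∈ closedBall (0 : E2) (R + 1), R + 1 / 2 ≤ ‖x‖ → g' x = g x) ∧
      (∀ x, g' x = 0 ↔ M' x = 0) ∧ ∀ x, ‖x‖ ≤ R → g' x = M' x := by
  obtain ⟨H, hH, hHe⟩ := exists_log hq hq0
  let θ : E2 → ℝ := fun x => max 0 (min 1 (2 * (‖x‖ - R)))
  have hθc : Continuous θ :=
    continuous_const.max (continuous_const.min (continuous_const.mul (continuous_norm.sub continuous_const)))
  have hθ0 : ∀ x : E2, ‖x‖ ≤ R → θ x = 0 := fun x hx => by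
    have : 2 * (‖x‖ - R) ≤ 0 := by linarith
    simp [θ, (min_le_right (1 : ℝ) _).trans this]
  have hθ1 : ∀ x : E2, R + 1 / 2 ≤ ‖x‖ → θ x = 1 := fun x hx => by
    have : 1 ≤ 2 * (‖x‖ - R) := by linarith
    simp [θ, min_eq_left this]
  refine ⟨fun x => M' x * Complex.exp ((θ x : ℂ) * (H x + L x)), ?_, fun x hx hx' => ?_,
    fun x => by simp, fun x hx => by simp [hθ0 x hx]⟩
  · refine hM'.continuousOn.mul (Complex.continuous_exp.comp_continuousOn ?_)
    have h1 : ContinuousOn (fun x => (θ x : ℂ) * (H x + L x))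
        (closedBall 0 (R + 1) ∩ {x | R ≤ ‖x‖}) :=
      ((Complex.continuous_ofReal.comp hθc).continuousOn).mul
        ((hH.mono inter_subset_left).add (hL.mono inter_subset_right))
    have h2 : ContinuousOn (fun x => (θ x : ℂ) * (H x + L x))
        (closedBall 0 (R + 1) ∩ {x | ‖x‖ ≤ R}) :=
      (continuousOn_const (c := (0 : ℂ))).congr fun x hx => by simp [hθ0 x hx.2]
    refine (h1.union_of_isClosed h2
      (isClosed_closedBall.inter (isClosed_le continuous_const continuous_norm))
      (isClosed_closedBall.inter (isClosed_le continuous_norm continuous_const))).mono ?_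
    intro x hx
    rcases le_total R ‖x‖ with h | h
    · exact Or.inl ⟨hx, h⟩
    · exact Or.inr ⟨hx, h⟩
  · have hxR : R ≤ ‖x‖ := by linarith
    simp only [hθ1 x hx', Complex.ofReal_one, one_mul]
    rw [Complex.exp_add, hHe x hx, hg x hx hxR, hM x hxR]
    ring

/-- A model zero can be divided out. -/
theorem divide_zero {g u : E2 → ℂ} {K : Set E2} {a : E2} {s : Bool} (hg : ContinuousOn g K)
    (hu : ContinuousAt u a) (hua : u a ≠ 0) (hnear : ∀ᶠ x in 𝓝 a, g x = u x * model s a x) :
    ∃ q : E2 → ℂ, ContinuousOn q K ∧ (∀ x, g x = model s a x * q x) ∧ q a ≠ 0 ∧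
      (∀ x, x ≠ a → (q x = 0 ↔ g x = 0)) ∧ ∀ᶠ x in 𝓝 a, q x = u x := by
  classical
  let q : E2 → ℂ := fun x => if x = a then u a else g x / model s a x
  have hqa : ∀ᶠ x in 𝓝 a, q x = u x := by
    filter_upwards [hnear] with x hx
    by_cases h : x = a
    · subst h; simp [q]
    · have : model s a x ≠ 0 := fun h0 => h (model_eq_zero.1 h0)
      simp only [q, if_neg h, hx]
      rw [mul_div_assoc, div_self this, mul_one]
  refine ⟨q, fun x hx => ?_, fun x => ?_, by simpa [q] using hua,
    fun x hx => by simp [q, hx, model_eq_zero], hqa⟩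
  · by_cases h : x = a
    · subst h
      exact (hu.congr (Filter.EventuallyEq.symm hqa)).continuousWithinAt
    · have hne : model s a x ≠ 0 := fun h0 => h (model_eq_zero.1 h0)
      refine ((hg x hx).div (continuous_model s a).continuousWithinAt hne).congr_of_eventuallyEq ?_
        (by simp [q, h])
      filter_upwards [eventually_nhdsWithin_of_eventually_nhds (isOpen_ne.eventually_mem h)] with y hy
      simp [q, show y ≠ a from hy]
  · by_cases h : x = a
    · subst h; simp [hnear.self_of_nhds, model_eq_zero.2 rfl]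
    · simp only [q, if_neg h]
      rw [mul_comm, div_mul_cancel₀]
      exact fun h0 => h (model_eq_zero.1 h0)

/-- One zero moves to a prescribed point. -/
theorem move_one {R : ℝ} {g : E2 → ℂ} {a b : E2} {s : Bool} {Da : E2 →L[ℝ] ℂ}
    (hg : ContinuousOn g (closedBall 0 (R + 1))) (ha : ‖a‖ < R) (hb : ‖b‖ < R) (hga : g a = 0)
    (hz : ∀ x ∈ closedBall (0 : E2) (R + 1), g x = 0 → x = a)
    (hDa : HasFDerivAt g Da a) (hsa : 0 < sgn s * det2 Da) :
    ∃ g' : E2 → ℂ, ContinuousOn g' (closedBall 0 (R + 1)) ∧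
      (∀ x ∈ closedBall (0 : E2) (R + 1), R + 1 / 2 ≤ ‖x‖ → g' x = g x) ∧
      (∀ x, g' x = 0 ↔ x = b) ∧ ∀ x, ‖x‖ ≤ R → g' x = model s b x := by
  obtain ⟨g1, c, hc, hg1, hoff, hzero, hnear⟩ := normalise hg hga hDa hsa
    (show 0 < R - ‖a‖ by linarith)
  obtain ⟨q, hq, hgq, hqa, hqz, -⟩ := divide_zero (u := fun _ => c) hg1 continuousAt_const hc hnear
  have hout : ∀ x, R ≤ ‖x‖ → R - ‖a‖ ≤ dist x a := fun x hx => by
    rw [dist_eq_norm]; linarith [norm_sub_norm_le x a]
  obtain ⟨hA, hAe⟩ := shiftLog_props s ha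
  obtain ⟨hB, hBe⟩ := shiftLog_props s hb
  obtain ⟨g', hg', hoff', hz', hin⟩ := replace_inside (g := g) (q := q) (M := model s a)
    (M' := model s b) (L := fun x => shiftLog s a x - shiftLog s b x) hq
    (fun x hx h0 => by
      rcases eq_or_ne x a with rfl | hxa
      · exact hqa h0
      · exact hxa (hz x hx ((hzero x).1 ((hqz x hxa).1 h0))))
    (fun x _ hx' => by rw [← hoff x (hout x hx')]; exact hgq x)
    (hA.sub hB) (fun x hx => by
      rw [Complex.exp_sub, ← hBe x hx, ← hAe x hx]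
      field_simp [Complex.exp_ne_zero]) (continuous_model s b)
  exact ⟨g', hg', hoff', fun x => (hz' x).trans model_eq_zero, hin⟩

/-- Away from the disc a pair of opposite zeros has a logarithm. -/
theorem pair_log {R : ℝ} (s : Bool) {a b : E2} (ha : ‖a‖ < R) (hb : ‖b‖ < R) :
    ∃ L : E2 → ℂ, ContinuousOn L {x | R ≤ ‖x‖} ∧
      ∀ x, R ≤ ‖x‖ → model s a x * model (!s) b x = 1 * Complex.exp (L x) := by
  obtain ⟨hA, hAe⟩ := shiftLog_props s ha
  obtain ⟨hB, hBe⟩ := shiftLog_props (!s) hb
  have hpos : ∀ x : E2, R ≤ ‖x‖ → 0 < ‖x‖ ^ 2 := fun x hx =>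
    pow_pos (by linarith [norm_nonneg a]) 2
  have hn : Continuous fun x : E2 => ‖x‖ ^ 2 := continuous_norm.pow 2
  have hlog : ContinuousOn (fun x : E2 => Real.log (‖x‖ ^ 2)) {x | R ≤ ‖x‖} :=
    ContinuousOn.log hn.continuousOn fun x hx => (hpos x hx).ne'
  have hlogC : ContinuousOn (fun x : E2 => (Real.log (‖x‖ ^ 2) : ℂ)) {x | R ≤ ‖x‖} :=
    Complex.continuous_ofReal.comp_continuousOn hlog
  have hsum : ContinuousOn (fun x : E2 => (Real.log (‖x‖ ^ 2) : ℂ) + shiftLog s a x +
      shiftLog (!s) b x) {x | R ≤ ‖x‖} := (hlogC.add hA).add hB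
  refine ⟨_, hsum, ?_⟩
  intro x hx
  have hm : model s 0 x * model (!s) 0 x = ((‖x‖ ^ 2 : ℝ) : ℂ) := by
    simp only [model, sub_zero]
    rw [mir_mul_mir_not, toC.norm_map]
  have he : Complex.exp ((Real.log (‖x‖ ^ 2) : ℝ) : ℂ) = model s 0 x * model (!s) 0 x := by
    rw [hm, ← Complex.ofReal_exp, Real.exp_log (hpos x hx)]
  rw [one_mul, Complex.exp_add, Complex.exp_add, he, ← hAe x hx, ← hBe x hx]
  ring

/-- Two zeros of opposite sign cancel. -/
theorem cancel_two {R : ℝ} {g : E2 → ℂ} {a b : E2} {s : Bool} {Da Db : E2 →L[ℝ] ℂ}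
    (hg : ContinuousOn g (closedBall 0 (R + 1))) (ha : ‖a‖ < R) (hb : ‖b‖ < R) (hab : a ≠ b)
    (hga : g a = 0) (hgb : g b = 0)
    (hz : ∀ x ∈ closedBall (0 : E2) (R + 1), g x = 0 → x = a ∨ x = b)
    (hDa : HasFDerivAt g Da a) (hsa : 0 < sgn s * det2 Da)
    (hDb : HasFDerivAt g Db b) (hsb : 0 < sgn (!s) * det2 Db) :
    ∃ g' : E2 → ℂ, ContinuousOn g' (closedBall 0 (R + 1)) ∧
      (∀ x ∈ closedBall (0 : E2) (R + 1), R + 1 / 2 ≤ ‖x‖ → g' x = g x) ∧
      ∀ x, g' x ≠ 0 := by
  let δ := min (dist a b / 2) (min (R - ‖a‖) (R - ‖b‖))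
  have hdab : 0 < dist a b := dist_pos.2 hab
  have hδ : 0 < δ := lt_min (half_pos hdab) (lt_min (by linarith) (by linarith))
  have hδ2 : δ ≤ dist a b / 2 := min_le_left _ _
  obtain ⟨g1, c1, hc1, hg1, h1off, h1z, h1near⟩ := normalise hg hga hDa hsa hδ
  have h1b : g1 =ᶠ[𝓝 b] g := by
    filter_upwards [Metric.ball_mem_nhds b hδ] with x hx
    refine h1off x ?_
    have hx' : dist x b < δ := hx
    linarith [dist_triangle_left a b x]
  obtain ⟨g2, c2, hc2, hg2, h2off, h2z, h2near⟩ := normalise hg1 ((h1z b).2 hgb)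
    (hDb.congr_of_eventuallyEq h1b) hsb hδ
  have h2a : ∀ᶠ x in 𝓝 a, g2 x = c1 * model s a x := by
    filter_upwards [h1near, Metric.ball_mem_nhds a hδ] with x hx hxb
    refine (h2off x ?_).trans hx
    have hx' : dist x a < δ := hxb
    linarith [dist_triangle_left a b x]
  obtain ⟨q1, hq1, hgq1, hq1a, hq1z, -⟩ :=
    divide_zero (u := fun _ => c1) hg2 continuousAt_const hc1 h2a
  have hmb : model s a b ≠ 0 := fun h => hab (model_eq_zero.1 h).symm
  obtain ⟨q, hq, hqq, hqb, hqz, -⟩ := divide_zero (s := !s) (a := b)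
    (u := fun x => c2 / model s a x) hq1
    (continuousAt_const.div (continuous_model s a).continuousAt hmb) (div_ne_zero hc2 hmb) (by
      filter_upwards [h2near, (continuous_model s a).continuousAt.eventually_ne hmb] with x hx hne
      rw [div_mul_eq_mul_div, eq_div_iff hne, mul_comm, ← hgq1, hx])
  obtain ⟨L, hL, hLe⟩ := pair_log s ha hb
  have hout : ∀ x, R ≤ ‖x‖ → δ ≤ dist x a ∧ δ ≤ dist x b := fun x hx => by
    have h1 : δ ≤ R - ‖a‖ := (min_le_right _ _).trans (min_le_left _ _)
    have h2 : δ ≤ R - ‖b‖ := (min_le_right _ _).trans (min_le_right _ _)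
    rw [dist_eq_norm, dist_eq_norm]
    constructor <;> linarith [norm_sub_norm_le x a, norm_sub_norm_le x b]
  obtain ⟨g', hg', hoff', hz', -⟩ := replace_inside (g := g) (q := q)
    (M := fun x => model s a x * model (!s) b x) (M' := fun _ => 1)
    (L := L) hq
    (fun x hx h0 => by
      rcases eq_or_ne x b with rfl | hxb
      · exact hqb h0
      have h1 := (hqz x hxb).1 h0
      rcases eq_or_ne x a with rfl | hxa
      · exact hq1a h1
      rcases hz x hx ((h1z x).1 ((h2z x).1 ((hq1z x hxa).1 h1))) with h | h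
      · exact hxa h
      · exact hxb h)
    (fun x _ hx' => by
      rw [mul_assoc, ← hqq, ← hgq1, h2off x (hout x hx').2, h1off x (hout x hx').1])
    hL hLe
    continuous_const
  exact ⟨g', hg', hoff', fun x h => one_ne_zero ((hz' x).1 h)⟩

end Vale.Agent.P205F.Top
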