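import Vale.Agent.P205F.Top.Alg
import Vale.Agent.P205F.Top.Winding
import Vale.Agent.P205F.Interfaces

/-!
# P205, immersions with a normal field: normal planes and their frames
-/

namespace Vale.Agent.P205F.Top

open Set Filter Function Topology Metric
open scoped RealInnerProductSpace ContDiff

/-- Two vectors are independent. -/
def Indep (a b : R4) : Prop := ∀ p q : ℝ, p • a + q • b = 0 → p = 0 ∧ q = 0

/-- The Gram determinant. -/
noncomputable def gram (a b : R4) : ℝ := ⟪a, a⟫ * ⟪b, b⟫ - ⟪a, b⟫ ^ 2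

theorem gram_pos {a b : R4} (h : Indep a b) : 0 < gram a b := by
  have ha : a ≠ 0 := fun ha => one_ne_zero (h 1 0 (by simp [ha])).1
  have haa : 0 < ⟪a, a⟫ := real_inner_self_pos.2 ha
  set r := ⟪a, a⟫ • b - ⟪a, b⟫ • a with hr
  have hr0 : r ≠ 0 := fun h0 => by
    have h1 := h (-⟪a, b⟫) ⟪a, a⟫ (by rw [← h0, hr]; module)
    exact haa.ne' h1.2
  have e : ⟪r, r⟫ = ⟪a, a⟫ * gram a b := by
    rw [hr, gram]
    simp only [inner_sub_left, inner_sub_right, real_inner_smul_left, real_inner_smul_right,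
      real_inner_comm b a]
    ring
  have := real_inner_self_pos.2 hr0
  rw [e] at this
  exact (pos_iff_pos_of_mul_pos this).1 haa

/-- The projection onto the orthogonal complement of two vectors. -/
noncomputable def prj (a b : R4) : R4 →L[ℝ] R4 :=
  ContinuousLinearMap.id ℝ R4 -
    ((gram a b)⁻¹ • (⟪b, b⟫ • innerSL ℝ a - ⟪a, b⟫ • innerSL ℝ b)).smulRight a -
    ((gram a b)⁻¹ • (⟪a, a⟫ • innerSL ℝ b - ⟪a, b⟫ • innerSL ℝ a)).smulRight b

theorem prj_apply (a b w : R4) : prj a b w =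
    w - ((gram a b)⁻¹ * (⟪b, b⟫ * ⟪a, w⟫ - ⟪a, b⟫ * ⟪b, w⟫)) • a
      - ((gram a b)⁻¹ * (⟪a, a⟫ * ⟪b, w⟫ - ⟪a, b⟫ * ⟪a, w⟫)) • b := by
  simp [prj]

theorem prj_orth {a b : R4} (h : Indep a b) (w : R4) :
    ⟪a, prj a b w⟫ = 0 ∧ ⟪b, prj a b w⟫ = 0 := by
  have hg := (gram_pos h).ne'
  rw [prj_apply]
  simp only [inner_sub_right, real_inner_smul_right, real_inner_comm a b]
  constructor <;> field_simp <;> simp only [gram, real_inner_comm a b] <;> ring

theorem prj_of_orth {a b w : R4} (h1 : ⟪a, w⟫ = 0) (h2 : ⟪b, w⟫ = 0) : prj a b w = w := by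
  simp [prj_apply, h1, h2]

theorem exists_prj_eq (a b w : R4) : ∃ p q : ℝ, w = prj a b w + (p • a + q • b) :=
  ⟨_, _, by rw [prj_apply]; abel⟩

theorem prj_span {a b : R4} (h : Indep a b) (p q : ℝ) : prj a b (p • a + q • b) = 0 := by
  obtain ⟨h1, h2⟩ := prj_orth h (p • a + q • b)
  obtain ⟨p', q', e⟩ := exists_prj_eq a b (p • a + q • b)
  have e' : prj a b (p • a + q • b) = (p - p') • a + (q - q') • b := by
    rw [sub_smul, sub_smul]
    have := eq_sub_of_add_eq e.symm
    rw [this]; abel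
  refine (inner_self_eq_zero (𝕜 := ℝ)).1 ?_
  nth_rewrite 1 [e']
  rw [inner_add_left, real_inner_smul_left, real_inner_smul_left, h1, h2]; ring

theorem continuousAt_prj {X : Type*} [TopologicalSpace X] {a b : X → R4} {x : X}
    (ha : ContinuousAt a x) (hb : ContinuousAt b x) (h : Indep (a x) (b x)) :
    ContinuousAt (fun y => prj (a y) (b y)) x := by
  have haa := ha.inner (𝕜 := ℝ) ha
  have hbb := hb.inner (𝕜 := ℝ) hb
  have hab := ha.inner (𝕜 := ℝ) hb
  have hA : ContinuousAt (fun y => innerSL ℝ (a y)) x := (innerSL ℝ).continuous.continuousAt.comp ha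
  have hB : ContinuousAt (fun y => innerSL ℝ (b y)) x := (innerSL ℝ).continuous.continuousAt.comp hb
  have hg : ContinuousAt (fun y => (gram (a y) (b y))⁻¹) x :=
    ((haa.mul hbb).sub (hab.pow 2)).inv₀ (gram_pos h).ne'
  have h1 := hg.smul ((hbb.smul hA).sub (hab.smul hB))
  have h2 := hg.smul ((haa.smul hB).sub (hab.smul hA))
  have hs : ∀ {φ : X → R4 →L[ℝ] ℝ} {c : X → R4}, ContinuousAt φ x → ContinuousAt c x →
      ContinuousAt (fun y => (φ y).smulRight (c y)) x := fun hφ hc =>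
    ((ContinuousLinearMap.smulRightL ℝ R4 R4).continuous.continuousAt.comp hφ).clm_apply hc
  exact (continuousAt_const.sub (hs h1 ha)).sub (hs h2 hb)

theorem orth_four {x y z w r : R4} (h : d4 x y z w ≠ 0) (h1 : ⟪x, r⟫ = 0) (h2 : ⟪y, r⟫ = 0)
    (h3 : ⟪z, r⟫ = 0) (h4 : ⟪w, r⟫ = 0) : r = 0 := by
  have e : d4 x y z w • r =
      d4 r y z w • x + d4 x r z w • y + d4 x y r w • z + d4 x y z r • w := by
    ext i; fin_cases i <;> (simp [d4, plk]; ring)
  have := congrArg (fun v => ⟪v, r⟫) e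
  simp only [inner_add_left, real_inner_smul_left, h1, h2, h3, h4, mul_zero, add_zero] at this
  exact inner_self_eq_zero.1 ((mul_eq_zero.1 this).resolve_left h)

theorem normal_frame_props {a b u : R4} (hab : Indep a b) (hu : u ≠ 0) (hau : ⟪a, u⟫ = 0)
    (hbu : ⟪b, u⟫ = 0) :
    cross a b u ≠ 0 ∧ 0 < d4 a b u (cross a b u) ∧ ⟪a, cross a b u⟫ = 0 ∧
      ⟪b, cross a b u⟫ = 0 ∧ ⟪u, cross a b u⟫ = 0 := by
  have hv := cross_ne_zero hab hu hau hbu
  obtain ⟨c1, c2, c3⟩ := cross_inner_args a b u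
  refine ⟨hv, ?_, by rw [real_inner_comm]; exact c1, by rw [real_inner_comm]; exact c2,
    by rw [real_inner_comm]; exact c3⟩
  rw [d4_cross_self]
  exact pow_pos (norm_pos_iff.2 hv) 2

/-- A normal vector in an orthogonal frame. -/
theorem normal_decomp {a b u w : R4} (hab : Indep a b) (hu : u ≠ 0) (hau : ⟪a, u⟫ = 0)
    (hbu : ⟪b, u⟫ = 0) (haw : ⟪a, w⟫ = 0) (hbw : ⟪b, w⟫ = 0) :
    w = (⟪w, u⟫ / ‖u‖ ^ 2) • u
      + (⟪w, cross a b u⟫ / ‖cross a b u‖ ^ 2) • cross a b u := by
  obtain ⟨hv, hpos, hav, hbv, huv⟩ := normal_frame_props hab hu hau hbu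
  refine sub_eq_zero.1 (orth_four hpos.ne' ?_ ?_ ?_ ?_)
  · simp [inner_sub_right, inner_add_right, real_inner_smul_right, haw, hau, hav]
  · simp [inner_sub_right, inner_add_right, real_inner_smul_right, hbw, hbu, hbv]
  · rw [inner_sub_right, inner_add_right, real_inner_smul_right, real_inner_smul_right, huv,
      real_inner_comm w u, real_inner_self_eq_norm_sq]
    have := norm_ne_zero_iff.2 hu
    field_simp
    ring
  · rw [inner_sub_right, inner_add_right, real_inner_smul_right, real_inner_smul_right,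
      real_inner_comm u (cross a b u), huv, real_inner_comm w (cross a b u),
      real_inner_self_eq_norm_sq]
    have := norm_ne_zero_iff.2 hv
    field_simp
    ring

/-- The orientation of two vectors modulo a plane, in a normal frame. -/
theorem d4_frame {a b u : R4} (hab : Indep a b) (hu : u ≠ 0) (hau : ⟪a, u⟫ = 0)
    (hbu : ⟪b, u⟫ = 0) (w w' : R4) :
    d4 a b w w' * ‖u‖ ^ 2 =
      ⟪w, u⟫ * ⟪w', cross a b u⟫ - ⟪w, cross a b u⟫ * ⟪w', u⟫ := by
  obtain ⟨hv, -, hav, hbv, -⟩ := normal_frame_props hab hu hau hbu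
  obtain ⟨p, q, e⟩ := exists_prj_eq a b w
  obtain ⟨p', q', e'⟩ := exists_prj_eq a b w'
  have hin : ∀ (w : R4) (p q : ℝ), w = prj a b w + (p • a + q • b) →
      ⟪prj a b w, u⟫ = ⟪w, u⟫ ∧ ⟪prj a b w, cross a b u⟫ = ⟪w, cross a b u⟫ := by
    intro w p q e
    constructor <;> conv_rhs => rw [e]
    · simp [inner_add_left, real_inner_smul_left, hau, hbu]
    · simp [inner_add_left, real_inner_smul_left, hav, hbv]
  conv_lhs => rw [e, e', d4_mod, normal_decomp hab hu hau hbu (prj_orth hab w).1 (prj_orth hab w).2,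
    normal_decomp hab hu hau hbu (prj_orth hab w').1 (prj_orth hab w').2, d4_right, d4_cross_self,
    (hin w p q e).1, (hin w p q e).2, (hin w' p' q' e').1, (hin w' p' q' e').2]
  have := norm_ne_zero_iff.2 hu
  have := norm_ne_zero_iff.2 hv
  field_simp

/-- The tangent vectors of an immersion of the plane. -/
theorem indep_pd {F : E2 → R4} (h : IsImm F) (x : E2) : Indep (pd 0 F x) (pd 1 F x) := by
  intro p q e
  have h1 : fderiv ℝ F x (p • ev 0 + q • ev 1) = fderiv ℝ F x 0 := by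
    rw [map_add, map_smul, map_smul, map_zero]; exact e
  have h2 := h x h1
  constructor
  · simpa [ev] using congrArg (fun v : E2 => v 0) h2
  · simpa [ev] using congrArg (fun v : E2 => v 1) h2

theorem continuous_pd {F : E2 → R4} (h : ContDiff ℝ ∞ F) (i : Fin 2) : Continuous (pd i F) :=
  (h.continuous_fderiv (by simp)).clm_apply continuous_const

/-- A vector is normal. -/
def IsNrm (F : E2 → R4) (x : E2) (w : R4) : Prop := ⟪pd 0 F x, w⟫ = 0 ∧ ⟪pd 1 F x, w⟫ = 0

/-- A continuous nonvanishing normal field on a disc. -/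
theorem exists_normal_on_ball {F : E2 → R4} (hF : ContDiff ℝ ∞ F) (hI : IsImm F) (R : ℝ)
    (hR : 0 ≤ R) : ∃ u : E2 → R4, ContinuousOn u (closedBall 0 R) ∧
      ∀ x ∈ closedBall (0 : E2) R, u x ≠ 0 ∧ IsNrm F x (u x) := by
  let P : E2 → R4 →L[ℝ] R4 := fun x => prj (pd 0 F x) (pd 1 F x)
  have hP : Continuous P := continuous_iff_continuousAt.2 fun x =>
    continuousAt_prj (continuous_pd hF 0).continuousAt (continuous_pd hF 1).continuousAt
      (indep_pd hI x)
  obtain ⟨u0, hu0⟩ : ∃ w, P 0 w ≠ 0 := by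
    by_contra! h
    have hle : (⊤ : Submodule ℝ R4) ≤ Submodule.span ℝ (Set.range ![pd 0 F 0, pd 1 F 0]) := by
      intro w _
      obtain ⟨p, q, e⟩ := exists_prj_eq (pd 0 F 0) (pd 1 F 0) w
      rw [show prj (pd 0 F 0) (pd 1 F 0) w = 0 from h w, zero_add] at e
      rw [e]
      exact add_mem (Submodule.smul_mem _ _ (Submodule.subset_span ⟨0, rfl⟩))
        (Submodule.smul_mem _ _ (Submodule.subset_span ⟨1, rfl⟩))
    have h1 := Submodule.finrank_mono hle
    have h2 := finrank_range_le_card (R := ℝ) ![pd 0 F 0, pd 1 F 0]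
    rw [Set.finrank] at h2
    simp at h1 h2
    omega
  have hK : IsCompact (closedBall (0 : E2) R) := isCompact_closedBall _ _
  obtain ⟨η, hη, huc⟩ := Metric.uniformContinuousOn_iff.1
    (hK.uniformContinuousOn_of_continuous hP.continuousOn) (1 / 2) one_half_pos
  obtain ⟨N, hN⟩ := exists_nat_gt (R / η)
  have hN0 : (0 : ℝ) < N := (div_nonneg hR hη.le).trans_lt hN
  let pt : ℕ → E2 → E2 := fun k x => ((k : ℝ) / N) • x
  have hpt : ∀ k ≤ N, ∀ x ∈ closedBall (0 : E2) R, pt k x ∈ closedBall (0 : E2) R := by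
    intro k hk x hx
    rw [mem_closedBall_zero_iff] at hx ⊢
    rw [norm_smul, Real.norm_eq_abs, abs_of_nonneg (by positivity)]
    exact (mul_le_of_le_one_left (norm_nonneg _)
      ((div_le_one hN0).2 (Nat.cast_le.2 hk))).trans hx
  have key : ∀ k ≤ N, ∃ u : E2 → R4, ContinuousOn u (closedBall 0 R) ∧
      ∀ x ∈ closedBall (0 : E2) R, u x ≠ 0 ∧ IsNrm F (pt k x) (u x) := by
    intro k hk
    induction k with
    | zero =>
      refine ⟨fun _ => P 0 u0, continuousOn_const, fun x _ => ⟨hu0, ?_⟩⟩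
      simpa [pt, IsNrm] using prj_orth (indep_pd hI 0) u0
    | succ k ih =>
      obtain ⟨u, hu, hu'⟩ := ih (Nat.le_of_succ_le hk)
      refine ⟨fun x => P (pt (k + 1) x) (u x),
        ((hP.comp (continuous_const_smul _)).continuousOn).clm_apply hu,
        fun x hx => ⟨fun h0 => ?_, prj_orth (indep_pd hI _) _⟩⟩
      obtain ⟨hne, hn⟩ := hu' x hx
      have hd : dist (pt (k + 1) x) (pt k x) < η := by
        rw [dist_eq_norm, ← sub_smul, norm_smul, Nat.cast_succ, add_div, add_sub_cancel_left,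
          Real.norm_eq_abs, abs_of_nonneg (by positivity), one_div]
        rw [mem_closedBall_zero_iff] at hx
        rw [inv_mul_lt_iff₀ hN0]
        rw [div_lt_iff₀ hη] at hN
        linarith
      have h1 := huc _ (hpt (k + 1) hk x hx) _ (hpt k (Nat.le_of_succ_le hk) x hx) hd
      rw [dist_eq_norm] at h1
      have h2 := (P (pt (k + 1) x) - P (pt k x)).le_opNorm (u x)
      have hfix : P (pt k x) (u x) = u x := prj_of_orth hn.1 hn.2
      have h0' : P (pt (k + 1) x) (u x) = 0 := h0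
      rw [sub_apply, h0', hfix, zero_sub, norm_neg] at h2
      nlinarith [norm_pos_iff.2 hne]
  obtain ⟨u, hu, hu'⟩ := key N le_rfl
  refine ⟨u, hu, fun x hx => ?_⟩
  have := hu' x hx
  simpa [pt, hN0.ne'] using this

/-- The complex coordinate of a field in a frame. -/
noncomputable def coordC (u v : E2 → R4) (n : E2 → R4) (x : E2) : ℂ :=
  ⟪n x, u x⟫ + ⟪n x, v x⟫ * Complex.I

/-- The field with given complex coordinate. -/
noncomputable def fieldC (u v : E2 → R4) (g : E2 → ℂ) (x : E2) : R4 :=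
  ((g x).re / ‖u x‖ ^ 2) • u x + ((g x).im / ‖v x‖ ^ 2) • v x

/-- The product of a function vanishing at a point and a continuous one. -/
theorem hasFDerivAt_smul_cont {V : Type*} [NormedAddCommGroup V] [NormedSpace ℝ V] {c : E2 → ℝ}
    {w : E2 → V} {c' : E2 →L[ℝ] ℝ} {a : E2} (hc : HasFDerivAt c c' a) (c0 : c a = 0)
    (hw : ContinuousAt w a) : HasFDerivAt (fun x => c x • w x) (c'.smulRight (w a)) a := by
  rw [hasFDerivAt_iff_isLittleO_nhds_zero]
  have h1 := (hasFDerivAt_iff_isLittleO_nhds_zero.1 hc)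
  have hT : Tendsto (fun h : E2 => a + h) (𝓝 0) (𝓝 a) := by
    simpa using (continuous_const.add continuous_id).tendsto (0 : E2) (f := fun h : E2 => a + h)
  have hw' : Tendsto (fun h : E2 => w (a + h)) (𝓝 0) (𝓝 (w a)) := hw.tendsto.comp hT
  have e : (fun h => c (a + h) • w (a + h) - c a • w a - (c'.smulRight (w a)) h) =
      fun h => (c (a + h) - c a - c' h) • w (a + h) + c' h • (w (a + h) - w a) := by
    funext h
    simp only [ContinuousLinearMap.smulRight_apply, c0, zero_smul, sub_zero]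
    module
  rw [e]
  have hb : (fun h : E2 => (c (a + h) - c a - c' h) • w (a + h)) =o[𝓝 0] fun h => h := by
    have := h1.norm_right.smul_isBigO (hw'.isBigO_one ℝ)
    simp only [smul_eq_mul, mul_one] at this
    exact this.of_norm_right
  have hs : (fun h : E2 => c' h • (w (a + h) - w a)) =o[𝓝 0] fun h => h := by
    have h2 : (fun h : E2 => w (a + h) - w a) =o[𝓝 0] fun _ => (1 : ℝ) := by
      rw [Asymptotics.isLittleO_one_iff]
      simpa using hw'.sub_const (w a)
    have := (c'.isBigO_id (𝓝 0)).norm_right.smul_isLittleO h2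
    simp only [smul_eq_mul, mul_one] at this
    exact this.of_norm_right
  exact hb.add hs

theorem hasFDerivAt_inner_cont {n w : E2 → R4} {D : E2 →L[ℝ] R4} {a : E2}
    (hn : HasFDerivAt n D a) (n0 : n a = 0) (hw : ContinuousAt w a) :
    HasFDerivAt (fun x => ⟪n x, w x⟫) ((innerSL ℝ (w a)).comp D) a := by
  have h : ∀ k : Fin 4, HasFDerivAt (fun x => n x k • w x k)
      (((EuclideanSpace.proj (𝕜 := ℝ) k).comp D).smulRight (w a k)) a := fun k =>
    hasFDerivAt_smul_cont ((EuclideanSpace.proj (𝕜 := ℝ) k).hasFDerivAt.comp a hn) (by simp [n0])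
      ((EuclideanSpace.proj (𝕜 := ℝ) k).continuous.continuousAt.comp hw)
  have hs := HasFDerivAt.fun_sum (u := (Finset.univ : Finset (Fin 4))) fun k _ => h k
  refine (hs.congr_of_eventuallyEq (Eventually.of_forall fun x => ?_)).congr_fderiv
    (ContinuousLinearMap.ext fun v => ?_)
  · simp [PiLp.inner_apply, mul_comm]
  · simp [PiLp.inner_apply, mul_comm]

end Vale.Agent.P205F.Top
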