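import Vale.Agent.P205F.Top.DoubleArc

/-!
# P205, immersions with a normal field: a double curve ends at every singular point
-/

namespace Vale.Agent.P205F.Top

open Set Filter Function Topology
open scoped Manifold ContDiff RealInnerProductSpace

/-- The linear substitution at time `τ`. -/
def subst (v u : E2) (τ : ℝ) (z : E2 × ℝ × ℝ × ℝ) : E2 × ℝ :=
  (z.1 + τ • (z.2.1 • v + z.2.2.1 • u), z.2.2.2)

theorem subst_sub (v u : E2) (τ : ℝ) (z z' : E2 × ℝ × ℝ × ℝ) :
    subst v u τ (z - z') = subst v u τ z - subst v u τ z' := by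
  simp only [subst, Prod.fst_sub, Prod.snd_sub, Prod.mk_sub_mk]
  refine Prod.ext ?_ rfl
  simp only [sub_smul, smul_add, smul_sub]
  abel

theorem norm_subst_le (v u : E2) {τ : ℝ} (hτ : |τ| ≤ 1) (z : E2 × ℝ × ℝ × ℝ) :
    ‖subst v u τ z‖ ≤ (1 + ‖v‖ + ‖u‖) * ‖z‖ := by
  obtain ⟨m, r, q, s⟩ := z
  have hm : ‖m‖ ≤ ‖(m, r, q, s)‖ := le_max_left _ _
  have hr : |r| ≤ ‖(m, r, q, s)‖ := (le_max_left _ _).trans (le_max_right _ _)
  have hq : |q| ≤ ‖(m, r, q, s)‖ :=
    ((le_max_left _ _).trans (le_max_right _ _)).trans (le_max_right _ _)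
  have hs : |s| ≤ ‖(m, r, q, s)‖ :=
    ((le_max_right _ _).trans (le_max_right _ _)).trans (le_max_right _ _)
  set N := ‖(m, r, q, s)‖
  have hN : 0 ≤ N := norm_nonneg _
  refine max_le ?_ ?_
  · calc ‖m + τ • (r • v + q • u)‖ ≤ ‖m‖ + |τ| * (|r| * ‖v‖ + |q| * ‖u‖) := by
          refine (norm_add_le _ _).trans (add_le_add le_rfl ?_)
          rw [norm_smul, Real.norm_eq_abs]
          refine mul_le_mul_of_nonneg_left ((norm_add_le _ _).trans ?_) (abs_nonneg _)
          simp [norm_smul]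
      _ ≤ N + 1 * (N * ‖v‖ + N * ‖u‖) := by gcongr
      _ = (1 + ‖v‖ + ‖u‖) * N := by ring
  · calc ‖(s : ℝ)‖ ≤ N := hs
      _ ≤ (1 + ‖v‖ + ‖u‖) * N :=
        le_mul_of_one_le_left hN (by linarith [norm_nonneg v, norm_nonneg u])

/-- The divided difference. -/
noncomputable def divDiff (H : E2 × ℝ → Fin 3 → ℝ) (v u : E2) (z : E2 × ℝ × ℝ × ℝ) : Fin 3 → ℝ :=
  ∫ τ in (-1 : ℝ)..1, H (subst v u τ z)

theorem divDiff_hasStrictFDerivAt {H : E2 × ℝ → Fin 3 → ℝ} (hH : Continuous H)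
    {D : E2 × ℝ →L[ℝ] (Fin 3 → ℝ)} {x : E2} (hD : HasStrictFDerivAt H D (x, 0)) (v u : E2) :
    HasStrictFDerivAt (divDiff H v u)
      ((2 : ℝ) • D.comp ((ContinuousLinearMap.fst ℝ E2 (ℝ × ℝ × ℝ)).prod
        ((ContinuousLinearMap.snd ℝ ℝ ℝ).comp
          ((ContinuousLinearMap.snd ℝ ℝ (ℝ × ℝ)).comp (ContinuousLinearMap.snd ℝ E2 (ℝ × ℝ × ℝ))))))
      (x, 0, 0, 0) := by
  set K := 1 + ‖v‖ + ‖u‖ with hKdef
  have hK : 0 < K := by positivity
  refine hasStrictFDerivAt_iff_isLittleO.2 (Asymptotics.isLittleO_iff.2 fun c hc => ?_)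
  have hD' := Asymptotics.isLittleO_iff.1 (hasStrictFDerivAt_iff_isLittleO.1 hD)
    (show 0 < c / (2 * K) by positivity)
  rw [nhds_prod_eq] at hD'
  obtain ⟨pa, hpa, pb, hpb, hab⟩ := Filter.eventually_prod_iff.1 hD'
  obtain ⟨ra, hra, hball⟩ := Metric.eventually_nhds_iff.1 (hpa.and hpb)
  rw [nhds_prod_eq]
  refine Filter.eventually_prod_iff.2 ⟨_, Metric.ball_mem_nhds _ (div_pos hra hK), _,
    Metric.ball_mem_nhds _ (div_pos hra hK), fun {z} hz {z'} hz' => ?_⟩
  have hin : ∀ y : E2 × ℝ × ℝ × ℝ, y ∈ Metric.ball (x, (0 : ℝ), (0 : ℝ), (0 : ℝ)) (ra / K) →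
      ∀ τ : ℝ, |τ| ≤ 1 → pa (subst v u τ y) ∧ pb (subst v u τ y) := by
    intro y hy τ hτ
    refine hball ?_
    rw [dist_eq_norm]
    have e : subst v u τ y - (x, 0) = subst v u τ (y - (x, 0, 0, 0)) := by
      rw [subst_sub]; simp [subst]
    rw [e]
    refine (norm_subst_le v u hτ _).trans_lt ?_
    rw [Metric.mem_ball, dist_eq_norm, lt_div_iff₀ hK] at hy
    linarith
  set d := z - z' with hd
  have hi : ∀ y, IntervalIntegrable (fun τ => H (subst v u τ y)) MeasureTheory.volume (-1) 1 :=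
    fun y => (hH.comp (by unfold subst; fun_prop)).intervalIntegrable _ _
  have hiD : IntervalIntegrable (fun τ => D (subst v u τ d)) MeasureTheory.volume (-1) 1 :=
    (D.continuous.comp (by unfold subst; fun_prop)).intervalIntegrable _ _
  have hlin : ∫ τ in (-1 : ℝ)..1, D (subst v u τ d) = (2 : ℝ) • D (d.1, d.2.2.2) := by
    have e : (fun τ => D (subst v u τ d)) =
        fun τ => D (d.1, d.2.2.2) + τ • D (d.2.1 • v + d.2.2.1 • u, 0) := by
      funext τ
      rw [← map_smul, ← map_add]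
      simp [subst]
    rw [e, intervalIntegral.integral_add (f := fun _ => D (d.1, d.2.2.2))
      (g := fun τ : ℝ => τ • D (d.2.1 • v + d.2.2.1 • u, 0)) intervalIntegrable_const
      ((continuous_id.smul continuous_const).intervalIntegrable _ _),
      intervalIntegral.integral_const, intervalIntegral.integral_smul_const, integral_id]
    norm_num
  have key : divDiff H v u z - divDiff H v u z' - (2 : ℝ) • D (d.1, d.2.2.2) =
      ∫ τ in (-1 : ℝ)..1, (H (subst v u τ z) - H (subst v u τ z') - D (subst v u τ d)) := by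
    rw [intervalIntegral.integral_sub ((hi z).sub (hi z')) hiD,
      intervalIntegral.integral_sub (hi z) (hi z'), hlin]
    rfl
  have hbound : ∀ τ ∈ Set.uIoc (-1 : ℝ) 1,
      ‖H (subst v u τ z) - H (subst v u τ z') - D (subst v u τ d)‖ ≤ c / (2 * K) * (K * ‖d‖) := by
    intro τ hτ
    rw [Set.uIoc_of_le (by norm_num : (-1 : ℝ) ≤ 1)] at hτ
    have hτ' : |τ| ≤ 1 := abs_le.2 ⟨hτ.1.le, hτ.2⟩
    have h1 := hab (hin z hz τ hτ').1 (hin z' hz' τ hτ').2
    simp only [← subst_sub] at h1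
    exact h1.trans (mul_le_mul_of_nonneg_left (norm_subst_le v u hτ' _) (by positivity))
  show ‖divDiff H v u z - divDiff H v u z' - (2 : ℝ) • D (d.1, d.2.2.2)‖ ≤ c * ‖d‖
  rw [key]
  refine (intervalIntegral.norm_integral_le_of_norm_le_const hbound).trans (le_of_eq ?_)
  rw [show |(1 : ℝ) - -1| = 2 by norm_num]
  field_simp

/-- The reparametrisation `(m, r, s) ↦ (m, r, r s, s)`. -/
def blow (z : E2 × ℝ × ℝ) : E2 × ℝ × ℝ × ℝ := (z.1, z.2.1, z.2.1 * z.2.2, z.2.2)

theorem blow_hasStrictFDerivAt (x : E2) :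
    HasStrictFDerivAt blow
      ((ContinuousLinearMap.fst ℝ E2 (ℝ × ℝ)).prod
        (((ContinuousLinearMap.fst ℝ ℝ ℝ).comp (ContinuousLinearMap.snd ℝ E2 (ℝ × ℝ))).prod
          ((0 : E2 × ℝ × ℝ →L[ℝ] ℝ).prod
            ((ContinuousLinearMap.snd ℝ ℝ ℝ).comp (ContinuousLinearMap.snd ℝ E2 (ℝ × ℝ))))))
      (x, 0, 0) := by
  have hr : HasStrictFDerivAt (fun z : E2 × ℝ × ℝ => z.2.1)
      ((ContinuousLinearMap.fst ℝ ℝ ℝ).comp (ContinuousLinearMap.snd ℝ E2 (ℝ × ℝ))) (x, 0, 0) :=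
    ((ContinuousLinearMap.fst ℝ ℝ ℝ).comp (ContinuousLinearMap.snd ℝ E2 (ℝ × ℝ))).hasStrictFDerivAt
  have hs : HasStrictFDerivAt (fun z : E2 × ℝ × ℝ => z.2.2)
      ((ContinuousLinearMap.snd ℝ ℝ ℝ).comp (ContinuousLinearMap.snd ℝ E2 (ℝ × ℝ))) (x, 0, 0) :=
    ((ContinuousLinearMap.snd ℝ ℝ ℝ).comp (ContinuousLinearMap.snd ℝ E2 (ℝ × ℝ))).hasStrictFDerivAt
  have hq : HasStrictFDerivAt (fun z : E2 × ℝ × ℝ => z.2.1 * z.2.2)
      (0 : E2 × ℝ × ℝ →L[ℝ] ℝ) (x, 0, 0) :=
    (hr.fun_mul hs).congr_fderiv (ContinuousLinearMap.ext fun d => by simp)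
  exact hasStrictFDerivAt_fst.prodMk (hr.prodMk (hq.prodMk hs))

/-- The divided difference of the slope is the difference quotient. -/
theorem slope_ftc {F : E2 → R4} (hF : ContDiff ℝ ∞ F) (v u m : E2) (r s : ℝ) :
    pr3L (F (m + r • (v + s • u))) - pr3L (F (m - r • (v + s • u))) =
      r • divDiff (slope F v u) v u (blow (m, r, s)) := by
  let w := r • (v + s • u)
  have hd : ∀ τ : ℝ, HasDerivAt (fun τ : ℝ => pr3L (F (m + τ • w)))
      (r • slope F v u (subst v u τ (blow (m, r, s)))) τ := by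
    intro τ
    have hl : HasDerivAt (fun τ : ℝ => m + τ • w) w τ := by
      simpa using ((hasDerivAt_id τ).smul_const w).const_add m
    have h1 : HasFDerivAt (pr3L ∘ F) (pr3L.comp (fderiv ℝ F (m + τ • w))) (m + τ • w) :=
      pr3L.hasFDerivAt.comp _ (hF.differentiable infty_ne_zero _).hasFDerivAt
    have h := HasFDerivAt.comp_hasDerivAt (f := fun τ : ℝ => m + τ • w) τ h1 hl
    refine h.congr_deriv ?_
    have e1 : (blow (m, r, s)).2.1 • v + (blow (m, r, s)).2.2.1 • u = w := by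
      simp only [blow, w]; rw [smul_add, smul_smul]
    simp only [subst, e1, slope]
    simp only [blow, w, map_smul, map_add, smul_add, smul_smul, ContinuousLinearMap.comp_apply]
  have hcont : Continuous fun τ => r • slope F v u (subst v u τ (blow (m, r, s))) :=
    ((slope_contDiff hF v u).continuous.comp (by unfold subst; fun_prop)).const_smul r
  have := intervalIntegral.integral_eq_sub_of_hasDerivAt (a := -1) (b := 1) (fun τ _ => hd τ)
    (hcont.intervalIntegrable _ _)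
  rw [intervalIntegral.integral_smul] at this
  simp only [neg_smul, one_smul] at this
  rw [sub_eq_add_neg m, ← this]
  rfl

theorem divDiff_flip (H : E2 × ℝ → Fin 3 → ℝ) (v u m : E2) (r s : ℝ) :
    divDiff H v u (blow (m, -r, s)) = divDiff H v u (blow (m, r, s)) := by
  simp only [divDiff]
  have e1 : ∀ τ, subst v u τ (blow (m, -r, s)) = subst v u (-τ) (blow (m, r, s)) := fun τ => by
    refine Prod.ext ?_ rfl
    simp only [subst, blow]; simp [neg_mul, smul_add, smul_smul]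
  simp only [e1]
  rw [intervalIntegral.integral_comp_neg (fun τ => H (subst v u τ (blow (m, r, s))))]
  simp

/-- A short chord is almost in the kernel direction. -/
theorem chord_bound {η a ρ V U r q nd : ℝ} (hη : 0 ≤ η) (ha : 0 < a) (hρ : 0 < ρ) (hV : 0 ≤ V)
    (hUb : η * U ≤ a / 2) (hVb : η * (4 * V) < ρ * a) (hnd : nd ≤ |r| * V + |q| * U)
    (h : 2 * |q| * a ≤ η * (2 * nd)) : (r = 0 → q = 0) ∧ (r ≠ 0 → |q / r| < ρ) := by
  have h2 : |q| * (η * U) ≤ |q| * (a / 2) := mul_le_mul_of_nonneg_left hUb (abs_nonneg q)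
  have h3 : η * nd ≤ η * (|r| * V + |q| * U) := mul_le_mul_of_nonneg_left hnd hη
  have hq : |q| * (a / 2) ≤ η * V * |r| := by nlinarith
  refine ⟨fun hr => ?_, fun hr => ?_⟩
  · rw [hr, abs_zero, mul_zero] at hq
    exact abs_eq_zero.1 (by nlinarith [abs_nonneg q])
  · rw [abs_div, div_lt_iff₀ (abs_pos.2 hr)]
    nlinarith [abs_pos.2 hr, mul_pos hρ (abs_pos.2 hr)]

variable {M : Type*} [TopologicalSpace M] [T2Space M] [CompactSpace M] [ChartedSpace E2 M]
  [IsManifold (𝓡 2) ∞ M] (G : Gen M)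

/-- The double set with its endpoints. -/
def Gen.curve : Set (M × M) :=
  {w | G.phi w.1 = G.phi w.2 ∧ (w.1 ≠ w.2 ∨ w.1 ∈ G.sing)}

omit [T2Space M] [CompactSpace M] [IsManifold (𝓡 2) ∞ M] in
theorem Gen.mem_curve_iff {w : M × M} :
    w ∈ G.curve ↔ w ∈ G.double ∨ (w.1 = w.2 ∧ w.1 ∈ G.sing) := by
  constructor
  · rintro ⟨h, h'⟩
    by_cases hw : w.1 = w.2
    · exact Or.inr ⟨hw, h'.resolve_left (fun hn => hn hw)⟩
    · exact Or.inl ⟨hw, h⟩
  · rintro (⟨hn, h⟩ | ⟨he, hs⟩)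
    · exact ⟨h, Or.inl hn⟩
    · exact ⟨by rw [he], Or.inr hs⟩

/-- A piece of the double curve through an endpoint. -/
structure Gen.EndArc (p : M) where
  ε : ℝ
  ε_pos : 0 < ε
  γ : ℝ → M × M
  cont : ContinuousOn γ (Icc (-ε) ε)
  inj : InjOn γ (Icc (-ε) ε)
  start : γ 0 = (p, p)
  mem : ∀ t ∈ Icc (-ε) ε, γ t ∈ G.curve
  symm : ∀ t ∈ Icc (-ε) ε, γ (-t) = (γ t).swap
  img : ∃ W : Set (M × M), IsOpen W ∧ γ '' Ioo (-ε) ε = W ∩ G.curve
  nonconst : ∀ η : ℝ, 0 < η → ∃ t ∈ Ioo 0 η, G.phi (γ t).1 ≠ G.phi p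

omit [CompactSpace M] [IsManifold (𝓡 2) ∞ M] in
/-- A double curve ends at every singular point. -/
theorem Gen.exists_endArc {p : M} (hp : p ∈ G.sing) : Nonempty (G.EndArc p) := by
  classical
  obtain ⟨i, x0, w0, rfl, hw0ne, hw0⟩ := hp
  obtain ⟨s0, t0, c0, hc0, rfl⟩ := exists_dir hw0ne
  have hp' : G.ψ i x0 ∈ G.sing := ⟨i, x0, _, rfl, hw0ne, hw0⟩
  have h0 : pr3 (fderiv ℝ (G.F i) x0 (dir s0 t0)) = 0 := by
    rw [← pr3L_apply, map_smul, map_smul, smul_eq_zero] at hw0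
    exact hw0.resolve_left hc0
  obtain ⟨θ₁, θ₂, h1v, h1u, h2v, h2u⟩ := exists_dual s0 t0
  set v := dir s0 t0 with hv
  set u := ev (s0 + 1) with hu
  have hcoord : ∀ d : E2, d = θ₁ d • v + θ₂ d • u := by
    intro d
    obtain ⟨a, b, e⟩ := exists_coords s0 t0 d
    have ha : θ₁ d = a := by rw [e, map_add, map_smul, map_smul, h1v, h1u]; simp
    have hb : θ₂ d = b := by rw [e, map_add, map_smul, map_smul, h2v, h2u]; simp
    rw [ha, hb]; exact e
  have hFs := G.F_smooth i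
  let H := slope (G.F i) v u
  let D := fderiv ℝ H (x0, 0)
  let Q := divDiff H v u
  let g : E2 × ℝ × ℝ → (Fin 3 → ℝ) × ℝ := fun z => (Q (blow z), z.2.1)
  have hQ := divDiff_hasStrictFDerivAt (slope_contDiff hFs v u).continuous
    ((slope_contDiff hFs v u).contDiffAt.hasStrictFDerivAt infty_ne_zero :
      HasStrictFDerivAt H D (x0, 0)) v u
  have hR0 : blow (x0, 0, 0) = (x0, 0, 0, 0) := by simp [blow]
  have hgs : HasStrictFDerivAt g _ (x0, 0, 0) := (HasStrictFDerivAt.comp (x0, 0, 0)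
    (show HasStrictFDerivAt Q _ (blow (x0, 0, 0)) from hR0.symm ▸ hQ)
    (blow_hasStrictFDerivAt x0)).prodMk
    ((ContinuousLinearMap.fst ℝ ℝ ℝ).comp
      (ContinuousLinearMap.snd ℝ E2 (ℝ × ℝ))).hasStrictFDerivAt
  let L : E2 × ℝ × ℝ →L[ℝ] (Fin 3 → ℝ) × ℝ :=
    ((2 : ℝ) • D.comp ((ContinuousLinearMap.fst ℝ E2 (ℝ × ℝ)).prod
        ((ContinuousLinearMap.snd ℝ ℝ ℝ).comp (ContinuousLinearMap.snd ℝ E2 (ℝ × ℝ))))).prod
      ((ContinuousLinearMap.fst ℝ ℝ ℝ).comp (ContinuousLinearMap.snd ℝ E2 (ℝ × ℝ)))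
  have hL : Injective L := (injective_iff_map_eq_zero _).2 fun d hd => by
    obtain ⟨hd1, hd2⟩ : (2 : ℝ) • D (d.1, d.2.2) = 0 ∧ d.2.1 = 0 := Prod.mk_eq_zero.1 hd
    have hD0 : D (d.1, d.2.2) = 0 := (smul_eq_zero.1 hd1).resolve_left two_ne_zero
    rw [slope_fderiv hFs] at hD0
    obtain ⟨a1, a2⟩ := G.umb_inj h0 hD0
    exact Prod.ext a1 (Prod.ext hd2 a2)
  let Le : (E2 × ℝ × ℝ) ≃L[ℝ] (Fin 3 → ℝ) × ℝ :=
    (LinearMap.linearEquivOfInjective L.toLinearMap hL (by simp)).toContinuousLinearEquiv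
  have hge : HasStrictFDerivAt g (Le : E2 × ℝ × ℝ →L[ℝ] (Fin 3 → ℝ) × ℝ) (x0, 0, 0) := by
    refine hgs.congr_fderiv (ContinuousLinearMap.ext fun d => ?_)
    show _ = LinearMap.linearEquivOfInjective L.toLinearMap hL (by simp) d
    rw [LinearMap.linearEquivOfInjective_apply]
    simp [L, H, D]
  let e := hge.toOpenPartialHomeomorph g
  have hsrc : (x0, (0 : ℝ), (0 : ℝ)) ∈ e.source := hge.mem_toOpenPartialHomeomorph_source
  obtain ⟨ρ, hρ, hρball⟩ := Metric.isOpen_iff.1 e.open_source _ hsrc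
  have hftc : ∀ (m : E2) (r s : ℝ),
      G.phi (G.ψ i (m + r • (v + s • u))) - G.phi (G.ψ i (m - r • (v + s • u)))
        = r • Q (blow (m, r, s)) := slope_ftc hFs v u
  -- constants
  have hA0 : pr3 (fderiv ℝ (G.F i) x0 u) ≠ 0 := fun hu0 => by
    have := (G.umb_inj h0 (dm := 0) (c := 1) (by
      rw [hu0, smul_zero, add_zero, d2, map_zero]; exact map_zero pr3L)).2
    exact one_ne_zero this
  set a := ‖pr3 (fderiv ℝ (G.F i) x0 u)‖ with hadef
  have ha : 0 < a := norm_pos_iff.2 hA0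
  let η : ℝ := min (a / (2 * (‖u‖ + 1))) (ρ * a / (4 * (‖v‖ + 1)))
  have hη : 0 < η := lt_min (by positivity) (by positivity)
  obtain ⟨Ua, hUa, happ⟩ := (G.phi_hasFDerivAt i x0).approximates_deriv_on_nhds
    (c := ⟨η, hη.le⟩) (Or.inr hη)
  obtain ⟨O, hO, hpO, hOs⟩ := G.sing_isolated hp'
  have hnear : ∀ᶠ z in 𝓝 x0, z ∈ Ua ∧ G.ψ i z ∈ O ∧ ‖z - x0‖ < ρ / (‖θ₁‖ + 1) := by
    refine (show ∀ᶠ z in 𝓝 x0, z ∈ Ua from hUa).and
      (((hO.preimage (G.ψ i).continuous).eventually_mem hpO).and ?_)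
    exact ((continuous_id.sub continuous_const).norm.continuousAt).eventually_lt_const
      (by simp; positivity)
  obtain ⟨ρ1, hρ1, hB⟩ := Metric.eventually_nhds_iff.1 hnear
  set B := Metric.ball x0 ρ1 with hBdef
  have hBin : ∀ z ∈ B, z ∈ Ua ∧ G.ψ i z ∈ O ∧ ‖z - x0‖ < ρ / (‖θ₁‖ + 1) := fun z hz => hB hz
  have hρle : ρ / (‖θ₁‖ + 1) ≤ ρ := div_le_self hρ.le (by linarith [norm_nonneg θ₁])
  -- the branch
  have hg0 : g (x0, 0, 0) = (0, 0) := by
    refine Prod.ext ?_ rfl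
    have hH0 : H (x0, 0) = 0 := by simp [H, slope, h0]
    show Q (blow (x0, 0, 0)) = 0
    simp [Q, blow, divDiff, subst, hH0]
  let c : ℝ → E2 × ℝ × ℝ := fun t => e.symm (0, t)
  have hline : Continuous fun t : ℝ => ((0 : Fin 3 → ℝ), t) :=
    continuous_const.prodMk continuous_id
  have htgt : ((0 : Fin 3 → ℝ), (0 : ℝ)) ∈ e.target := hg0 ▸ e.map_source hsrc
  have hc00 : c 0 = (x0, 0, 0) := by
    show e.symm (0, 0) = _
    rw [← hg0]; exact e.left_inv hsrc
  have hcc : ContinuousAt c 0 :=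
    ContinuousAt.comp (g := e.symm) (e.continuousAt_symm htgt) hline.continuousAt
  let xp : ℝ → E2 := fun t => (c t).1 + t • (v + (c t).2.2 • u)
  let xm : ℝ → E2 := fun t => (c t).1 - t • (v + (c t).2.2 • u)
  have hev : ∀ᶠ t in 𝓝 (0 : ℝ), ((0 : Fin 3 → ℝ), t) ∈ e.target ∧
      c t ∈ Metric.ball (x0, (0 : ℝ), (0 : ℝ)) ρ ∧ xp t ∈ B ∧ xm t ∈ B := by
    have h1 : ContinuousAt xp 0 := hcc.fst.add (continuousAt_id.smul
      (continuousAt_const.add (hcc.snd.snd.smul continuousAt_const)))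
    have h2 : ContinuousAt xm 0 := hcc.fst.sub (continuousAt_id.smul
      (continuousAt_const.add (hcc.snd.snd.smul continuousAt_const)))
    refine (hline.continuousAt.eventually (e.open_target.mem_nhds htgt)).and
      ((hcc.eventually (Metric.isOpen_ball.eventually_mem (by simp [hc00, hρ]))).and
        ((h1.eventually (Metric.isOpen_ball.eventually_mem ?_)).and
          (h2.eventually (Metric.isOpen_ball.eventually_mem ?_))))
    · simp [xp, hc00, hρ1]
    · simp [xm, hc00, hρ1]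
  obtain ⟨ε2, hε2, hball⟩ := Metric.eventually_nhds_iff.1 hev
  set ε := ε2 / 2 with hεdef
  have hI : ∀ t ∈ Icc (-ε) ε, _ := fun t ht => hball (show dist t 0 < ε2 by
    rw [Real.dist_eq, sub_zero, abs_lt]; constructor <;> linarith [ht.1, ht.2])
  have hprop : ∀ t ∈ Icc (-ε) ε, Q (blow (c t)) = 0 ∧ (c t).2.1 = t := fun t ht =>
    Prod.ext_iff.1 (e.right_inv (hI t ht).1)
  have hsub : ∀ t, θ₁ ((2⁻¹ : ℝ) • (xp t - xm t)) = t := fun t => by
    simp [xp, xm, map_smul, map_sub, map_add, h1v, h1u]; ring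
  let γ : ℝ → M × M := fun t => (G.ψ i (xp t), G.ψ i (xm t))
  have heqφ : ∀ t ∈ Icc (-ε) ε, G.phi (γ t).1 = G.phi (γ t).2 := by
    intro t ht
    have h := hftc (c t).1 t (c t).2.2
    have e1 : ((c t).1, t, (c t).2.2) = c t := by
      conv_rhs => rw [← Prod.mk.eta (p := c t), ← Prod.mk.eta (p := (c t).2), (hprop t ht).2]
    rw [e1, (hprop t ht).1, smul_zero, sub_eq_zero] at h
    exact h
  have hmem : ∀ t ∈ Icc (-ε) ε, γ t ∈ G.curve := by
    intro t ht
    refine ⟨heqφ t ht, ?_⟩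
    rcases eq_or_ne t 0 with rfl | ht0
    · exact Or.inr (by simpa [γ, xp, hc00] using hp')
    · refine Or.inl fun h => ht0 ?_
      have := hsub t
      rw [(G.ψ i).injective h, sub_self, smul_zero, map_zero] at this
      exact this.symm
  have hinj : InjOn γ (Icc (-ε) ε) := fun t _ t' _ h => by
    obtain ⟨h1, h2⟩ := Prod.ext_iff.1 h
    rw [← hsub t, ← hsub t', (G.ψ i).injective h1, (G.ψ i).injective h2]
  have hεpos : 0 < ε := by positivity
  refine ⟨{
    ε := ε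
    ε_pos := hεpos
    γ := γ
    cont := fun t ht => ?_
    inj := hinj
    start := by simp [γ, xp, xm, hc00]
    mem := hmem
    symm := fun t ht => ?_
    img := ?_
    nonconst := fun ζ hζ => ?_ }⟩
  · have h : ContinuousAt c t :=
      ContinuousAt.comp (g := e.symm) (e.continuousAt_symm (hI t ht).1) hline.continuousAt
    have h1 : ContinuousAt xp t := h.fst.add (continuousAt_id.smul
      (continuousAt_const.add (h.snd.snd.smul continuousAt_const)))
    have h2 : ContinuousAt xm t := h.fst.sub (continuousAt_id.smul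
      (continuousAt_const.add (h.snd.snd.smul continuousAt_const)))
    exact (((G.ψ i).continuous.continuousAt.comp h1).prodMk
      ((G.ψ i).continuous.continuousAt.comp h2)).continuousWithinAt
  · have ht' : -t ∈ Icc (-ε) ε := ⟨by linarith [ht.2], by linarith [ht.1]⟩
    let z : E2 × ℝ × ℝ := ((c t).1, -t, (c t).2.2)
    have hz : z ∈ Metric.ball (x0, (0 : ℝ), (0 : ℝ)) ρ := by
      have := (hI t ht).2.1
      rw [Metric.mem_ball, Prod.dist_eq, max_lt_iff, Prod.dist_eq, max_lt_iff] at this ⊢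
      refine ⟨this.1, ?_, this.2.2⟩
      simpa [z, Real.dist_eq, (hprop t ht).2] using this.2.1
    have hgz : g z = (0, -t) := by
      refine Prod.ext ?_ rfl
      show Q (blow ((c t).1, -t, (c t).2.2)) = 0
      rw [show Q = divDiff H v u from rfl, divDiff_flip]
      have e1 : ((c t).1, t, (c t).2.2) = c t := by
        conv_rhs => rw [← Prod.mk.eta (p := c t), ← Prod.mk.eta (p := (c t).2), (hprop t ht).2]
      rw [e1]; exact (hprop t ht).1
    have hcz : c (-t) = z := by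
      show e.symm (0, -t) = z
      rw [← hgz]; exact e.left_inv (hρball hz)
    simp only [γ, xp, xm, hcz, z, Prod.swap_prod_mk, neg_smul, sub_neg_eq_add, ← sub_eq_add_neg]
  · let Wp : Set (E2 × E2) := B ×ˢ B ∩ {d | |θ₁ ((2⁻¹ : ℝ) • (d.1 - d.2))| < ε}
    refine ⟨Prod.map (G.ψ i).toFun (G.ψ i).toFun '' Wp,
      ((G.ψ i).open_emb.isOpenMap.prodMap (G.ψ i).open_emb.isOpenMap) _
        ((Metric.isOpen_ball.prod Metric.isOpen_ball).inter
          (isOpen_lt (f := fun d : E2 × E2 => |θ₁ ((2⁻¹ : ℝ) • (d.1 - d.2))|)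
            (θ₁.continuous.comp ((continuous_fst.sub continuous_snd).const_smul (2⁻¹ : ℝ))).abs
            continuous_const)), ?_⟩
    ext w
    constructor
    · rintro ⟨t, ht, rfl⟩
      have ht' := Ioo_subset_Icc_self ht
      refine ⟨⟨(xp t, xm t), ⟨⟨(hI t ht').2.2.1, (hI t ht').2.2.2⟩, ?_⟩, rfl⟩, hmem t ht'⟩
      show |θ₁ ((2⁻¹ : ℝ) • (xp t - xm t))| < ε
      rw [hsub]; exact abs_lt.2 ht
    · rintro ⟨⟨⟨A, A'⟩, ⟨⟨hA, hA'⟩, hr⟩, rfl⟩, hφ, hne⟩
      simp only [Prod.map_apply] at hφ hne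
      set d := (2⁻¹ : ℝ) • (A - A') with hd
      set r := θ₁ d with hrdef
      set q := θ₂ d with hqdef
      refine ⟨r, abs_lt.1 hr, ?_⟩
      rcases eq_or_ne A A' with rfl | hAA
      · have hs : G.ψ i A ∈ G.sing := hne.resolve_left (fun h => h rfl)
        have hAx : A = x0 := (G.ψ i).injective (by
          have : G.ψ i A ∈ O ∩ G.sing := ⟨(hBin A hA).2.1, hs⟩
          rw [hOs] at this; exact this)
        have hr0 : r = 0 := by simp [hrdef, hd]
        simp [γ, xp, xm, hr0, hc00, hAx]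
      -- the direction is close to the kernel
      have happr : ‖G.phi (G.ψ i A) - G.phi (G.ψ i A') -
          pr3L (fderiv ℝ (G.F i) x0 (A - A'))‖ ≤ η * ‖A - A'‖ :=
        happ A (hBin A hA).1 A' (hBin A' hA').1
      have hdd : A - A' = (2 : ℝ) • d := by simp [hd, smul_smul]
      have hdc : d = r • v + q • u := hcoord d
      have hLd : pr3L (fderiv ℝ (G.F i) x0 (A - A')) = (2 * q) • pr3 (fderiv ℝ (G.F i) x0 u) := by
        rw [hdd, hdc]
        simp only [map_smul, map_add, pr3L_apply, h0, smul_zero, zero_add, smul_smul]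
      rw [hφ, sub_self, zero_sub, norm_neg, hLd, norm_smul, Real.norm_eq_abs, ← hadef,
        hdd, norm_smul, Real.norm_eq_abs, abs_two, abs_mul, abs_two] at happr
      have hdn : ‖d‖ ≤ |r| * ‖v‖ + |q| * ‖u‖ := by
        rw [hdc]; refine (norm_add_le _ _).trans ?_; simp [norm_smul]
      have hηu : η * ‖u‖ ≤ a / 2 := by
        have := min_le_left (a / (2 * (‖u‖ + 1))) (ρ * a / (4 * (‖v‖ + 1)))
        rw [le_div_iff₀ (by positivity)] at this
        nlinarith [norm_nonneg u, hη]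
      have hηv : η * (4 * ‖v‖) < ρ * a := by
        have := min_le_right (a / (2 * (‖u‖ + 1))) (ρ * a / (4 * (‖v‖ + 1)))
        rw [le_div_iff₀ (by positivity)] at this
        nlinarith [norm_nonneg v, hη]
      have hcb := chord_bound hη.le ha hρ (norm_nonneg v) hηu hηv hdn happr
      have hr0 : r ≠ 0 := by
        intro hr0
        have hq0 : q = 0 := hcb.1 hr0
        refine hAA (sub_eq_zero.1 ?_)
        rw [hdd, hdc, hr0, hq0]; simp
      set s := q / r with hsdef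
      set m := (2⁻¹ : ℝ) • (A + A') with hm
      have hz : (m, r, s) ∈ Metric.ball (x0, (0 : ℝ), (0 : ℝ)) ρ := by
        rw [Metric.mem_ball, Prod.dist_eq, max_lt_iff, Prod.dist_eq, max_lt_iff]
        have hA1 := (hBin A hA).2.2
        have hA2 := (hBin A' hA').2.2
        refine ⟨?_, ?_, ?_⟩
        · rw [dist_eq_norm, show m - x0 = (2⁻¹ : ℝ) • ((A - x0) + (A' - x0)) by rw [hm]; module,
            norm_smul]
          norm_num
          linarith [norm_add_le (A - x0) (A' - x0)]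
        · rw [Real.dist_eq, sub_zero, hrdef]
          refine (θ₁.le_opNorm d).trans_lt ?_
          have hdle : ‖d‖ < ρ / (‖θ₁‖ + 1) := by
            have h := norm_sub_le (A - x0) (A' - x0)
            rw [show A - x0 - (A' - x0) = A - A' by abel] at h
            rw [hd, norm_smul]
            norm_num
            linarith
          rw [lt_div_iff₀ (by positivity)] at hdle
          nlinarith [norm_nonneg d]
        · rw [Real.dist_eq, sub_zero, hsdef]
          exact hcb.2 hr0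
      have hA_eq : A = m + r • (v + s • u) := by
        rw [smul_add, smul_smul, hsdef, mul_div_cancel₀ _ hr0, ← hdc, hm, hd]; module
      have hA'_eq : A' = m - r • (v + s • u) := by
        rw [smul_add, smul_smul, hsdef, mul_div_cancel₀ _ hr0, ← hdc, hm, hd]; module
      have hgz : g (m, r, s) = (0, r) := by
        refine Prod.ext ?_ rfl
        have h := hftc m r s
        rw [← hA_eq, ← hA'_eq, hφ, sub_self] at h
        exact (smul_eq_zero.1 h.symm).resolve_left hr0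
      have hcr : c r = (m, r, s) := by
        show e.symm (0, r) = _
        rw [← hgz]; exact e.left_inv (hρball hz)
      simp only [γ, xp, xm, hcr]
      rw [← hA_eq, ← hA'_eq]; rfl
  · by_contra! hall
    set t1 := min ζ ε / 2 with ht1
    have ht1pos : 0 < t1 := by positivity
    have ht1I : t1 ∈ Icc (-ε) ε := ⟨by linarith, by linarith [min_le_right ζ ε]⟩
    have hd : γ t1 ∈ G.double := by
      refine ⟨fun h => ?_, heqφ t1 ht1I⟩
      have := hsub t1
      rw [(G.ψ i).injective h, sub_self, smul_zero, map_zero] at this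
      linarith
    obtain ⟨O1, hO1, hm1, hi1, -⟩ := G.injOn_of_not_sing (G.not_sing_left hd)
    obtain ⟨O2, hO2, hm2, hi2, -⟩ := G.injOn_of_not_sing (G.not_sing_right hd)
    have hct : ContinuousAt γ t1 := by
      have h : ContinuousAt c t1 :=
        ContinuousAt.comp (g := e.symm) (e.continuousAt_symm (hI t1 ht1I).1) hline.continuousAt
      exact ((G.ψ i).continuous.continuousAt.comp (h.fst.add (continuousAt_id.smul
        (continuousAt_const.add (h.snd.snd.smul continuousAt_const))))).prodMk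
        ((G.ψ i).continuous.continuousAt.comp (h.fst.sub (continuousAt_id.smul
        (continuousAt_const.add (h.snd.snd.smul continuousAt_const)))))
    have hw1 : ∀ᶠ t in 𝓝 t1, (γ t).1 ∈ O1 ∧ (γ t).2 ∈ O2 ∧ t ∈ Ioo 0 (min ζ ε) :=
      (hct.fst.eventually (hO1.eventually_mem hm1)).and ((hct.snd.eventually
        (hO2.eventually_mem hm2)).and (Ioo_mem_nhds ht1pos
          (by rw [ht1]; exact half_lt_self (lt_min hζ hεpos))))
    obtain ⟨t, ⟨a1, a2, a3⟩, hne⟩ := ((hw1.filter_mono nhdsWithin_le_nhds).and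
      (self_mem_nhdsWithin : ∀ᶠ t in 𝓝[≠] t1, t ≠ t1)).exists
    have htI : t ∈ Icc (-ε) ε := ⟨by linarith [a3.1], by linarith [a3.2, min_le_right ζ ε]⟩
    have e1 : G.phi (γ t).1 = G.phi (γ t1).1 :=
      (hall t ⟨a3.1, a3.2.trans_le (min_le_left _ _)⟩).trans
        (hall t1 ⟨ht1pos, by linarith [min_le_left ζ ε]⟩).symm
    have e2 : G.phi (γ t).2 = G.phi (γ t1).2 := by
      rw [← heqφ t htI, ← heqφ t1 ht1I]; exact e1
    exact hne (hinj htI ht1I (Prod.ext (hi1 a1 hm1 e1) (hi2 a2 hm2 e2)))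

end Vale.Agent.P205F.Top
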