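import Vale.Agent.P205F.Top.Level
import Vale.Agent.P205F.Top.Height
import Vale.Agent.P205F.Top.Umbrella

/-!
# P205, immersions with a normal field: an even number of singular points in every component
-/

namespace Vale.Agent.P205F.Top

open MeasureTheory Set Filter Function Topology
open scoped Manifold ContDiff RealInnerProductSpace

variable {M : Type*} [TopologicalSpace M] [T2Space M] [CompactSpace M] [ChartedSpace E2 M]
  [IsManifold (𝓡 2) ∞ M] (G : Gen M)

/-- A map into a subset. -/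
noncomputable def into {X : Type*} {S : Set X} (z : S) (γ : ℝ → X) : ℝ → S :=
  haveI := Classical.decPred (· ∈ S)
  fun t => if h : γ t ∈ S then ⟨γ t, h⟩ else z

theorem into_val {X : Type*} {S : Set X} (z : S) {γ : ℝ → X} {t : ℝ} (h : γ t ∈ S) :
    (into z γ t : X) = γ t := by simp [into, h]

theorem into_props {X : Type*} [TopologicalSpace X] {S : Set X} (z : S) {γ : ℝ → X}
    (hm : ∀ t ∈ Icc (-1 : ℝ) 1, γ t ∈ S) (hc : ContinuousOn γ (Icc (-1) 1))
    (hi : InjOn γ (Icc (-1) 1)) {W : Set X} (hW : IsOpen W) (h : γ '' Ioo (-1) 1 = W ∩ S) :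
    ContinuousOn (into z γ) (Icc (-1) 1) ∧ InjOn (into z γ) (Icc (-1) 1) ∧
      IsOpen (into z γ '' Ioo (-1) 1) := by
  refine ⟨?_, fun t ht u hu e => hi ht hu ?_, ?_⟩
  · rw [Topology.IsInducing.subtypeVal.continuousOn_iff]
    exact hc.congr fun t ht => into_val z (hm t ht)
  · rw [← into_val z (hm t ht), e, into_val z (hm u hu)]
  · have e : into z γ '' Ioo (-1) 1 = Subtype.val ⁻¹' W := by
      ext x
      constructor
      · rintro ⟨t, ht, rfl⟩
        have : γ t ∈ W ∩ S := h ▸ ⟨t, ht, rfl⟩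
        rw [mem_preimage, into_val z (hm t (Ioo_subset_Icc_self ht))]
        exact this.1
      · intro hx
        have : (x : X) ∈ γ '' Ioo (-1) 1 := h ▸ ⟨hx, x.2⟩
        obtain ⟨t, ht, htx⟩ := this
        exact ⟨t, ht, Subtype.ext ((into_val z (hm t (Ioo_subset_Icc_self ht))).trans htx)⟩
    rw [e]
    exact hW.preimage continuous_subtype_val

theorem null_hyperplane [MeasurableSpace (Fin 3 → ℝ)] [BorelSpace (Fin 3 → ℝ)]
    (μ : Measure (Fin 3 → ℝ)) [μ.IsAddHaarMeasure] {d : Fin 3 → ℝ} (hd : d ≠ 0) :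
    μ {a | ∑ k, a k * d k = 0} = 0 := by
  let ℓ : (Fin 3 → ℝ) →ₗ[ℝ] ℝ := ∑ k, d k • LinearMap.proj k
  have he : {a : Fin 3 → ℝ | ∑ k, a k * d k = 0} = (LinearMap.ker ℓ : Set (Fin 3 → ℝ)) := by
    ext a; simp [ℓ, mul_comm]
  rw [he]
  refine Measure.addHaar_submodule μ _ fun h => ?_
  obtain ⟨k, hk⟩ := Function.ne_iff.1 hd
  have : (Pi.single k (1 : ℝ)) ∈ LinearMap.ker ℓ := h ▸ Submodule.mem_top
  simp [ℓ, Pi.single_apply] at this
  exact hk this

omit [T2Space M] [IsManifold (𝓡 2) ∞ M] in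
theorem secondCountable : SecondCountableTopology M :=
  ChartedSpace.secondCountable_of_sigmaCompact E2 M

omit [IsManifold (𝓡 2) ∞ M] in
theorem Gen.isClosed_curve : IsClosed G.curve := by
  rw [← isOpen_compl_iff, isOpen_iff_mem_nhds]
  rintro ⟨p, q⟩ hpq
  by_cases hφ : G.phi p = G.phi q
  · have hpq' : p = q := by
      by_contra h
      exact hpq ⟨hφ, Or.inl h⟩
    subst hpq'
    obtain ⟨O, hO, hpO, hi, hd⟩ := G.injOn_of_not_sing (fun h => hpq ⟨hφ, Or.inr h⟩)
    refine mem_of_superset ((hO.prod hO).mem_nhds ⟨hpO, hpO⟩) ?_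
    rintro ⟨a, b⟩ ⟨ha, hb⟩ ⟨hab, h⟩
    rcases h with h | h
    · exact h (hi ha hb hab)
    · exact Set.disjoint_left.1 hd ha h
  · refine mem_of_superset ((isOpen_ne_fun (G.phi_continuous.comp continuous_fst)
      (G.phi_continuous.comp continuous_snd)).mem_nhds hφ) ?_
    exact fun w hw h => hw h.1

/-- The height of a double point in the direction `a`. -/
noncomputable def Gen.height (a : Fin 3 → ℝ) (w : M × M) : ℝ := ∑ k, a k * G.phi w.1 k

/-- An even number of singular points in every clopen set. -/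
theorem Gen.even_sing {C : Set M} (hC : IsClopen C) : Even (G.sing ∩ C).ncard := by
  classical
  haveI := secondCountable (M := M)
  have hC2 : IsOpen (C ×ˢ C) := hC.isOpen.prod hC.isOpen
  -- arcs of the double curve inside `C × C`
  have harcs : ∀ z : ↥(G.double ∩ C ×ˢ C), ∃ (A : G.Arc z.1) (r : ℝ), 0 < r ∧ r ≤ A.δ ∧
      ∀ t ∈ Ioo (-r) r, (G.ψ A.i (A.c t).1, G.ψ A.j (A.c t).2) ∈ C ×ˢ C := by
    intro z
    obtain ⟨A⟩ := G.exists_arc z.2.1
    have hc : ContinuousAt (fun t => (G.ψ A.i (A.c t).1, G.ψ A.j (A.c t).2)) 0 := by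
      have h := A.cont.continuousAt (isOpen_Ioo.mem_nhds ⟨neg_lt_zero.2 A.δ_pos, A.δ_pos⟩)
      exact ((G.ψ A.i).continuous.continuousAt.comp h.fst).prodMk
        ((G.ψ A.j).continuous.continuousAt.comp h.snd)
    have h1 := hc.eventually (hC2.eventually_mem (show _ ∈ C ×ˢ C by
      dsimp only; rw [A.start]; exact z.2.2))
    obtain ⟨r, hr, hr'⟩ := Metric.eventually_nhds_iff.1 h1
    exact ⟨A, min r A.δ, lt_min hr A.δ_pos, min_le_right _ _, fun t ht => hr' (by
      rw [Real.dist_eq, sub_zero, abs_lt]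
      have := min_le_left r A.δ
      constructor <;> linarith [ht.1, ht.2])⟩
  choose A r hr0 hrδ hrC using harcs
  let γ : ↥(G.double ∩ C ×ˢ C) → ℝ → M × M := fun z t =>
    (G.ψ (A z).i ((A z).c t).1, G.ψ (A z).j ((A z).c t).2)
  have hJ : ∀ z, Ioo (-r z) (r z) ⊆ Ioo (-(A z).δ) (A z).δ := fun z t ht =>
    ⟨by linarith [ht.1, hrδ z], by linarith [ht.2, hrδ z]⟩
  choose W hWo hWe using fun z => (A z).img (Ioo (-r z) (r z)) isOpen_Ioo (hJ z)
  obtain ⟨T, hT, hTU⟩ := TopologicalSpace.isOpen_iUnion_countable W hWo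
  have hcov : ∀ w ∈ G.double ∩ C ×ˢ C, ∃ z ∈ T, ∃ t ∈ Ioo (-r z) (r z), γ z t = w := by
    intro w hw
    have h0 : w ∈ W ⟨w, hw⟩ := by
      have : w ∈ W ⟨w, hw⟩ ∩ G.double := hWe ⟨w, hw⟩ ▸
        ⟨0, ⟨neg_lt_zero.2 (hr0 _), hr0 _⟩, (A ⟨w, hw⟩).start⟩
      exact this.1
    have h1 : w ∈ ⋃ z ∈ T, W z := hTU ▸ mem_iUnion.2 ⟨_, h0⟩
    obtain ⟨z, hz, hwz⟩ := mem_iUnion₂.1 h1
    exact ⟨z, hz, (show w ∈ γ z '' Ioo (-r z) (r z) from (hWe z).symm ▸ ⟨hwz, hw.1⟩)⟩
  -- arcs through the endpoints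
  let U0 : Set M := G.sing ∩ C
  have hU0 : U0.Finite := G.sing_finite.inter_of_left C
  have hends : ∀ p : U0, ∃ (E : G.EndArc p.1) (ε : ℝ), 0 < ε ∧ ε ≤ E.ε ∧
      (∀ t ∈ Icc (-ε) ε, E.γ t ∈ C ×ˢ C) := by
    intro p
    obtain ⟨E⟩ := G.exists_endArc p.2.1
    have hc : ContinuousAt E.γ 0 := E.cont.continuousAt (Icc_mem_nhds (neg_lt_zero.2 E.ε_pos) E.ε_pos)
    have h1 := hc.eventually (hC2.eventually_mem (show _ ∈ C ×ˢ C by rw [E.start]; exact ⟨p.2.2, p.2.2⟩))
    obtain ⟨e, he, he'⟩ := Metric.eventually_nhds_iff.1 h1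
    exact ⟨E, min (e / 2) E.ε, lt_min (half_pos he) E.ε_pos, min_le_right _ _, fun t ht => he' (by
      rw [Real.dist_eq, sub_zero, abs_lt]
      have := min_le_left (e / 2) E.ε
      constructor <;> linarith [ht.1, ht.2])⟩
  choose E ε hε0 hεE hεC using hends
  choose tn htn hdn using fun (p : U0) (n : ℕ) =>
    (E p).nonconst (min (1 / ((n : ℝ) + 1)) (ε p)) (lt_min Nat.one_div_pos_of_nat (hε0 p))
  -- the direction
  let μ : Measure (Fin 3 → ℝ) := Measure.addHaar
  let b : ↥(G.double ∩ C ×ˢ C) → ℝ → Fin 3 → ℝ := fun z =>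
    deriv fun t => G.phi (G.ψ (A z).i ((A z).c t).1)
  haveI : Countable T := hT.to_subtype
  haveI : Finite U0 := hU0.to_subtype
  obtain ⟨a, ha⟩ := exists_not_mem_of_null μ
    (s := Sum.elim
      (fun z : T => {a | ∃ t ∈ Ioo (-r z.1) (r z.1),
        hgt (b z.1) (A z.1).k a t = 0 ∧ deriv (hgt (b z.1) (A z.1).k a) t = 0})
      (fun pn : U0 × ℕ => {a | ∑ k, a k *
        (G.phi ((E pn.1).γ (tn pn.1 pn.2)).1 k - G.phi pn.1.1 k) = 0})) (by
    rintro (z | ⟨p, n⟩)
    · exact null_degenerate μ (fun t ht => (A z.1).vel_diff t (hJ _ ht))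
        fun t ht => (A z.1).vel_ne t (hJ _ ht)
    · exact null_hyperplane μ (d := fun k => G.phi ((E p).γ (tn p n)).1 k - G.phi p.1 k)
        fun h => hdn p n (funext fun k => sub_eq_zero.1 (congrFun h k)))
  -- heights along the arcs
  let l : ↥(G.double ∩ C ×ˢ C) → ℝ → ℝ := fun z t => G.height a (γ z t)
  have hl : ∀ z, ∀ t ∈ Ioo (-r z) (r z),
      HasDerivAt (l z) (b z t (A z).k * hgt (b z) (A z).k a t) t := by
    intro z t ht
    have h := ((A z).path_diff t (hJ z ht)).hasDerivAt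
    have h2 : HasDerivAt (l z) (∑ k, a k * b z t k) t :=
      HasDerivAt.fun_sum fun k _ => ((hasDerivAt_pi.1 h) k).const_mul (a k)
    refine h2.congr_deriv ?_
    rw [hgt, Finset.mul_sum]
    have hk : b z t (A z).k ≠ 0 := (A z).vel_ne t (hJ z ht)
    exact Finset.sum_congr rfl fun k _ => by field_simp
  have hiso : ∀ z ∈ T, ∀ t ∈ Ioo (-r z) (r z), ∀ᶠ s in 𝓝[≠] t, hgt (b z) (A z).k a s ≠ 0 := by
    intro z hz t ht
    have hdh : DifferentiableAt ℝ (hgt (b z) (A z).k a) t := by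
      refine DifferentiableAt.fun_sum fun k _ => DifferentiableAt.const_mul ?_ (a k)
      exact (differentiableAt_pi.1 ((A z).vel_diff t (hJ z ht)) k).fun_div
        (differentiableAt_pi.1 ((A z).vel_diff t (hJ z ht)) _) ((A z).vel_ne t (hJ z ht))
    by_cases h0 : hgt (b z) (A z).k a t = 0
    · have hd : deriv (hgt (b z) (A z).k a) t ≠ 0 := fun hd =>
        ha (.inl ⟨z, hz⟩) ⟨t, ht, h0, hd⟩
      simpa [h0] using eventually_ne_of_deriv_ne_zero hdh hd
    · exact (hdh.continuousAt.eventually_ne h0).filter_mono nhdsWithin_le_nhds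
  let crit : ↥(G.double ∩ C ×ˢ C) → Set ℝ := fun z =>
    {t | t ∈ Ioo (-r z) (r z) ∧ hgt (b z) (A z).k a t = 0}
  have hcrit : ∀ z ∈ T, (crit z).Countable := by
    intro z hz
    refine (HereditarilyLindelofSpace.isLindelof (crit z)).countable_of_isDiscrete ?_
    rw [isDiscrete_iff_forall_mem_exists_isOpen]
    rintro t ⟨ht, ht0⟩
    obtain ⟨O, hO, hOo, htO⟩ := eventually_nhds_iff.1 (eventually_nhdsWithin_iff.1 (hiso z hz t ht))
    refine ⟨O, hOo, ?_⟩
    ext s
    constructor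
    · rintro ⟨hs, -, hs0⟩
      by_contra hne
      exact hO s hs hne hs0
    · rintro rfl
      exact ⟨htO, ht, ht0⟩
  -- the curve
  let S : Set (M × M) := G.curve ∩ C ×ˢ C
  haveI : CompactSpace S := isCompact_iff_compactSpace.1
    ((G.isClosed_curve.inter (hC.isClosed.prod hC.isClosed)).isCompact)
  let diag : U0 → S := fun p => ⟨(p.1, p.1), ⟨⟨rfl, Or.inr p.2.1⟩, ⟨p.2.2, p.2.2⟩⟩⟩
  haveI : Fintype U0 := Fintype.ofFinite U0
  let U : Finset S := Finset.univ.image diag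
  have hdiagU : ∀ w : S, w.1.1 = w.1.2 ↔ w ∈ U := by
    intro w
    simp only [U, Finset.mem_image, Finset.mem_univ, true_and]
    constructor
    · intro h
      have hs : w.1.1 ∈ G.sing := w.2.1.2.resolve_left (fun hn => hn h)
      exact ⟨⟨w.1.1, hs, w.2.2.1⟩, Subtype.ext (Prod.ext rfl h)⟩
    · rintro ⟨p, rfl⟩; rfl
  have hdouble : ∀ w : S, w ∉ U → w.1 ∈ G.double ∩ C ×ˢ C := fun w hw =>
    ⟨⟨fun h => hw ((hdiagU w).1 h), w.2.1.1⟩, w.2.2⟩
  have hγS : ∀ z, ∀ t ∈ Ioo (-r z) (r z), γ z t ∈ S := fun z t ht =>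
    ⟨G.mem_curve_iff.2 (Or.inl ((A z).mem t (hJ z ht))), hrC z t ht⟩
  -- open subarcs
  have hsub : ∀ z, ∀ lo hi : ℝ, Ioo lo hi ⊆ Ioo (-r z) (r z) →
      ∃ W' : Set (M × M), IsOpen W' ∧ γ z '' Ioo lo hi = W' ∩ S := by
    intro z lo hi hsub
    obtain ⟨W', hW', he⟩ := (A z).img _ isOpen_Ioo (hsub.trans (hJ z))
    refine ⟨W' ∩ {w | w.1 ≠ w.2}, hW'.inter (isOpen_ne_fun continuous_fst continuous_snd), ?_⟩
    ext w
    constructor
    · rintro ⟨t, ht, rfl⟩
      have h : γ z t ∈ W' ∩ G.double := he ▸ ⟨t, ht, rfl⟩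
      exact ⟨⟨h.1, h.2.1⟩, hγS z t (hsub ht)⟩
    · rintro ⟨⟨hw, hne⟩, ⟨hφ, -⟩, -⟩
      exact (show w ∈ γ z '' Ioo lo hi from he.symm ▸ ⟨hw, hne, hφ⟩)
  let D : DoubleCurve S :=
    { lam := fun w => G.height a w.1
      σ := fun w => ⟨w.1.swap, ⟨⟨w.2.1.1.symm, by
        rcases G.mem_curve_iff.1 w.2.1 with h | h
        · exact Or.inl (Ne.symm h.1)
        · exact Or.inr (show w.1.2 ∈ G.sing from h.1 ▸ h.2)⟩, ⟨w.2.2.2, w.2.2.1⟩⟩⟩
      U := U
      lam_cont := (continuous_finsetSum _ fun k _ => continuous_const.mul ((continuous_apply k).comp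
        (G.phi_continuous.comp continuous_fst))).comp continuous_subtype_val
      σ_cont := Continuous.subtype_mk (continuous_swap.comp continuous_subtype_val) _
      σσ := fun w => rfl
      lam_σ := fun w => by
        simp only [Gen.height, Prod.fst_swap]
        rw [w.2.1.1]
      fix_iff := fun w => by
        rw [← hdiagU w]
        refine ⟨fun h => (congrArg (fun v : S => v.1.1) h).symm, fun h => Subtype.ext ?_⟩
        exact Prod.ext h.symm h
      B := (⋃ z ∈ T, l z '' crit z) ∪ (fun p => ∑ k, a k * G.phi p k) '' U0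
      B_count := (hT.biUnion fun z hz => (hcrit z hz).image _).union (hU0.countable.image _)
      reg := fun w hw => ?_
      arc := fun w hw => ?_
      endArc := fun w hw => ?_ }
  · show Even (G.sing ∩ C).ncard
    have h : D.U.card = U0.ncard := by
      show (Finset.univ.image diag).card = _
      rw [Finset.card_image_of_injective _ fun p q h =>
        Subtype.ext (congrArg (fun v : S => v.1.1) h), Finset.card_univ,
        ← Nat.card_eq_fintype_card, Nat.card_coe_set_eq]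
    exact h ▸ D.even_card
  · have hwU : w ∉ U := fun h => hw (Or.inr ⟨w.1.1,
      ⟨w.2.1.2.resolve_left (fun hn => hn ((hdiagU w).2 h)), w.2.2.1⟩, rfl⟩)
    obtain ⟨z, hz, t, ht, htw⟩ := hcov _ (hdouble w hwU)
    have h0 : hgt (b z) (A z).k a t ≠ 0 := fun h0 => hw
      (Or.inl (mem_iUnion₂.2 ⟨z, hz, t, ⟨ht, h0⟩, congrArg (G.height a) htw⟩))
    have hd : ContinuousAt (hgt (b z) (A z).k a) t := by
      refine DifferentiableAt.continuousAt (𝕜 := ℝ) ?_
      refine DifferentiableAt.fun_sum fun k _ => DifferentiableAt.const_mul ?_ (a k)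
      exact (differentiableAt_pi.1 ((A z).vel_diff t (hJ z ht)) k).fun_div
        (differentiableAt_pi.1 ((A z).vel_diff t (hJ z ht)) _) ((A z).vel_ne t (hJ z ht))
    obtain ⟨e, he, hball⟩ := Metric.eventually_nhds_iff.1
      ((hd.eventually_ne h0).and (isOpen_Ioo.eventually_mem ht))
    have hin : ∀ s ∈ Ioo (t - e) (t + e), hgt (b z) (A z).k a s ≠ 0 ∧ s ∈ Ioo (-r z) (r z) :=
      fun s hs => hball (by rw [Real.dist_eq, abs_lt]; constructor <;> linarith [hs.1, hs.2])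
    obtain ⟨W', hW', he'⟩ := hsub z (t - e) (t + e) fun s hs => (hin s hs).2
    refine ⟨Subtype.val ⁻¹' W', (hW'.preimage continuous_subtype_val).mem_nhds ?_, ?_⟩
    · have : γ z t ∈ W' ∩ S := he' ▸ ⟨t, ⟨by linarith, by linarith⟩, rfl⟩
      show w.1 ∈ W'
      rw [← htw]; exact this.1
    · intro p hp q hq hpq
      obtain ⟨u, hu, hup⟩ : p.1 ∈ γ z '' Ioo (t - e) (t + e) := he' ▸ ⟨hp, p.2⟩
      obtain ⟨u', hu', huq⟩ : q.1 ∈ γ z '' Ioo (t - e) (t + e) := he' ▸ ⟨hq, q.2⟩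
      have hlu : l z u = l z u' := by
        show G.height a (γ z u) = G.height a (γ z u'); rw [hup, huq]; exact hpq
      refine Subtype.ext ?_
      rw [← hup, ← huq]
      congr 1
      by_contra hne
      have hkey : ∀ u v, u ∈ Ioo (t - e) (t + e) → v ∈ Ioo (t - e) (t + e) → u < v →
          l z u ≠ l z v := by
        intro u v hu hv hlt heq
        have hIcc : ∀ s ∈ Icc u v, s ∈ Ioo (t - e) (t + e) := fun s hs =>
          ⟨hu.1.trans_le hs.1, hs.2.trans_lt hv.2⟩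
        obtain ⟨y, hy, hy0⟩ := exists_deriv_eq_zero hlt
          (fun s hs => (hl z s (hin s (hIcc s hs)).2).continuousAt.continuousWithinAt) heq
        have hy' := hin y (hIcc y (Ioo_subset_Icc_self hy))
        rw [(hl z y hy'.2).deriv] at hy0
        exact (mul_eq_zero.1 hy0).elim ((A z).vel_ne y (hJ z hy'.2)) hy'.1
      rcases lt_or_gt_of_ne hne with h | h
      · exact hkey u u' hu hu' h hlu
      · exact hkey u' u hu' hu h hlu.symm
  · obtain ⟨z, hz, t, ht, htw⟩ := hcov _ (hdouble w hw)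
    obtain ⟨e, he, hball⟩ := Metric.eventually_nhds_iff.1
      ((eventually_nhdsWithin_iff.1 (hiso z hz t ht)).and (isOpen_Ioo.eventually_mem ht))
    have hin : ∀ s ∈ Icc (t - e / 2) (t + e / 2),
        (s ∈ ({t}ᶜ : Set ℝ) → hgt (b z) (A z).k a s ≠ 0) ∧ s ∈ Ioo (-r z) (r z) := fun s hs =>
      hball (by rw [Real.dist_eq, abs_lt]; constructor <;> linarith [hs.1, hs.2])
    let g : ℝ → M × M := fun s => γ z (t + e / 2 * s)
    have hmaps : ∀ s ∈ Icc (-1 : ℝ) 1, t + e / 2 * s ∈ Icc (t - e / 2) (t + e / 2) := fun s hs =>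
      ⟨by nlinarith [hs.1], by nlinarith [hs.2]⟩
    obtain ⟨W', hW', he'⟩ := hsub z (t - e / 2) (t + e / 2)
      fun s hs => (hin s (Ioo_subset_Icc_self hs)).2
    have hgS : ∀ s ∈ Icc (-1 : ℝ) 1, g s ∈ S := fun s hs => hγS z _ (hin _ (hmaps s hs)).2
    have himg : g '' Ioo (-1) 1 = W' ∩ S := by
      rw [← he']
      ext x
      constructor
      · rintro ⟨s, hs, rfl⟩
        exact ⟨_, ⟨by nlinarith [hs.1], by nlinarith [hs.2]⟩, rfl⟩
      · rintro ⟨u, hu, rfl⟩
        refine ⟨(u - t) / (e / 2), ⟨?_, ?_⟩, ?_⟩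
        · rw [lt_div_iff₀ (by linarith)]; linarith [hu.1]
        · rw [div_lt_one (by linarith)]; linarith [hu.2]
        · show γ z _ = _; congr 1; field_simp; ring
    have hgc : ContinuousOn g (Icc (-1) 1) := by
      refine ContinuousOn.comp (g := γ z) (t := Ioo (-r z) (r z)) ?_
        (by fun_prop) fun s hs => (hin _ (hmaps s hs)).2
      exact (((G.ψ (A z).i).continuous.comp_continuousOn ((A z).cont.mono (hJ z)).fst)).prodMk
        (((G.ψ (A z).j).continuous.comp_continuousOn ((A z).cont.mono (hJ z)).snd))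
    have hgi : InjOn g (Icc (-1) 1) := by
      intro s hs u hu h
      obtain ⟨h1, h2⟩ := Prod.ext_iff.1 h
      have := (A z).inj (hJ z (hin _ (hmaps s hs)).2) (hJ z (hin _ (hmaps u hu)).2)
        (Prod.ext ((G.ψ (A z).i).injective h1) ((G.ψ (A z).j).injective h2))
      nlinarith [this]
    obtain ⟨c1, c2, c3⟩ := into_props w hgS hgc hgi hW' himg
    refine ⟨into w g, c1, c2, c3, Subtype.ext ?_, fun s hs hs0 => ?_⟩
    · rw [into_val w (hgS 0 ⟨by norm_num, zero_le_one⟩)]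
      simpa [g] using htw
    · show G.height a (into w g s).1 ≠ G.height a w.1
      rw [into_val w (hgS s hs), ← htw]
      exact ne_of_deriv_ne_zero (l := l z) (fun x hx => (hl z x (hin x hx).2).differentiableAt)
        (fun x hx hxt => by
          rw [(hl z x (hin x hx).2).deriv]
          exact mul_ne_zero ((A z).vel_ne x (hJ z (hin x hx).2)) ((hin x hx).1 hxt))
        _ (hmaps s hs) (fun h => hs0 (by
          have : e / 2 * s = 0 := by linarith
          exact (mul_eq_zero.1 this).resolve_left (by linarith)))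
  · obtain ⟨p, -, rfl⟩ := Finset.mem_image.1 hw
    let g : ℝ → M × M := fun s => (E p).γ (ε p * s)
    have hmaps : ∀ s ∈ Icc (-1 : ℝ) 1, ε p * s ∈ Icc (-ε p) (ε p) := fun s hs =>
      ⟨by nlinarith [hs.1, hε0 p], by nlinarith [hs.2, hε0 p]⟩
    have hbig : Icc (-ε p) (ε p) ⊆ Icc (-(E p).ε) (E p).ε := fun s hs =>
      ⟨by linarith [hs.1, hεE p], by linarith [hs.2, hεE p]⟩
    have hgS : ∀ s ∈ Icc (-1 : ℝ) 1, g s ∈ S := fun s hs =>
      ⟨(E p).mem _ (hbig (hmaps s hs)), hεC p _ (hmaps s hs)⟩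
    obtain ⟨W0, hW0, he0⟩ := (E p).img
    let Z : Set (M × M) := (E p).γ '' (Icc (-(E p).ε) (-ε p) ∪ Icc (ε p) (E p).ε)
    have hZ : IsClosed Z := ((isCompact_Icc.union isCompact_Icc).image_of_continuousOn
      ((E p).cont.mono (union_subset (Icc_subset_Icc le_rfl (by linarith [hε0 p, (E p).ε_pos]))
        (Icc_subset_Icc (by linarith [hε0 p, (E p).ε_pos]) le_rfl)))).isClosed
    have himg : g '' Ioo (-1) 1 = (W0 \ Z) ∩ S := by
      ext x
      constructor
      · rintro ⟨s, hs, rfl⟩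
        have hs' := hmaps s (Ioo_subset_Icc_self hs)
        have hsI : ε p * s ∈ Ioo (-ε p) (ε p) :=
          ⟨by nlinarith [hs.1, hε0 p], by nlinarith [hs.2, hε0 p]⟩
        have h : g s ∈ W0 ∩ G.curve := he0 ▸
          ⟨_, ⟨by linarith [hsI.1, hεE p], by linarith [hsI.2, hεE p]⟩, rfl⟩
        refine ⟨⟨h.1, ?_⟩, hgS s (Ioo_subset_Icc_self hs)⟩
        rintro ⟨u, hu, hue⟩
        rcases hu with hu | hu
        · have := (E p).inj ⟨hu.1, by linarith [hu.2, hε0 p, (E p).ε_pos]⟩ (hbig hs') hue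
          linarith [hu.2, hsI.1]
        · have := (E p).inj ⟨by linarith [hu.1, hε0 p, (E p).ε_pos], hu.2⟩ (hbig hs') hue
          linarith [hu.1, hsI.2]
      · rintro ⟨⟨hx, hxZ⟩, hxc, -⟩
        obtain ⟨u, hu, rfl⟩ : x ∈ (E p).γ '' Ioo (-(E p).ε) (E p).ε := he0.symm ▸ ⟨hx, hxc⟩
        have h1 : -ε p < u := by
          by_contra! h; exact hxZ ⟨u, Or.inl ⟨hu.1.le, h⟩, rfl⟩
        have h2 : u < ε p := by
          by_contra! h; exact hxZ ⟨u, Or.inr ⟨h, hu.2.le⟩, rfl⟩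
        refine ⟨u / ε p, ⟨by rw [lt_div_iff₀ (hε0 p)]; linarith, by rwa [div_lt_one (hε0 p)]⟩, ?_⟩
        show (E p).γ _ = _
        rw [mul_div_cancel₀ _ (hε0 p).ne']
    obtain ⟨c1, c2, c3⟩ := into_props (diag p) hgS
      (ContinuousOn.comp (g := (E p).γ) (t := Icc (-(E p).ε) (E p).ε) (E p).cont (by fun_prop)
        fun s hs => hbig (hmaps s hs))
      (fun s hs u hu h => mul_left_cancel₀ (hε0 p).ne'
        ((E p).inj (hbig (hmaps s hs)) (hbig (hmaps u hu)) h))
      (hW0.sdiff hZ) himg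
    have hneg : ∀ s ∈ Icc (-1 : ℝ) 1, -s ∈ Icc (-1 : ℝ) 1 := fun s hs =>
      ⟨by linarith [hs.2], by linarith [hs.1]⟩
    refine ⟨into (diag p) g, c1, c2, c3, Subtype.ext ?_, fun s hs => Subtype.ext ?_,
      fun η hη => ?_⟩
    · rw [into_val _ (hgS 0 ⟨by norm_num, zero_le_one⟩)]
      simp [g, (E p).start, diag]
    · show (into (diag p) g s).1.swap = (into (diag p) g (-s)).1
      rw [into_val _ (hgS s hs), into_val _ (hgS (-s) (hneg s hs))]
      show _ = (E p).γ (ε p * -s)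
      rw [mul_neg, (E p).symm _ (hbig (hmaps s hs))]
    · obtain ⟨n, hn⟩ := exists_nat_one_div_lt (mul_pos (hε0 p) hη)
      obtain ⟨h1, h2⟩ := htn p n
      have hs : tn p n / ε p ∈ Ioo (0 : ℝ) η := by
        refine ⟨div_pos h1 (hε0 p), ?_⟩
        rw [div_lt_iff₀ (hε0 p)]
        linarith [h2.trans_le (min_le_left _ _)]
      have hs1 : tn p n / ε p ∈ Icc (-1 : ℝ) 1 :=
        ⟨by linarith [hs.1], (div_le_one (hε0 p)).2 (h2.le.trans (min_le_right _ _))⟩
      refine ⟨_, hs, ?_⟩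
      show G.height a (into (diag p) g _).1 ≠ G.height a (diag p).1
      rw [into_val _ (hgS _ hs1)]
      intro he
      refine ha (.inr (p, n)) ?_
      simp only [g, Gen.height, mul_div_cancel₀ _ (hε0 p).ne', diag] at he
      simpa [mul_sub, Finset.sum_sub_distrib, sub_eq_zero] using he

end Vale.Agent.P205F.Top
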