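import Vale.Agent.P205F.Top.Generic

/-!
# P205, immersions with a normal field: the singular points of the projection to `ℝ³`

They are isolated, hence finite, and none of them is a double point.
-/

namespace Vale.Agent.P205F.Top

open Set Filter Function Topology
open scoped Manifold ContDiff RealInnerProductSpace

/-- The projection to the first three coordinates. -/
noncomputable def pr3L : R4 →L[ℝ] (Fin 3 → ℝ) :=
  ContinuousLinearMap.pi fun k => EuclideanSpace.proj k.castSucc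

@[simp] theorem pr3L_apply (v : R4) : pr3L v = pr3 v := rfl

theorem dot3_eq (w : Fin 3 → ℝ) (v : R4) : dot3 w v = ∑ k, w k * pr3 v k := rfl

/-- Three vectors of `ℝ³` without a common annihilator are independent. -/
theorem indep_of_no_annihilator {A B C : Fin 3 → ℝ}
    (h : ∀ w : Fin 3 → ℝ, w ≠ 0 →
      ¬(∑ k, w k * A k = 0 ∧ ∑ k, w k * B k = 0 ∧ ∑ k, w k * C k = 0))
    {a b c : ℝ} (e : a • A + b • B + c • C = 0) : a = 0 ∧ b = 0 ∧ c = 0 := by
  let Mx : Matrix (Fin 3) (Fin 3) ℝ := ![A, B, C]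
  have hdet : Mx.det ≠ 0 := by
    intro hd
    obtain ⟨w, hw, hw0⟩ := Matrix.exists_mulVec_eq_zero_iff.2 hd
    refine h w hw ⟨?_, ?_, ?_⟩
    · simpa [Mx, Matrix.mulVec, dotProduct, mul_comm] using congrFun hw0 0
    · simpa [Mx, Matrix.mulVec, dotProduct, mul_comm] using congrFun hw0 1
    · simpa [Mx, Matrix.mulVec, dotProduct, mul_comm] using congrFun hw0 2
  have h0 : Matrix.vecMul ![a, b, c] Mx = 0 := by
    funext k
    have := congrFun e k
    simp [Matrix.vecMul, dotProduct, Fin.sum_univ_three, Mx] at this ⊢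
    linarith
  have hz := Matrix.eq_zero_of_vecMul_eq_zero hdet h0
  exact ⟨congrFun hz 0, congrFun hz 1, congrFun hz 2⟩

/-- Coordinates in the basis `dir s t, ev (s+1)`. -/
theorem exists_coords (s : Fin 2) (t : ℝ) (v : E2) :
    ∃ a b : ℝ, v = a • dir s t + b • ev (s + 1) := by
  refine ⟨v s, v (s + 1) - t * v s, ?_⟩
  ext i
  fin_cases s <;> fin_cases i <;> simp [dir, ev] <;> ring

variable {M : Type*} [TopologicalSpace M] [T2Space M] [CompactSpace M] [ChartedSpace E2 M]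
  [IsManifold (𝓡 2) ∞ M] (G : Gen M)

/-- The map to `ℝ³`. -/
noncomputable def Gen.phi (q : M) : Fin 3 → ℝ := pr3L (G.f q)

/-- The map in a chart of the cover. -/
noncomputable def Gen.F (i : Fin G.K) (z : E2) : R4 := G.f (G.ψ i z)

omit [T2Space M] [CompactSpace M] [IsManifold (𝓡 2) ∞ M] in
theorem Gen.F_smooth (i : Fin G.K) : ContDiff ℝ ∞ (G.F i) := (G.ψ i).contDiff_comp G.smooth

omit [T2Space M] [CompactSpace M] [IsManifold (𝓡 2) ∞ M] in
theorem Gen.phi_continuous : Continuous G.phi := pr3L.continuous.comp G.smooth.continuous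

omit [T2Space M] [CompactSpace M] [IsManifold (𝓡 2) ∞ M] in
theorem Gen.phi_hasFDerivAt (i : Fin G.K) (x : E2) :
    HasStrictFDerivAt (fun z => G.phi (G.ψ i z)) (pr3L.comp (fderiv ℝ (G.F i) x)) x :=
  pr3L.hasStrictFDerivAt.comp x
    ((G.F_smooth i).contDiffAt.hasStrictFDerivAt infty_ne_zero)

/-- The singular points. -/
def Gen.sing : Set M :=
  {p | ∃ (i : Fin G.K) (x v : E2), G.ψ i x = p ∧ v ≠ 0 ∧ pr3 (fderiv ℝ (G.F i) x v) = 0}

omit [T2Space M] [CompactSpace M] [IsManifold (𝓡 2) ∞ M] in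
/-- Singularity does not depend on the chart. -/
theorem Gen.exists_kernel {p : M} (hp : p ∈ G.sing) {j : Fin G.K} {y : E2} (hy : G.ψ j y = p) :
    ∃ v : E2, v ≠ 0 ∧ pr3 (fderiv ℝ (G.F j) y v) = 0 := by
  obtain ⟨i, x, v, hx, hv, h0⟩ := hp
  have hr : (G.ψ i).toFun x ∈ range (G.ψ j).toFun := ⟨y, hy.trans hx.symm⟩
  have hty : (G.ψ j).trans (G.ψ i) x = y := Chart.trans_eq (hx.trans hy.symm)
  refine ⟨fderiv ℝ ((G.ψ j).trans (G.ψ i)) x v, fun h => hv ?_, ?_⟩
  · exact (G.ψ j).trans_fderiv_injective (G.ψ i) hr (h.trans (map_zero _).symm)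
  · have e := fderiv_change (G.ψ j) (G.ψ i) G.smooth hr
    have h1 : fderiv ℝ (G.F i) x v =
        fderiv ℝ (G.F j) y (fderiv ℝ ((G.ψ j).trans (G.ψ i)) x v) := by
      show fderiv ℝ (fun z => G.f ((G.ψ i).toFun z)) x v = _
      rw [e, hty]; rfl
    rw [← h1]; exact h0

omit [T2Space M] [CompactSpace M] [IsManifold (𝓡 2) ∞ M] in
/-- Off the singular set the map is locally injective. -/
theorem Gen.injOn_of_not_sing {p : M} (hp : p ∉ G.sing) :
    ∃ O : Set M, IsOpen O ∧ p ∈ O ∧ InjOn G.phi O ∧ Disjoint O G.sing := by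
  obtain ⟨i, x, rfl⟩ := G.cover p
  let L : E2 →L[ℝ] (Fin 3 → ℝ) := pr3L.comp (fderiv ℝ (G.F i) x)
  have hinj : Injective L := (injective_iff_map_eq_zero _).2 fun v hv => by
    by_contra hv0
    exact hp ⟨i, x, v, rfl, hv0, hv⟩
  obtain ⟨K, hK, hanti⟩ := L.toLinearMap.exists_antilipschitzWith (LinearMap.ker_eq_bot.2 hinj)
  let c : NNReal := K⁻¹ / 2
  have hc : c < K⁻¹ := NNReal.half_lt_self (inv_ne_zero hK.ne')
  obtain ⟨s, hs, hap⟩ := (G.phi_hasFDerivAt i x).approximates_deriv_on_nhds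
    (Or.inr (show 0 < c from div_pos (inv_pos.2 hK) two_pos))
  have hloc : InjOn (fun z => G.phi (G.ψ i z)) s := by
    intro a ha b hb hab
    by_contra hne
    have h1 := hap a ha b hb
    have hab' : G.phi (G.ψ i a) = G.phi (G.ψ i b) := hab
    simp only [hab', sub_self, zero_sub, norm_neg] at h1
    have h2 : ‖a - b‖ ≤ K * ‖L (a - b)‖ := by
      simpa using hanti.le_mul_dist (a - b) 0
    have h3 : (K : ℝ) * c < 1 := by
      have := (mul_lt_mul_of_pos_left (NNReal.coe_lt_coe.2 hc) (NNReal.coe_pos.2 hK))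
      rwa [NNReal.coe_inv, mul_inv_cancel₀ (NNReal.coe_ne_zero.2 hK.ne')] at this
    have h4 : 0 < ‖a - b‖ := norm_pos_iff.2 (sub_ne_zero.2 hne)
    have h5 : (K : ℝ) * ‖L (a - b)‖ ≤ K * (c * ‖a - b‖) :=
      mul_le_mul_of_nonneg_left h1 K.2
    nlinarith
  have hopen : ∀ᶠ z in 𝓝 x, z ∈ s ∧ Injective (pr3L.comp (fderiv ℝ (G.F i) z)) := by
    refine Filter.Eventually.and hs ?_
    have hcont : Continuous fun z => pr3L.comp (fderiv ℝ (G.F i) z) :=
      (continuous_const.clm_comp ((G.F_smooth i).continuous_fderiv infty_ne_zero))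
    exact hcont.continuousAt.eventually
      (ContinuousLinearMap.isOpen_injective.eventually_mem hinj)
  obtain ⟨O', hO', hO'o, hxO'⟩ := eventually_nhds_iff.1 hopen
  refine ⟨G.ψ i '' O', (G.ψ i).open_emb.isOpenMap _ hO'o, ⟨x, hxO', rfl⟩, ?_, ?_⟩
  · rintro _ ⟨a, ha, rfl⟩ _ ⟨b, hb, rfl⟩ hab
    rw [hloc (hO' a ha).1 (hO' b hb).1 hab]
  · refine Set.disjoint_left.2 ?_
    rintro _ ⟨a, ha, rfl⟩ hsing
    obtain ⟨v, hv, h0⟩ := G.exists_kernel hsing (j := i) (y := a) rfl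
    exact hv ((hO' a ha).2 (h0.trans (map_zero _).symm))

omit [T2Space M] [CompactSpace M] [IsManifold (𝓡 2) ∞ M] in
/-- No double point is singular. -/
theorem Gen.not_sing_of_double {p q : M} (hpq : p ≠ q) (h : G.phi p = G.phi q) : p ∉ G.sing := by
  intro hs
  obtain ⟨i, x, v, rfl, hv, h0⟩ := hs
  obtain ⟨j, y, rfl⟩ := G.cover q
  exact hv (G.dbl_imm i j x y v hpq h h0)

omit [T2Space M] [CompactSpace M] [IsManifold (𝓡 2) ∞ M] in
/-- The umbrella condition: an injective derivative. -/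
theorem Gen.umb_inj {i : Fin G.K} {x : E2} {s : Fin 2} {t : ℝ}
    (h0 : pr3 (fderiv ℝ (G.F i) x (dir s t)) = 0) {dm : E2} {c : ℝ}
    (e : pr3 (d2 (G.F i) x (dir s t) dm) + c • pr3 (fderiv ℝ (G.F i) x (ev (s + 1))) = 0) :
    dm = 0 ∧ c = 0 := by
  obtain ⟨a, b, rfl⟩ := exists_coords s t dm
  have hlin : pr3 (d2 (G.F i) x (dir s t) (a • dir s t + b • ev (s + 1))) =
      a • pr3 (d2 (G.F i) x (dir s t) (dir s t))
        + b • pr3 (d2 (G.F i) x (dir s t) (ev (s + 1))) := by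
    simp only [d2, map_add, map_smul]
    rw [← pr3L_apply, map_add, map_smul, map_smul]; rfl
  rw [hlin] at e
  obtain ⟨hc, ha, hb⟩ := indep_of_no_annihilator
    (A := pr3 (fderiv ℝ (G.F i) x (ev (s + 1))))
    (B := pr3 (d2 (G.F i) x (dir s t) (dir s t)))
    (C := pr3 (d2 (G.F i) x (dir s t) (ev (s + 1))))
    (fun w hw => G.umb i x s t w hw h0) (a := c) (b := a) (c := b)
    (by rw [← e]; abel)
  exact ⟨by simp [ha, hb], hc⟩

/-- The slope equation at an umbrella. -/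
noncomputable def slope (F : E2 → R4) (v u : E2) (y : E2 × ℝ) : Fin 3 → ℝ :=
  pr3L (fderiv ℝ F y.1 v) + y.2 • pr3L (fderiv ℝ F y.1 u)

theorem slope_contDiff {F : E2 → R4} (hF : ContDiff ℝ ∞ F) (v u : E2) :
    ContDiff ℝ ∞ (slope F v u) := by
  have hd : ContDiff ℝ ∞ (fderiv ℝ F) := hF.fderiv_right (m := ∞) (by simp)
  exact (pr3L.contDiff.comp ((hd.comp contDiff_fst).clm_apply contDiff_const)).add
    (contDiff_snd.smul (pr3L.contDiff.comp ((hd.comp contDiff_fst).clm_apply contDiff_const)))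

theorem slope_fderiv {F : E2 → R4} (hF : ContDiff ℝ ∞ F) (v u x : E2) (d : E2 × ℝ) :
    fderiv ℝ (slope F v u) (x, 0) d = pr3 (d2 F x v d.1) + d.2 • pr3 (fderiv ℝ F x u) := by
  have hv : ∀ w : E2, DifferentiableAt ℝ (fun z => fderiv ℝ F z w) x := fun w =>
    ((hF.fderiv_right (m := ∞) (by simp)).clm_apply contDiff_const).differentiable infty_ne_zero x
  have h1 := pr3L.hasFDerivAt.comp (x, (0 : ℝ))
    ((hv v).hasFDerivAt.comp (x, (0 : ℝ)) hasFDerivAt_fst)
  have h2 := (hasFDerivAt_snd (p := (x, (0 : ℝ)))).smul (pr3L.hasFDerivAt.comp (x, (0 : ℝ))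
    ((hv u).hasFDerivAt.comp (x, (0 : ℝ)) hasFDerivAt_fst))
  have h : HasFDerivAt (slope F v u) _ (x, 0) := h1.add h2
  rw [h.fderiv]
  simp [d2]

omit [T2Space M] [CompactSpace M] [IsManifold (𝓡 2) ∞ M] in
/-- Singular points are isolated. -/
theorem Gen.sing_isolated {p : M} (hp : p ∈ G.sing) :
    ∃ O : Set M, IsOpen O ∧ p ∈ O ∧ O ∩ G.sing = {p} := by
  obtain ⟨i, x, w, rfl, hw, hw0⟩ := hp
  obtain ⟨s, t, c, hc, rfl⟩ := exists_dir hw
  have h0 : pr3 (fderiv ℝ (G.F i) x (dir s t)) = 0 := by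
    rw [← pr3L_apply, map_smul, map_smul, smul_eq_zero] at hw0
    exact hw0.resolve_left hc
  let v := dir s t
  let u := ev (s + 1)
  let H := slope (G.F i) v u
  let D := fderiv ℝ H (x, 0)
  have hD : Injective D := (injective_iff_map_eq_zero _).2 fun d hd => by
    rw [slope_fderiv (G.F_smooth i)] at hd
    obtain ⟨h1, h2⟩ := G.umb_inj h0 hd
    exact Prod.ext h1 h2
  let e : (E2 × ℝ) ≃L[ℝ] (Fin 3 → ℝ) :=
    (LinearMap.linearEquivOfInjective D.toLinearMap hD (by simp)).toContinuousLinearEquiv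
  have hst : HasStrictFDerivAt H (e : (E2 × ℝ) →L[ℝ] (Fin 3 → ℝ)) (x, 0) := by
    have he : (e : (E2 × ℝ) →L[ℝ] (Fin 3 → ℝ)) = D := ContinuousLinearMap.ext fun d =>
      LinearMap.linearEquivOfInjective_apply hD (by simp) d
    rw [he]
    exact (slope_contDiff (G.F_smooth i) v u).contDiffAt.hasStrictFDerivAt infty_ne_zero
  obtain ⟨V, hV, hVo, hxV⟩ := eventually_nhds_iff.1 hst.eventually_left_inverse
  obtain ⟨ρ, hρ, hball⟩ := Metric.isOpen_iff.1 hVo _ hxV
  have hA0 : pr3 (fderiv ℝ (G.F i) x u) ≠ 0 := fun hu => by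
    have hu' := (G.umb_inj h0 (dm := 0) (c := 1) (by
      rw [hu, smul_zero, add_zero, d2, map_zero]; exact map_zero pr3L)).2
    exact one_ne_zero hu'
  let P : E2 → ℝ := fun z => ‖pr3L (fderiv ℝ (G.F i) z u)‖
  let Q : E2 → ℝ := fun z => ‖pr3L (fderiv ℝ (G.F i) z v)‖
  have hd : Continuous (fderiv ℝ (G.F i)) := (G.F_smooth i).continuous_fderiv infty_ne_zero
  have hP : Continuous P := (pr3L.continuous.comp (hd.clm_apply continuous_const)).norm
  have hQ : Continuous Q := (pr3L.continuous.comp (hd.clm_apply continuous_const)).norm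
  have hPx : 0 < P x := norm_pos_iff.2 hA0
  have hQx : Q x = 0 := by simp [Q, v, h0]
  have hev : ∀ᶠ z in 𝓝 x, z ∈ Metric.ball x ρ ∧ Q z < ρ * P z := by
    refine (Metric.isOpen_ball.eventually_mem (Metric.mem_ball_self hρ)).and ?_
    exact hQ.continuousAt.eventually_lt (continuous_const.mul hP).continuousAt
      (by rw [hQx]; positivity)
  obtain ⟨O, hO, hOo, hxO⟩ := eventually_nhds_iff.1 hev
  refine ⟨G.ψ i '' O, (G.ψ i).open_emb.isOpenMap _ hOo, ⟨x, hxO, rfl⟩, ?_⟩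
  refine Subset.antisymm ?_ (singleton_subset_iff.2 ⟨⟨x, hxO, rfl⟩, i, x, _, rfl, hw, hw0⟩)
  rintro _ ⟨⟨z, hz, rfl⟩, hs⟩
  obtain ⟨w', hw', hw0'⟩ := G.exists_kernel hs (j := i) (y := z) rfl
  obtain ⟨a, b, rfl⟩ := exists_coords s t w'
  obtain ⟨hzρ, hzQ⟩ := hO z hz
  have heq : a • pr3L (fderiv ℝ (G.F i) z v) + b • pr3L (fderiv ℝ (G.F i) z u) = 0 := by
    rw [← map_smul, ← map_smul, ← map_smul, ← map_smul, ← map_add, ← map_add]; exact hw0'
  have hPpos : 0 < P z := by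
    by_contra! h
    nlinarith [norm_nonneg (pr3L (fderiv ℝ (G.F i) z v)), hρ]
  have ha : a ≠ 0 := by
    intro ha
    rw [ha, zero_smul, zero_add, smul_eq_zero] at heq
    rcases heq with hb | hb
    · exact hw' (by rw [ha, hb]; simp)
    · exact hPpos.ne' (norm_eq_zero.2 hb)
  have hH : H (z, b / a) = H (x, 0) := by
    have h1 : a⁻¹ • (a • pr3L (fderiv ℝ (G.F i) z v) + b • pr3L (fderiv ℝ (G.F i) z u)) = 0 := by
      rw [heq, smul_zero]
    rw [smul_add, smul_smul, smul_smul, inv_mul_cancel₀ ha, one_smul, inv_mul_eq_div] at h1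
    simp only [H, slope, zero_smul, add_zero]
    rw [h1]; exact h0.symm
  have hsmall : (z, b / a) ∈ Metric.ball (x, (0 : ℝ)) ρ := by
    rw [Metric.mem_ball, Prod.dist_eq, max_lt_iff]
    refine ⟨hzρ, ?_⟩
    rw [Real.dist_eq, sub_zero]
    have h2 : |a| * Q z = |b| * P z := by
      have := congrArg (‖·‖) (eq_neg_of_add_eq_zero_left heq)
      simpa [norm_smul, P, Q] using this
    rw [abs_div, div_lt_iff₀ (abs_pos.2 ha)]
    by_contra! hle
    nlinarith [mul_le_mul_of_nonneg_right hle hPpos.le, abs_pos.2 ha]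
  have e1 := hV _ (hball hsmall)
  have e2 := hV _ hxV
  rw [hH] at e1
  have := congrArg Prod.fst (e1.symm.trans e2)
  rw [mem_singleton_iff]
  exact congrArg _ this

omit [T2Space M] [IsManifold (𝓡 2) ∞ M] in
theorem Gen.sing_finite : G.sing.Finite := by
  have hcl : IsClosed G.sing := by
    rw [← isOpen_compl_iff, isOpen_iff_mem_nhds]
    intro p hp
    obtain ⟨O, hO, hpO, -, hd⟩ := G.injOn_of_not_sing hp
    exact mem_of_superset (hO.mem_nhds hpO) fun q hq => Set.disjoint_left.1 hd hq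
  refine hcl.isCompact.finite ?_
  rw [isDiscrete_iff_forall_mem_exists_isOpen]
  intro p hp
  obtain ⟨O, hO, -, he⟩ := G.sing_isolated hp
  exact ⟨O, hO, he⟩

end Vale.Agent.P205F.Top
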